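import Crest.Prelude.Def_CStarRep
import Crest.Prelude.Def_FreeEntropy
import Crest.Agent.R134.Fock
import Crest.Agent.R134.Law
import Crest.Agent.R134.Rich

/-! Row 89 (`χ < χ*`): definitions. -/

set_option autoImplicit false
set_option linter.unusedSectionVars false

open scoped InnerProductSpace ComplexOrder NNReal
open Crest.OpAlg Crest.Agent.R124 Crest.Agent.R95 Crest.Agent.R134 MeasureTheory ProbabilityTheory

namespace Crest.Agent.R89

/-- Creation operators over a unitary representation of a group of exponent two. -/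
structure Rel (H : Type*) [NormedAddCommGroup H] [InnerProductSpace ℂ H] [CompleteSpace H]
    (Γ Λ : Type*) [CommGroup Γ] [DecidableEq Γ] [DecidableEq Λ] where
  π : Γ →* (H →L[ℂ] H)
  Ω : H
  l : H →L[ℂ] H
  w : Λ → H →L[ℂ] H
  sq : ∀ g : Γ, g * g = 1
  π_star : ∀ g, star (π g) = π g
  ll : ∀ g, star l * π g * l = if g = 1 then 1 else 0
  lw : ∀ g i, star l * π g * w i = 0
  ww : ∀ g i j, star (w i) * π g * w j = if g = 1 ∧ i = j then 1 else 0
  lΩ : ∀ g, star l (π g Ω) = 0
  wΩ : ∀ g i, star (w i) (π g Ω) = 0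

/-- The cubic `e z e z e z e`. -/
def cub {B : Type*} [Mul B] (e z : B) : B := e * z * e * z * e * z * e

/-- The letters: a small multiple of the hidden semicircular, a sum of cubics, and noise. -/
noncomputable def Rel.x {H : Type*} [NormedAddCommGroup H] [InnerProductSpace ℂ H]
    [CompleteSpace H] {Γ Λ I : Type*} [CommGroup Γ] [DecidableEq Γ] [DecidableEq Λ] [Fintype I]
    (R : Rel H Γ Λ) (e : I → Γ) (jj : I → Λ) (M : ℕ) (κ ν : Λ → ℝ) (i : Λ) : H →L[ℂ] H :=
  (κ i : ℂ) • (R.l + star R.l) +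
    (((√M)⁻¹ : ℝ) : ℂ) • ∑ α with jj α = i, cub (R.π (e α)) (R.l + star R.l) +
    (ν i : ℂ) • (R.w i + star (R.w i))

theorem polyEval_single {B : Type*} [Ring B] [Algebra ℂ B] {n : ℕ} (X : Fin n → B)
    (w : FreeMonoid (Fin n)) (c : ℂ) :
    polyEval X (MonoidAlgebra.single w c) = c • wordEval X w := by
  simp [polyEval, wordEval]

theorem polyEval_eq_sum {B : Type*} [Ring B] [Algebra ℂ B] {n : ℕ} (X : Fin n → B)
    (P : NCPoly n) : polyEval X P = P.coeff.sum fun w c => c • wordEval X w := by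
  simp [polyEval, wordEval, MonoidAlgebra.lift_apply]

theorem wordEval_eq_prod {B : Type*} [Ring B] {n : ℕ} (X : Fin n → B) (w : FreeMonoid (Fin n)) :
    wordEval X w = ((FreeMonoid.toList w).map X).prod := FreeMonoid.lift_apply _ _

theorem wordEval_ofList {B : Type*} [Ring B] {n : ℕ} (X : Fin n → B) (w : List (Fin n)) :
    wordEval X (FreeMonoid.toList.symm w) = (w.map X).prod := by
  rw [wordEval_eq_prod, Equiv.apply_symm_apply]

theorem polyEval_star {B : Type*} [Ring B] [Algebra ℂ B] [StarRing B] [StarModule ℂ B] {n : ℕ}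
    {X : Fin n → B} (hX : ∀ i, star (X i) = X i) (P : NCPoly n) :
    polyEval X (polyStar P) = star (polyEval X P) := by
  have h : ∀ w : List (Fin n), star (w.map X).prod = (w.reverse.map X).prod := fun w => by
    induction w with
    | nil => simp
    | cons a w ih => simp [ih, hX]
  rw [polyEval_eq_sum X P, polyStar, polyEval, Finsupp.sum, Finsupp.sum, map_sum, star_sum]
  refine Finset.sum_congr rfl fun w _ => ?_
  rw [star_smul, wordEval_eq_prod, h, ← wordEval_ofList]
  exact polyEval_single X _ _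

/-- The law of `ι` independent GUE matrices of size `d`, in real coordinates. -/
noncomputable def gm (ι : Type) [Fintype ι] (d : ℕ) : Measure (ι × (Fin d × Fin d) → ℝ) :=
  Measure.pi fun _ => gaussianReal 0 ((d : ℝ≥0)⁻¹)

instance (ι : Type) [Fintype ι] (d : ℕ) : IsProbabilityMeasure (gm ι d) := by
  unfold gm; infer_instance

/-- The Hermitian matrix number `l` with coordinates `a`. -/
noncomputable def Gm {ι : Type} {d : ℕ} (a : ι × (Fin d × Fin d) → ℝ) (l : ι) :
    Matrix (Fin d) (Fin d) ℂ :=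
  hermitianOfCoords (WithLp.toLp 2 fun p => a (l, p))

/-- Normalised trace. -/
noncomputable def ntr {d : ℕ} (x : Matrix (Fin d) (Fin d) ℂ) : ℂ := (d : ℂ)⁻¹ * x.trace

/-- Operator norm of a matrix. -/
noncomputable def opn {d : ℕ} (x : Matrix (Fin d) (Fin d) ℂ) : ℝ :=
  ‖Matrix.toEuclideanCLM (n := Fin d) (𝕜 := ℂ) x‖

/-- A multiple of the regular representation, by Hermitian matrices. -/
def Good {Γ : Type} [CommGroup Γ] [DecidableEq Γ] {d : ℕ} (ρ : Γ →* Matrix (Fin d) (Fin d) ℂ) :
    Prop :=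
  (∀ g, star (ρ g) = ρ g) ∧ ∀ g, ntr (ρ g) = if g = 1 then 1 else 0

end Crest.Agent.R89
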