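import Crest.Agent.R89.Defs

/-! Row 89, task F: free Fisher information and the non-microstates entropy. -/

set_option autoImplicit false
set_option linter.unusedSectionVars false

open scoped InnerProductSpace ComplexOrder NNReal
open Crest.OpAlg Crest.Agent.R124 Crest.Agent.R95 Crest.Agent.R134 MeasureTheory ProbabilityTheory

namespace Crest.Agent.R89

variable {A : Type*} [CStarAlgebra A]

/-- Sketch: `polyEval X P` is self-adjoint (`polyEval_star`), `2 C t - t² ≤ C²`. -/
theorem fisher_le (T : TS A) {n : ℕ} (X : Fin n → A) (hX : ∀ i, IsSelfAdjoint (X i))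
    (C : Fin n → ℝ) (h : ∀ i P, ‖splitPairing T.τ X i P‖ ≤ C i * T.n2 (polyEval X P)) :
    freeFisher T.τ X ≤ ENNReal.ofReal (∑ i, C i ^ 2) := by
  refine iSup₂_le fun P hP => ENNReal.ofReal_le_ofReal ?_
  rw [Complex.re_sum]
  refine Finset.sum_le_sum fun i _ => ?_
  have h1 : star (polyEval X (P i)) = polyEval X (P i) := by
    rw [← polyEval_star (fun j => (hX j).star_eq), hP]
  have h2 := T.n2_sq (polyEval X (P i))
  rw [h1] at h2
  have h3 := (Complex.re_le_norm _).trans (h i (P i))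
  rw [Complex.sub_re, ← h2, two_mul, Complex.add_re]
  nlinarith [sq_nonneg (C i - T.n2 (polyEval X (P i)))]

namespace FI

theorem cont_τ (T : TS A) : Continuous T.τ :=
  AddMonoidHomClass.continuous_of_bound T.τ 1 fun a => by simpa using T.norm_τ_le a

theorem cont_word {n : ℕ} {Y : ℝ → Fin n → A} (hY : ∀ i, Continuous fun s => Y s i)
    (w : FreeMonoid (Fin n)) : Continuous fun s => wordEval (Y s) w := by
  simp only [wordEval_eq_prod]
  induction FreeMonoid.toList w with
  | nil => simpa using continuous_const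
  | cons a w ih =>
    simp only [List.map_cons, List.prod_cons]
    exact (hY a).mul ih

theorem meas (T : TS A) {n : ℕ} {Y : ℝ → Fin n → A} (hY : ∀ i, Continuous fun s => Y s i) :
    Measurable fun s => freeFisher T.τ (Y s) := by
  refine LowerSemicontinuous.measurable (lowerSemicontinuous_iSup fun P =>
    lowerSemicontinuous_iSup fun _ => Continuous.lowerSemicontinuous ?_)
  have h1 : ∀ Q, Continuous fun s => polyEval (Y s) Q := fun Q => by
    simp only [polyEval_eq_sum, Finsupp.sum]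
    exact continuous_finset_sum _ fun w _ => (cont_word hY w).const_smul _
  have h2 : ∀ i Q, Continuous fun s => splitPairing T.τ (Y s) i Q := fun i Q => by
    simp only [splitPairing, Finsupp.sum]
    refine continuous_finset_sum _ fun w _ => continuous_const.mul
      (continuous_finset_sum _ fun k _ => ?_)
    split_ifs
    · exact ((cont_τ T).comp (cont_word hY _)).mul ((cont_τ T).comp (cont_word hY _))
    · exact continuous_const
  refine ENNReal.continuous_ofReal.comp (Complex.continuous_re.comp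
    (continuous_finset_sum _ fun i _ => (continuous_const.mul (h2 i _)).sub
      ((cont_τ T).comp ((h1 _).mul (h1 _)))))

/-- Cramér–Rao lower bound. -/
theorem lower (T : TS A) {n : ℕ} (Y : Fin n → A) (b : Fin n → ℝ) (hb : ∀ i, 0 < b i)
    (h : ∀ i, (T.τ (Y i * Y i)).re = b i) :
    ENNReal.ofReal (∑ i, 1 / b i) ≤ freeFisher T.τ Y := by
  let P : Fin n → NCPoly n := fun i =>
    MonoidAlgebra.single (FreeMonoid.of i) (((1 / b i : ℝ)) : ℂ)
  have hP : ∀ i, polyStar (P i) = P i := fun i => by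
    simp only [polyStar, P, MonoidAlgebra.coeff_single]
    rw [Finsupp.sum_single_index (by simp), Complex.conj_ofReal]
    rfl
  refine le_trans (le_of_eq ?_) (le_iSup₂_of_le P hP le_rfl)
  congr 1
  rw [Complex.re_sum]
  refine Finset.sum_congr rfl fun i _ => ?_
  have e1 : splitPairing T.τ Y i (P i) = ((1 / b i : ℝ) : ℂ) := by
    simp only [splitPairing, P, MonoidAlgebra.coeff_single]
    rw [Finsupp.sum_single_index (by simp)]
    simp [wordEval_eq_prod, T.one]
  have e2 : polyEval Y (P i) = ((1 / b i : ℝ) : ℂ) • Y i := by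
    rw [polyEval_single]; simp [wordEval]
  rw [e1, e2, smul_mul_smul_comm, map_smul, smul_eq_mul, ← Complex.ofReal_mul, Complex.sub_re,
    Complex.re_ofReal_mul, h]
  have := (hb i).ne'
  simp only [two_mul, Complex.add_re, Complex.ofReal_re]
  field_simp
  ring

theorem int1 : IntegrableOn (fun s : ℝ => 1 / (1 + s) ^ 2) (Set.Ioi 0) ∧
    ∫ s in Set.Ioi (0 : ℝ), 1 / (1 + s) ^ 2 = 1 := by
  have hd : ∀ x ∈ Set.Ici (0 : ℝ), HasDerivAt (fun s : ℝ => -(1 + s)⁻¹) (1 / (1 + x) ^ 2) x :=
    fun x hx => by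
      have h0 : (1 + x) ≠ 0 := by have : (0 : ℝ) ≤ x := hx; positivity
      refine (((hasDerivAt_id x).const_add 1).inv h0).neg.congr_deriv ?_
      simp [neg_div]
  have hl : Filter.Tendsto (fun s : ℝ => -(1 + s)⁻¹) Filter.atTop (nhds 0) := by
    simpa using (tendsto_inv_atTop_zero.comp
      (Filter.tendsto_atTop_add_const_left _ (1 : ℝ) Filter.tendsto_id)).neg
  refine ⟨integrableOn_Ioi_deriv_of_nonneg' hd (fun x _ => by positivity) hl, ?_⟩
  rw [integral_Ioi_of_hasDerivAt_of_nonneg' hd (fun x _ => by positivity) hl]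
  simp

theorem int2 {a : ℝ} (ha : 0 < a) (ha1 : a ≤ 1) :
    IntegrableOn (fun s : ℝ => 1 / (1 + s) - 1 / (a + s)) (Set.Ioi 0) ∧
    ∫ s in Set.Ioi (0 : ℝ), (1 / (1 + s) - 1 / (a + s)) = Real.log a := by
  have hd : ∀ x ∈ Set.Ici (0 : ℝ), HasDerivAt (fun s : ℝ => Real.log (1 + (1 - a) * (a + s)⁻¹))
      (1 / (1 + x) - 1 / (a + x)) x := fun x hx => by
    have hx : (0 : ℝ) ≤ x := hx
    have h0 : a + x ≠ 0 := by positivity
    have h1 : 1 + x ≠ 0 := by positivity
    have h2 : 1 + (1 - a) * (a + x)⁻¹ = (1 + x) / (a + x) := by field_simp; ring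
    have h3 : 1 + (1 - a) * (a + x)⁻¹ ≠ 0 := by rw [h2]; positivity
    refine ((((((hasDerivAt_id x).const_add a).inv h0).const_mul (1 - a)).const_add 1).log
      h3).congr_deriv ?_
    change (1 - a) * (-1 / (a + x) ^ 2) / (1 + (1 - a) * (a + x)⁻¹) = _
    rw [h2]
    field_simp
    ring
  have hl : Filter.Tendsto (fun s : ℝ => Real.log (1 + (1 - a) * (a + s)⁻¹)) Filter.atTop
      (nhds 0) := by
    have h1 := ((tendsto_inv_atTop_zero.comp (Filter.tendsto_atTop_add_const_left _ a
      Filter.tendsto_id)).const_mul (1 - a)).const_add 1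
    have := (Real.continuousAt_log (x := 1 + (1 - a) * 0) (by simp)).tendsto.comp h1
    simpa [Function.comp_def] using this
  have hn : ∀ x ∈ Set.Ioi (0 : ℝ), 1 / (1 + x) - 1 / (a + x) ≤ 0 := fun x hx => by
    have hx : (0 : ℝ) < x := hx
    rw [sub_nonpos]
    gcongr
  refine ⟨integrableOn_Ioi_deriv_of_nonpos' hd hn hl, ?_⟩
  rw [integral_Ioi_of_hasDerivAt_of_nonpos' hd hn hl, zero_sub, ← Real.log_inv]
  congr 1
  field_simp
  ring

end FI

open FI in
/-- Sketch. `s ↦ freeFisher (heatTuple X S s)` is a supremum of continuous functions, so lower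
semicontinuous, so measurable. Lower bound `Φ ≥ ∑ 1 / (τ (X i ^ 2) + s)` by testing with
`P i = c • x_i`. The integrand is at least
`2 (1/(1+s) - 1/(ε⁴+s)) - 3 · 1_(0,kε²] / ε² - 15 / (1+s)²`. -/
theorem chiStar_ge (T : TS A) (X S : Fin 5 → A) (hX : ∀ i, IsSelfAdjoint (X i))
    (hS : ∀ i, IsSelfAdjoint (S i)) (hS2 : ∀ i, T.τ (S i * S i) = 1)
    (hXS : ∀ i, T.τ (X i * S i) = 0) {ε k : ℝ} (hε : 0 < ε) (hε1 : ε ≤ 1) (hk : 0 ≤ k)
    (h1 : ∀ s : ℝ, 0 < s → freeFisher T.τ (heatTuple X S s) ≤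
      ENNReal.ofReal (2 / (ε ^ 4 + s) + 3 / (ε ^ 2 + s)))
    (h2 : ∀ s : ℝ, 0 < s → k * ε ^ 2 ≤ s → freeFisher T.τ (heatTuple X S s) ≤
      ENNReal.ofReal (2 / (ε ^ 4 + s) + 12)) :
    IntegrableOn (fun s : ℝ => ((5 : ℕ) : ℝ) / (1 + s) - (freeFisher T.τ (heatTuple X S s)).toReal)
      (Set.Ioi 0) ∧ 4 * Real.log ε - 2 * k - 10 ≤ chiStar T.τ X S := by
  set f := fun s : ℝ => ((5 : ℕ) : ℝ) / (1 + s) - (freeFisher T.τ (heatTuple X S s)).toReal with hf
  have hm : Measurable f := by
    refine Measurable.sub (by fun_prop) (meas T fun i => ?_).ennreal_toReal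
    unfold heatTuple
    fun_prop
  have e4 : 0 < ε ^ 4 := by positivity
  have e2 : 0 < ε ^ 2 := by positivity
  obtain ⟨i1, j1⟩ := int1
  obtain ⟨i2, j2⟩ := int2 e4 (pow_le_one₀ hε.le hε1)
  let a : Fin 5 → ℝ := fun i => T.n2 (X i) ^ 2
  have ha : ∀ i, 0 ≤ a i := fun i => sq_nonneg _
  have hup : ∀ s, 0 < s → f s ≤ (∑ i, a i) * (1 / (1 + s) ^ 2) := fun s hs => by
    have l1 := lower T (heatTuple X S s) (fun i => a i + s) (fun i => by have := ha i; positivity)
      fun i => by
        have q : ((√s : ℝ) : ℂ) * ((√s : ℝ) : ℂ) = s := by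
          rw [← Complex.ofReal_mul, Real.mul_self_sqrt hs.le]
        simp only [heatTuple, mul_add, add_mul, mul_smul_comm, smul_mul_assoc, map_add, map_smul,
          hS2, hXS, T.comm (S i) (X i), smul_zero, add_zero, zero_add, smul_eq_mul, mul_one, q,
          mul_zero, Complex.add_re, Complex.ofReal_re, a, T.n2_sq, (hX i).star_eq]
    have l2 := ENNReal.toReal_mono ((h1 s hs).trans_lt ENNReal.ofReal_lt_top).ne l1
    rw [ENNReal.toReal_ofReal (Finset.sum_nonneg fun i _ => by have := ha i; positivity)] at l2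
    have l3 : ∑ _i : Fin 5, 1 / (1 + s) - ∑ i, 1 / (a i + s) ≤ ∑ i, a i * (1 / (1 + s) ^ 2) := by
      rw [← Finset.sum_sub_distrib]
      refine Finset.sum_le_sum fun i _ => ?_
      have := ha i
      rw [div_sub_div _ _ (by positivity) (by positivity), mul_one_div,
        div_le_div_iff₀ (by positivity) (by positivity)]
      nlinarith [mul_nonneg this hs.le, sq_nonneg (a i - 1), mul_nonneg (mul_nonneg this this) hs.le,
        mul_pos hs hs, mul_nonneg this (mul_pos hs hs).le]
    rw [Finset.sum_mul]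
    simp only [Finset.sum_const, Finset.card_univ, Fintype.card_fin, nsmul_eq_mul, mul_one_div] at l3
    simp only [hf, mul_one_div]
    linarith
  let g : ℝ → ℝ := fun s => 2 * (1 / (1 + s) - 1 / (ε ^ 4 + s)) -
    (Set.Ioc 0 (k * ε ^ 2)).indicator (fun _ => 3 / ε ^ 2) s - 15 * (1 / (1 + s) ^ 2)
  have i3 : IntegrableOn (fun s => (Set.Ioc 0 (k * ε ^ 2)).indicator (fun _ => 3 / ε ^ 2) s)
      (Set.Ioi (0 : ℝ)) :=
    ((integrable_indicator_iff measurableSet_Ioc).2 (integrableOn_const (by simp))).integrableOn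
  have j3 : ∫ s in Set.Ioi (0 : ℝ), (Set.Ioc 0 (k * ε ^ 2)).indicator (fun _ => 3 / ε ^ 2) s =
      3 * k := by
    rw [setIntegral_indicator measurableSet_Ioc, Set.inter_eq_right.2 Set.Ioc_subset_Ioi_self,
      setIntegral_const, Real.volume_real_Ioc_of_le (by positivity), smul_eq_mul]
    field_simp
    ring
  have ig : IntegrableOn g (Set.Ioi 0) :=
    ((i2.const_mul 2).sub i3).sub (i1.const_mul 15)
  have jg : ∫ s in Set.Ioi (0 : ℝ), g s = 8 * Real.log ε - 3 * k - 15 := by
    have k1 := integral_sub ((i2.const_mul 2).sub i3) (i1.const_mul 15)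
    have k2 := integral_sub (i2.const_mul 2) i3
    simp only [Pi.sub_apply] at k1
    rw [k2, integral_const_mul, integral_const_mul, j1, j2, j3, Real.log_pow] at k1
    refine k1.trans ?_
    push_cast
    ring
  have hlo : ∀ s, 0 < s → g s ≤ f s := fun s hs => by
    have l1 := ENNReal.toReal_le_of_le_ofReal (by positivity) (h1 s hs)
    have c0 : ((5 : ℕ) : ℝ) / (1 + s) = 2 * (1 / (1 + s)) + 3 / (1 + s) := by push_cast; ring
    have c1 : 2 / (ε ^ 4 + s) = 2 * (1 / (ε ^ 4 + s)) := by ring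
    have c2 : 0 ≤ 3 / (1 + s) := by positivity
    have c3 : 0 ≤ 15 * (1 / (1 + s) ^ 2) := by positivity
    simp only [g, hf]
    by_cases hsk : s ≤ k * ε ^ 2
    · rw [Set.indicator_of_mem (show s ∈ Set.Ioc 0 (k * ε ^ 2) from ⟨hs, hsk⟩)]
      have : 3 / (ε ^ 2 + s) ≤ 3 / ε ^ 2 := by gcongr; linarith
      linarith
    · rw [Set.indicator_of_notMem fun h => hsk h.2]
      have l2 := ENNReal.toReal_le_of_le_ofReal (by positivity) (h2 s hs (not_le.1 hsk).le)
      rcases le_total s (1 / 4) with h4 | h4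
      · have : 12 ≤ 3 / (1 + s) + 15 * (1 / (1 + s) ^ 2) := by
          rw [mul_one_div, div_add_div _ _ (by positivity) (by positivity),
            le_div_iff₀ (by positivity)]
          nlinarith [mul_pos hs hs, mul_pos hs (mul_pos hs hs)]
        linarith
      · have d1 : 3 / (ε ^ 2 + s) ≤ 3 / s := by gcongr; linarith
        have : 3 / s ≤ 3 / (1 + s) + 15 * (1 / (1 + s) ^ 2) := by
          rw [mul_one_div, div_add_div _ _ (by positivity) (by positivity),
            div_le_div_iff₀ (by positivity) (by positivity)]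
          nlinarith [mul_pos hs hs, mul_pos hs (mul_pos hs hs)]
        linarith
  have hI : IntegrableOn f (Set.Ioi 0) :=
    integrable_of_le_of_le hm.aestronglyMeasurable
      ((ae_restrict_iff' measurableSet_Ioi).2 (.of_forall hlo))
      ((ae_restrict_iff' measurableSet_Ioi).2 (.of_forall hup)) ig (i1.const_mul _)
  refine ⟨hI, ?_⟩
  have l1 := setIntegral_mono_on ig hI measurableSet_Ioi hlo
  have l2 : 0 ≤ Real.log (2 * Real.pi * Real.exp 1) := Real.log_nonneg (by
    nlinarith [Real.pi_gt_three, Real.add_one_le_exp 1])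
  change _ ≤ ((5 : ℕ) : ℝ) / 2 * _ + 1 / 2 * ∫ s in Set.Ioi (0 : ℝ), f s
  push_cast
  linarith

end Crest.Agent.R89
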