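import Crest.Agent.R89.HardB

/-! Row 89: the noise cannot be recovered by polynomials when the side information is weak. -/

set_option autoImplicit false
set_option linter.unusedSectionVars false

open scoped InnerProductSpace ComplexOrder NNReal
open Crest.OpAlg Crest.Agent.R124 Crest.Agent.R95 Crest.Agent.R134 MeasureTheory ProbabilityTheory

namespace Crest.Agent.R89

namespace Hd

variable {H : Type} [NormedAddCommGroup H] [InnerProductSpace ℂ H] [CompleteSpace H]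
variable {Γ Λ I : Type} [CommGroup Γ] [DecidableEq Γ] [DecidableEq Λ] [Fintype Γ] [Fintype Λ]
  [Fintype I] (R : Rel H Γ Λ) (P : Par Γ Λ I)

/-- The letters. -/
noncomputable def xx (i : Λ) : H →L[ℂ] H :=
  (P.κ i : ℂ) • (R.l + star R.l) +
    (P.μ : ℂ) • ∑ α with P.jj α = i, cub (R.π (P.e α)) (R.l + star R.l) +
    (P.ν i : ℂ) • (R.w i + star (R.w i))

/-- Multiplication by the letters. -/
noncomputable def X (y : Γ × Λ → H) : H := ∑ p, R.π p.1 (xx R P p.2 (y p))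

theorem cub_apply {e : Γ} (he : e ≠ 1) (ξ : H) : cub (R.π e) (R.l + star R.l) ξ =
    L R e (L R e (L R e (R.π e ξ)) + L R e (R.π e (star (L R e) ξ)) +
      R.π e (star (L R e) (star (L R e) ξ))) +
      R.π e (star (L R e) (star (L R e) (star (L R e) ξ))) := by
  have h : ∀ η, star R.l (R.π e (R.l η)) = 0 := fun η => by
    have := DFunLike.congr_fun (R.ll e) η
    rwa [if_neg he] at this
  simp only [cub, L, star_mul, R.π_star, mul_apply_eq_comp, add_apply, map_add, h,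
    add_zero]
  abel

theorem L_one (ξ : H) : L R 1 ξ = R.l ξ := by simp [L]

theorem reidx (f : I → Γ → H) : ∑ g, R.π g (∑ α, L R (P.e α) (f α g)) =
    ∑ s, L R s (∑ α, f α (s * P.e α)) := by
  simp only [map_sum, πL]
  rw [Finset.sum_comm, Finset.sum_comm (f := fun s α => L R s (f α (s * P.e α)))]
  refine Finset.sum_congr rfl fun α _ => ?_
  rw [← Equiv.sum_comp (Equiv.mulRight (P.e α))]
  simp only [Equiv.coe_mulRight, mul_assoc, R.sq, mul_one]

theorem X_eq (y : Γ × Λ → H) : X R P y = Nz R P y +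
    ∑ p, (P.ν p.2 : ℂ) • R.π p.1 (star (R.w p.2) (y p)) +
    ∑ g, R.π g (∑ i, (P.κ i : ℂ) • star (L R 1) (y (g, i)) + (P.μ : ℂ) • ∑ α, R.π (P.e α)
      (star (L R (P.e α)) (star (L R (P.e α)) (star (L R (P.e α)) (y (g, P.jj α)))))) +
    ∑ s, L R s (F2 R P y s + ∑ i, (P.κ i : ℂ) • y (s, i) +
      (P.μ : ℂ) • ∑ α, L R (P.e α) (R.π (P.e α) (star (L R (P.e α)) (y (s * P.e α, P.jj α)))) +
      (P.μ : ℂ) • ∑ α, R.π (P.e α)
        (star (L R (P.e α)) (star (L R (P.e α)) (y (s * P.e α, P.jj α))))) := by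
  have h1 : ∀ g, ∑ i, (∑ α with P.jj α = i, cub (R.π (P.e α)) (R.l + star R.l)) (y (g, i)) =
      ∑ α, cub (R.π (P.e α)) (R.l + star R.l) (y (g, P.jj α)) := fun g => by
    rw [← Finset.sum_fiberwise Finset.univ P.jj]
    refine Finset.sum_congr rfl fun i _ => ?_
    rw [sum_apply]
    exact Finset.sum_congr rfl fun α hα => by rw [(Finset.mem_filter.1 hα).2]
  have h2 : X R P y = Nz R P y + ∑ p, (P.ν p.2 : ℂ) • R.π p.1 (star (R.w p.2) (y p)) +
      ∑ g, R.π g (∑ i, (P.κ i : ℂ) • star (L R 1) (y (g, i))) +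
      ∑ s, L R s (∑ i, (P.κ i : ℂ) • y (s, i)) + (P.μ : ℂ) • ∑ g, R.π g
        (∑ α, cub (R.π (P.e α)) (R.l + star R.l) (y (g, P.jj α))) := by
    simp only [← h1, X, xx, Nz, Fintype.sum_prod_type, add_apply, smul_apply, map_add, map_smul,
      map_sum, smul_add, Finset.sum_add_distrib, Finset.smul_sum, map_one, sum_apply,
      mul_apply_eq_comp, L, one_mul]
    abel
  rw [h2]
  simp only [cub_apply R (P.e_ne _), Finset.sum_add_distrib (f := fun α => L R (P.e α) _),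
    map_add (R.π _), Finset.sum_add_distrib (f := fun g => R.π g _), reidx]
  simp only [F2, map_add, map_smul, Finset.sum_add_distrib, smul_add, Finset.smul_sum, map_sum]
  abel

variable {R P} {K : Submodule ℂ H} {J : Type} [Fintype J]

theorem sidon_sum (η : (J × Γ × Λ) × Γ × Λ → H) :
    ∑ α, ∑ β, nn (fun x : J × Γ => η ((x.1, x.2 * P.e α, P.jj α), P.e α * P.e β, P.jj β)) ≤
      3 * Fintype.card I * nn η := by
  classical
  set a : I × I → ℝ := fun p =>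
    nn fun x : J × Γ => η ((x.1, x.2 * P.e p.1, P.jj p.1), P.e p.1 * P.e p.2, P.jj p.2) with ha
  let G : Γ → ℝ := fun g => ∑ x : (J × Γ × Λ) × Λ, ‖η (x.1, g, x.2)‖ ^ 2
  have hG : ∀ g, 0 ≤ G g := fun g => by positivity
  have h1 : ∑ g, G g = nn η ^ 2 := by
    rw [nn_sq, Finset.sum_comm]
    simp only [Fintype.sum_prod_type (α₁ := J × Γ × Λ), Fintype.sum_prod_type (α₁ := Γ) (α₂ := Λ)]
    exact Finset.sum_congr rfl fun x _ => Finset.sum_comm
  have h2 : ∀ p, a p ^ 2 ≤ G (P.e p.1 * P.e p.2) := fun p => by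
    rw [ha, nn_sq]
    refine sum_inj (σ := fun x : J × Γ => ((x.1, x.2 * P.e p.1, P.jj p.1), P.jj p.2))
      (fun x y h => ?_) (f := fun x => ‖η (x.1, P.e p.1 * P.e p.2, x.2)‖ ^ 2) fun _ => by positivity
    simp only [Prod.mk.injEq, mul_left_inj, and_true] at h
    exact Prod.ext h.1 h.2
  have h3 : ∀ p, a p ≤ nn η := fun p => by
    refine (le_abs_self _).trans (abs_le_of_sq_le_sq ((h2 p).trans ?_) (nn_nonneg _))
    rw [← h1]
    exact Finset.single_le_sum (fun g _ => hG g) (Finset.mem_univ _)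
  have h4 : ∑ p : I × I with p.1 ≠ p.2, G (P.e p.1 * P.e p.2) ≤ 2 * nn η ^ 2 := by
    rw [Finset.sum_comp G fun p : I × I => P.e p.1 * P.e p.2, ← h1, Finset.mul_sum]
    refine (Finset.sum_le_sum fun g hg => ?_).trans (Finset.sum_le_sum_of_subset_of_nonneg
      (Finset.subset_univ _) fun g _ _ => by linarith [hG g])
    obtain ⟨⟨α, β⟩, h5, rfl⟩ := Finset.mem_image.1 hg
    have h6 := (Finset.mem_filter.1 h5).2
    rw [nsmul_eq_mul]
    refine mul_le_mul_of_nonneg_right ?_ (hG _)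
    have : _ ≤ 2 := (Finset.card_le_card (t := {(α, β), (β, α)}) (s := {p ∈ {p : I × I | p.1 ≠ p.2} |
        P.e p.1 * P.e p.2 = P.e α * P.e β}) fun p hp => by
      have h7 := (Finset.mem_filter.1 hp).2
      rcases P.sidon α β p.1 p.2 h6 h7.symm with h | h
      · rw [h, mul_right_inj, P.e_inj.eq_iff] at h7
        simp [Prod.ext_iff, h, h7]
      · rw [h, mul_comm, mul_left_inj, P.e_inj.eq_iff] at h7
        simp [Prod.ext_iff, h, h7]).trans Finset.card_le_two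
    exact_mod_cast this
  have h5 : ∑ p : I × I, (if p.1 ≠ p.2 then a p else 0) ≤
      √(Fintype.card (I × I)) * (2 * nn η) := by
    refine sum_le_sqrt (by positivity [nn_nonneg η]) ?_
    refine le_trans ?_ (h4.trans (by nlinarith [sq_nonneg (nn η)]))
    rw [Finset.sum_filter]
    refine Finset.sum_le_sum fun p _ => ?_
    split_ifs
    · exact h2 p
    · simp
  rw [Fintype.card_prod, Nat.cast_mul, Real.sqrt_mul_self (by positivity)] at h5
  have h6 : ∑ p : I × I, (if p.1 = p.2 then nn η else 0) = Fintype.card I * nn η := by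
    simp [Fintype.sum_prod_type]
  have h7 : ∑ p, a p ≤ ∑ p : I × I, ((if p.1 ≠ p.2 then a p else 0) +
      (if p.1 = p.2 then nn η else 0)) := Finset.sum_le_sum fun p _ => by
    by_cases h : p.1 = p.2
    · simpa [h] using h3 p
    · simp [h]
  rw [Finset.sum_add_distrib, h6, Fintype.sum_prod_type] at h7
  simp only [ha] at h7 h5
  linarith

theorem Rep.b21 (hK : ∀ g, ∀ ξ ∈ K, R.π g ξ ∈ K) {y : J × Γ × Λ → H}
    {η : (J × Γ × Λ) × Γ × Λ → H} {u v : (J × Γ × Λ) × Γ → H} (hη : ∀ x, η x ∈ K)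
    (hu : ∀ x, u x ∈ K) (a1 : nn η ≤ 2 * nn y) (a2 : nn u ≤ 12 * nn y) (a3 : Pot R K v (nn y))
    (a4 : ∀ j s, star (L R s) (y j) = F2 R P (fun p => η (j, p)) s + L R 1 (u (j, s)) + v (j, s)) :
    Pot R K (fun x : J × Γ => (P.μ : ℂ) • ∑ α, L R (P.e α) (R.π (P.e α)
      (star (L R (P.e α)) (y (x.1, x.2 * P.e α, P.jj α))))) (nn y / 20) := by
  let σ : I → J × Γ → (J × Γ × Λ) × Γ := fun α x => ((x.1, x.2 * P.e α, P.jj α), P.e α)
  have hσ : Function.Injective fun p : I × J × Γ => σ p.1 p.2 := by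
    rintro ⟨α, j, s⟩ ⟨β, j', s'⟩ h
    simp only [σ, Prod.mk.injEq, P.e_inj.eq_iff] at h
    obtain ⟨⟨rfl, h1, -⟩, rfl⟩ := h
    rw [mul_left_inj] at h1
    rw [h1]
  obtain ⟨c1, hc1, hc1'⟩ := (Pot.L1 (R := R) 1 hu).slices hσ
  obtain ⟨c2, hc2, hc2'⟩ := a3.slices hσ
  have h1 := fun α => ((((pot_F2 (P := P) hK (y := fun (x : J × Γ) p => η ((σ α x).1, p))
    (fun _ _ => hη _) fun _ => P.e α).add (hc1 α)).add (hc2 α)).congr
      fun x => a4 (x.1, x.2 * P.e α, P.jj α) (P.e α)).pi hK (P.e α)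
  have h2 := (Pot.sumL P.e h1).smul P.μ
  rw [P.norm_μ] at h2
  refine h2.mono ?_
  have b1 : nn (fun x : J × Γ => ∑ α, L R (P.e α) (R.π (P.e α)
      (star (L R (P.e α)) (y (x.1, x.2 * P.e α, P.jj α))))) ≤ nn y := by
    refine le_trans (nn_le (nn_nonneg _) ?_) (nn_Ls R y)
    simp only [norm_sumL_sq, norm_π]
    rw [nn_sq, Finset.sum_comm, ← Fintype.sum_prod_type']
    exact sum_inj hσ (f := fun x => ‖star (L R x.2) (y x.1)‖ ^ 2) fun _ => by positivity
  have b2 := nn_slices hσ fun x => F2 R P (fun p => η (x.1, p)) x.2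
  have b3 := nn_F2 R P η
  have b4 := sidon_sum (P := P) η
  simp only [Finset.sum_add_distrib, ← Finset.sum_div, ← Finset.mul_sum]
  simp only [σ] at b2 ⊢
  have hμ := P.μ0
  have hy := nn_nonneg y
  have hN := Real.sqrt_nonneg (Fintype.card I : ℝ)
  have b5 := mul_le_mul_of_nonneg_left (b2.trans (mul_le_mul_of_nonneg_left
    (b3.trans (by linarith : _ ≤ 4 * nn y)) hN)) hμ
  have b6 := mul_le_mul_of_nonneg_left (hc1'.trans (mul_le_mul_of_nonneg_left
    (by linarith : _ ≤ 36 * nn y) hN)) hμ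
  have b7 := mul_le_mul_of_nonneg_left hc2' hμ
  have b8 := mul_le_mul_of_nonneg_left (b4.trans (mul_le_mul_of_nonneg_left a1
    (by positivity))) (sq_nonneg P.μ)
  have b9 := mul_le_mul_of_nonneg_right P.μN' hy
  have b10 := mul_le_mul_of_nonneg_right P.μN hy
  have b11 := mul_le_mul P.μs b1 (nn_nonneg _) (by norm_num)
  nlinarith

theorem Rep.step (h : Rep R P K) (hK : ∀ g, ∀ ξ ∈ K, R.π g ξ ∈ K) {y : J × Γ × Λ → H}
    (hy : ∀ x, y x ∈ K) : ∃ k : J → H, (∀ j, k j ∈ K) ∧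
      Dec R P K (fun j => X R P (fun p => y (j, p)) - k j) y := by
  obtain ⟨η, u, v, hη, hu, a1, a2, a3, a4, a5⟩ := h _ y hy
  have hsl : ∀ i : Λ, Function.Injective fun x : J × Γ => (x.1, x.2, i) := fun i a b h => by
    simp only [Prod.mk.injEq, and_true] at h
    exact Prod.ext h.1 h.2
  have hκ : ∀ c : ℝ, 0 ≤ c → ∑ i, ‖(P.κ i : ℂ)‖ * c ≤ c / 10 ^ 7 := fun c hc => by
    simp only [Complex.norm_real, Real.norm_eq_abs, ← Finset.sum_mul]
    nlinarith [P.κs]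
  have hy0 := nn_nonneg y
  -- terms without creation
  obtain ⟨c3, hc3, hc3'⟩ := h.s2 hK a3 (σ := fun α (x : J × Γ) => ((x.1, x.2, P.jj α), P.e α)) (by
    rintro ⟨α, j, s⟩ ⟨β, j', s'⟩ h
    simp only [Prod.mk.injEq, P.e_inj.eq_iff] at h
    obtain ⟨⟨rfl, rfl, -⟩, rfl⟩ := h
    rfl)
  have p1 := (Pot.sum Finset.univ fun i _ => (((h.q hK hy 1).comp (hsl i)).smul (P.κ i))).mono
    (hκ _ (by positivity))
  have p2 := (Pot.sum Finset.univ fun α _ => (hc3 α).pi hK (P.e α)).smul P.μ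
  rw [P.norm_μ] at p2
  obtain ⟨k, f, hk, hf, hf'⟩ := (p1.add (p2.mono hc3')).shift hK
  -- terms with creation
  obtain ⟨c2, hc2, hc2'⟩ := h.s1 hK a3
    (σ := fun α (x : J × Γ) => ((x.1, x.2 * P.e α, P.jj α), P.e α)) (by
    rintro ⟨α, j, s⟩ ⟨β, j', s'⟩ h
    simp only [Prod.mk.injEq, P.e_inj.eq_iff] at h
    obtain ⟨⟨rfl, h1, -⟩, rfl⟩ := h
    rw [mul_left_inj] at h1
    rw [h1])
  have p3 := (Pot.sum Finset.univ fun i _ =>
    (((Pot.ofK (R := R) hy).comp (hsl i)).smul (P.κ i))).mono (hκ _ (by positivity))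
  have p4 := Rep.b21 hK hη hu a1 a2 a3 a4
  have p5 := (Pot.sum Finset.univ fun α _ => (hc2 α).pi hK (P.e α)).smul P.μ
  rw [P.norm_μ] at p5
  refine ⟨fun j => ∑ p : Γ × Λ, (P.ν p.2 : ℂ) • R.π p.1 (star (R.w p.2) (y (j, p))) + k j +
      ∑ g, R.π g ((P.μ : ℂ) • ∑ α, (P.μ : ℂ) • η ((j, g, P.jj α), 1, P.jj α)), fun j => ?_,
    fun x => (P.μ : ℂ) • ∑ α, (P.μ : ℂ) • R.π (P.e α) (η ((x.1, x.2 * P.e α, P.jj α), 1, P.jj α)),
    _, fun x => K.smul_mem _ (sum_mem fun α _ => K.smul_mem _ (hK _ _ (hη _))), ?_,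
    (((hf.add p3).add p4).add (p5.mono hc2')).mono (by linarith), fun j => ?_⟩
  · refine add_mem (add_mem (sum_mem fun p _ => K.smul_mem _ (hK _ _ ?_)) (hk j))
      (sum_mem fun g _ => hK _ _ (K.smul_mem _ (sum_mem fun α _ => K.smul_mem _ (hη _))))
    have h1 := K.smul_mem (P.ν p.2 : ℂ) (hη ((j, p), 1, p.2))
    have : (P.ν p.2 : ℂ) ≠ 0 := by exact_mod_cast (P.ν0 _).ne'
    simpa [a5, D, smul_smul, this] using h1
  · rw [nn_smul, P.norm_μ]
    have b1 := nn_sum Finset.univ fun α (x : J × Γ) =>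
      (P.μ : ℂ) • R.π (P.e α) (η ((x.1, x.2 * P.e α, P.jj α), 1, P.jj α))
    have b2 : ∀ α ∈ Finset.univ, nn (fun x : J × Γ =>
        (P.μ : ℂ) • R.π (P.e α) (η ((x.1, x.2 * P.e α, P.jj α), 1, P.jj α))) ≤
        P.μ * (2 * nn y) := fun α _ => by
      rw [nn_smul, P.norm_μ]
      refine mul_le_mul_of_nonneg_left ((nn_mono fun j => (norm_π R _ _).le).trans
        ((nn_comp (σ := fun x : J × Γ => ((x.1, x.2 * P.e α, P.jj α), (1 : Γ), P.jj α))
          (fun a b h => ?_) η).trans a1)) P.μ0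
      simp only [Prod.mk.injEq, mul_left_inj, and_true] at h
      exact Prod.ext h.1 h.2
    have b3 := b1.trans (Finset.sum_le_sum b2)
    rw [Finset.sum_const, Finset.card_univ, nsmul_eq_mul] at b3
    nlinarith [mul_le_mul_of_nonneg_left b3 P.μ0, mul_le_mul_of_nonneg_right P.μN hy0]
  · have e1 := hf' j
    have e2 : ∀ g α, R.π (P.e α) (star (L R (P.e α)) (star (L R (P.e α))
        (star (L R (P.e α)) (y (j, g, P.jj α))))) = (P.μ : ℂ) • η ((j, g, P.jj α), 1, P.jj α) +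
          R.π (P.e α) (star (L R (P.e α)) (star (L R (P.e α)) (v ((j, g, P.jj α), P.e α)))) := by
      intro g α
      simp only [a4, map_add, Ls_F2, map_smul, LsL, if_true, ππ', add_zero, R.sq,
        P.e_ne, if_false]
    have e3 : ∀ g α, R.π (P.e α) (star (L R (P.e α)) (star (L R (P.e α)) (y (j, g, P.jj α)))) =
        L R 1 ((P.μ : ℂ) • R.π (P.e α) (η ((j, g, P.jj α), 1, P.jj α))) +
          R.π (P.e α) (star (L R (P.e α)) (v ((j, g, P.jj α), P.e α))) := by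
      intro g α
      simp only [a4, map_add, Ls_F2, Ls_L1, map_smul, πL, add_zero, R.sq]
    simp only [X_eq, e2, e3]
    simp only [map_add, Finset.sum_add_distrib, smul_add] at e1 ⊢
    rw [← sub_eq_iff_eq_add'] at e1
    rw [← e1]
    simp only [map_sum, map_smul]
    abel

/-- One more letter. -/
noncomputable def nxt (R : Rel H Γ Λ) (P : Par Γ Λ I) (K : Submodule ℂ H) : Submodule ℂ H where
  carrier := {ξ | ∃ k ∈ K, ∃ y : Γ × Λ → H, (∀ p, y p ∈ K) ∧ ξ = k + X R P y}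
  zero_mem' := ⟨0, K.zero_mem, 0, fun _ => K.zero_mem, by simp [X]⟩
  add_mem' := by
    rintro _ _ ⟨k, hk, y, hy, rfl⟩ ⟨k', hk', y', hy', rfl⟩
    refine ⟨k + k', add_mem hk hk', y + y', fun p => add_mem (hy p) (hy' p), ?_⟩
    simp only [X, Pi.add_apply, map_add, Finset.sum_add_distrib]
    abel
  smul_mem' := by
    rintro c _ ⟨k, hk, y, hy, rfl⟩
    refine ⟨c • k, K.smul_mem c hk, c • y, fun p => K.smul_mem c (hy p), ?_⟩
    simp only [X, Pi.smul_apply, map_smul, smul_add, Finset.smul_sum]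

theorem le_nxt : K ≤ nxt R P K := fun k hk => ⟨k, hk, 0, fun _ => K.zero_mem, by simp [X]⟩

theorem X_mem {y : Γ × Λ → H} (hy : ∀ p, y p ∈ K) : X R P y ∈ nxt R P K :=
  ⟨0, K.zero_mem, y, hy, (zero_add _).symm⟩

/-- The invariant of the induction. -/
structure Inv (R : Rel H Γ Λ) (P : Par Γ Λ I) (K : Submodule ℂ H) : Prop where
  pi : ∀ g, ∀ ξ ∈ K, R.π g ξ ∈ K
  cl : Cl R P K
  xd : ∀ ζ ∈ K, X R P (fun p => D R P p ζ) ∈ K
  zero : ∀ ζ ∈ K, (∀ p, D R P p ζ = 0) → ζ ∈ K0 R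

theorem Dec.D_eq {ζ : J → H} {η : J × Γ × Λ → H} (h : Dec R P K ζ η) (j : J) (p : Γ × Λ) :
    D R P p (ζ j) = η (j, p) := by
  obtain ⟨u, v, -, -, -, h⟩ := h
  rw [h, map_add, D_Nz, D_L, add_zero]

theorem inv_zero : Inv R P (K0 R) where
  pi g ξ hξ := by
    have : K0 R ≤ (K0 R).comap (R.π g : H →ₗ[ℂ] H) := Submodule.span_le.2 (by
      rintro _ ⟨g', rfl⟩
      exact Submodule.subset_span ⟨g * g', (ππ R _ _ _).symm⟩)
    exact this hξ
  cl J _ ζ hζ := by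
    refine ⟨fun j p => by rw [D_K0 R P p (hζ j)]; exact zero_mem _, ζ, hζ, fun _ => 0, fun _ => 0,
      fun _ => zero_mem _, ?_, .zero _ ?_, fun j => ?_⟩
    · rw [nn_zero]; positivity [nn_nonneg fun x : J × Γ × Λ => D R P x.2 (ζ x.1)]
    · positivity [nn_nonneg fun x : J × Γ × Λ => D R P x.2 (ζ x.1)]
    · simp [D_K0 R P _ (hζ j), Nz, F2]
  xd ζ hζ := by simp [D_K0 R P _ hζ, X]
  zero ζ hζ _ := hζ

theorem Inv.succ (h : Inv R P K) : Inv R P (nxt R P K) := by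
  have hDK : ∀ ζ ∈ K, ∀ p, D R P p ζ ∈ K := fun ζ hζ p => (h.cl Unit (fun _ => ζ) fun _ => hζ).1 () p
  have key : ∀ ζ ∈ nxt R P K, ∃ k ∈ K, ∃ k' ∈ K, ∃ y : Γ × Λ → H, (∀ p, y p ∈ K) ∧
      ζ = k + X R P y ∧ ∀ p, D R P p ζ = D R P p k' + y p := by
    rintro _ ⟨k, hk, y, hy, rfl⟩
    obtain ⟨k', hk', hd⟩ := h.cl.rep.step h.pi (J := Unit) (y := fun x => y x.2) fun x => hy _
    refine ⟨k, hk, k + k' (), add_mem hk (hk' ()), y, hy, rfl, fun p => ?_⟩
    have := hd.D_eq () p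
    simp only [map_sub, map_add] at this ⊢
    rw [← this]
    abel
  have hD : ∀ ζ ∈ nxt R P K, ∀ p, D R P p ζ ∈ K := fun ζ hζ p => by
    obtain ⟨k, -, k', hk', y, hy, -, h1⟩ := key ζ hζ
    rw [h1]
    exact add_mem (hDK _ hk' p) (hy p)
  have hz : ∀ ζ ∈ nxt R P K, (∀ p, D R P p ζ = 0) → ζ ∈ K0 R := fun ζ hζ h0 => by
    obtain ⟨k, hk, k', hk', y, hy, h1, h2⟩ := key ζ hζ
    refine h.zero ζ ?_ h0
    have : X R P y = -X R P fun p => D R P p k' := by
      rw [X, X, ← Finset.sum_neg_distrib]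
      refine Finset.sum_congr rfl fun p _ => ?_
      rw [eq_neg_of_add_eq_zero_right ((h2 p).symm.trans (h0 p)), map_neg, map_neg]
    rw [h1, this]
    exact add_mem hk (neg_mem (h.xd _ hk'))
  refine ⟨?_, fun J _ ζ hζ => ⟨fun j p => le_nxt (hD _ (hζ j) p), ?_⟩,
    fun ζ hζ => X_mem (hD ζ hζ), hz⟩
  · rintro g _ ⟨k, hk, y, hy, rfl⟩
    refine ⟨_, h.pi g k hk, fun p => y (g * p.1, p.2), fun p => hy _, ?_⟩
    rw [map_add, X, X, map_sum, ← Equiv.sum_comp ((Equiv.mulLeft g).prodCongr (Equiv.refl Λ))]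
    congr 1
    refine Finset.sum_congr rfl fun p _ => ?_
    simp only [ππ, ← mul_assoc, R.sq, Prod.map, Equiv.prodCongr_apply, Equiv.coe_mulLeft,
      Equiv.coe_refl, id, one_mul]
  · obtain ⟨k, hk, hd⟩ := h.cl.rep.step h.pi (y := fun x : J × Γ × Λ => D R P x.2 (ζ x.1))
      fun x => hD _ (hζ _) _
    refine ⟨fun j => ζ j - (X R P (fun p => D R P p (ζ j)) - k j), fun j => hz _
      (sub_mem (hζ j) (sub_mem (X_mem (hD _ (hζ j))) (le_nxt (hk j)))) fun p => ?_, ?_⟩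
    · rw [map_sub, hd.D_eq j p, sub_self]
    · obtain ⟨u, v, h1, h2, h3, h4⟩ := hd
      exact ⟨u, v, fun x => le_nxt (h1 x), h2, h3.monoK le_nxt, fun j => by
        simpa only [sub_sub_cancel] using h4 j⟩

theorem main (R : Rel H Γ Λ) (P : Par Γ Λ I) (ξ : H) (hξ : ∀ U : Submodule ℂ H, R.Ω ∈ U →
    (∀ g, ∀ η ∈ U, R.π g η ∈ U) → (∀ i, ∀ η ∈ U, xx R P i η ∈ U) → ξ ∈ U) (i : Λ) :
    ‖star (R.w i) ξ‖ ≤ 2 * P.ν i * ‖ξ‖ := by
  classical
  let K : ℕ → Submodule ℂ H := fun n => (nxt R P)^[n] (K0 R)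
  have hs : ∀ n, K (n + 1) = nxt R P (K n) := fun n => Function.iterate_succ_apply' _ _ _
  have hI : ∀ n, Inv R P (K n) := fun n => by
    induction n with
    | zero => exact inv_zero
    | succ n ih => rw [hs]; exact ih.succ
  have hm : Monotone K := monotone_nat_of_le_succ fun n => by rw [hs]; exact le_nxt
  have hmem : ∀ η, η ∈ ⨆ n, K n ↔ ∃ n, η ∈ K n := fun η =>
    Submodule.mem_iSup_of_directed _ hm.directed_le
  obtain ⟨n, hn⟩ := (hmem ξ).1 (hξ _ ((hmem _).2 ⟨0, Submodule.subset_span ⟨1, by simp⟩⟩)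
    (fun g η hη => by
      obtain ⟨n, hn⟩ := (hmem η).1 hη
      exact (hmem _).2 ⟨n, (hI n).pi g η hn⟩)
    fun i η hη => by
      obtain ⟨n, hn⟩ := (hmem η).1 hη
      refine (hmem _).2 ⟨n + 1, ?_⟩
      have := X_mem (R := R) (P := P) (K := K n) (y := fun p => if p = (1, i) then η else 0)
        fun p => by split_ifs; exacts [hn, zero_mem _]
      rw [X, Finset.sum_eq_single (1, i) (fun p _ hp => by simp [hp]) (by simp)] at this
      rw [hs]
      simpa using this)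
  obtain ⟨η, -, -, -, -, h1, -, -, -, h2⟩ := (hI n).cl.rep Unit (fun _ => ξ) fun _ => hn
  have h3 := (norm_le_nn η ((), 1, i)).trans h1
  have h4 : nn (fun _ : Unit => ξ) ≤ ‖ξ‖ := nn_le (norm_nonneg _) (by simp)
  have h5 := P.ν0 i
  rw [h2] at h3
  simp only [D, smul_apply, mul_apply_eq_comp, map_one, one_apply_eq_self, norm_smul, norm_inv,
    Complex.norm_real, Real.norm_of_nonneg h5.le] at h3
  rw [inv_mul_le_iff₀ h5] at h3
  nlinarith

end Hd

theorem hard : ∃ M : ℕ, 0 < M ∧ ∃ κ0 : ℝ, 0 < κ0 ∧ ∀ (H Γ Λ I : Type) [NormedAddCommGroup H]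
    [InnerProductSpace ℂ H] [CompleteSpace H] [CommGroup Γ] [DecidableEq Γ] [DecidableEq Λ]
    [Fintype Γ] [Fintype Λ] [Fintype I] (R : Rel H Γ Λ) (e : I → Γ) (jj : I → Λ) (κ ν : Λ → ℝ),
    Function.Injective e → (∀ α, e α ≠ 1) →
    (∀ α β α' β', α ≠ β → e α * e β = e α' * e β' → α' = α ∨ α' = β) →
    Fintype.card I ≤ 3 * M → Fintype.card Λ ≤ 5 → (∀ i, |κ i| ≤ κ0) → (∀ i, 0 < ν i) →
    (∀ i, ν i = 1 ∨ (Finset.univ.filter fun α => jj α = i).card = M) →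
    ∀ ξ : H, (∀ U : Submodule ℂ H, R.Ω ∈ U → (∀ g, ∀ η ∈ U, R.π g η ∈ U) →
      (∀ i, ∀ η ∈ U, R.x e jj M κ ν i η ∈ U) → ξ ∈ U) →
    ∀ i, ‖star (R.w i) ξ‖ ≤ 2 * ν i * ‖ξ‖ := by
  refine ⟨10 ^ 24, by positivity, 1 / (5 * 10 ^ 7), by positivity, ?_⟩
  intro H Γ Λ I _ _ _ _ _ _ _ _ _ R e jj κ ν h1 h2 h3 h4 h5 h6 h7 h8 ξ hξ i
  have hs : √((10 ^ 24 : ℕ) : ℝ) = 10 ^ 12 := by
    rw [Real.sqrt_eq_iff_mul_self_eq (by positivity) (by positivity)]; norm_num
  let P : Hd.Par Γ Λ I :=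
    { e := e, jj := jj, μ := (√((10 ^ 24 : ℕ) : ℝ))⁻¹, κ := κ, ν := ν, e_inj := h1, e_ne := h2,
      sidon := h3, μ0 := by positivity, ν0 := h7
      μN := by
        have : (Fintype.card I : ℝ) ≤ 3 * 10 ^ 24 := by exact_mod_cast h4
        rw [hs]
        linarith
      μs := by rw [hs]; norm_num
      κs := by
        have := Finset.sum_le_sum fun i (_ : i ∈ Finset.univ) => h6 i
        rw [Finset.sum_const, Finset.card_univ, nsmul_eq_mul] at this
        have h : (Fintype.card Λ : ℝ) ≤ 5 := by exact_mod_cast h5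
        nlinarith
      fib := fun i => (h8 i).imp id fun h => by rw [h, hs]; norm_num }
  exact Hd.main R P ξ hξ i

end Crest.Agent.R89
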