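import Crest.Agent.R89.Defs

/-! Row 89, task M: freeness in the Fock model. -/

set_option autoImplicit false
set_option linter.unusedSectionVars false

open scoped InnerProductSpace ComplexOrder NNReal
open Crest.OpAlg Crest.Agent.R124 Crest.Agent.R95 Crest.Agent.R134 MeasureTheory ProbabilityTheory

namespace Crest.Agent.R89

variable {H : Type*} [NormedAddCommGroup H] [InnerProductSpace ℂ H] [CompleteSpace H]
variable {I : Type*} (F : Fock I H)

namespace MA

/-- Span of the creation words over `J`. -/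
def V (J : Set I) : Submodule ℂ (H →L[ℂ] H) :=
  Submodule.span ℂ {b | ∃ w : List I, (∀ k ∈ w, k ∈ J) ∧ b = (w.map F.l).prod}

/-- `a` acts as a combination of creation words on the vectors killed by the annihilators. -/
def Q (J : Set I) (a : H →L[ℂ] H) : Prop :=
  ∃ b ∈ V F J, ∀ η, (∀ k ∈ J, star (F.l k) η = 0) → a η = b η

theorem Q_s {J : Set I} {k : I} (hk : k ∈ J) {a : H →L[ℂ] H} (ha : Q F J a) :
    Q F J (F.s k * a) := by
  classical
  obtain ⟨b, hb, h⟩ := ha
  suffices h2 : Q F J (F.s k * b) by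
    obtain ⟨c, hc, h2⟩ := h2
    exact ⟨c, hc, fun η hη => by rw [← h2 η hη, mul_apply_eq_comp, mul_apply_eq_comp, h η hη]⟩
  clear h
  induction hb using Submodule.span_induction with
  | mem x hx =>
    obtain ⟨w, hw, rfl⟩ := hx
    have h1 : ((k :: w).map F.l).prod ∈ V F J :=
      Submodule.subset_span ⟨k :: w, by simpa [hk] using hw, rfl⟩
    rcases w with _ | ⟨j, w⟩
    · exact ⟨_, h1, fun η hη => by simp [Fock.s, hη k hk]⟩
    · have h2 : (w.map F.l).prod ∈ V F J :=
        Submodule.subset_span ⟨w, fun i hi => hw i (List.mem_cons_of_mem _ hi), rfl⟩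
      refine ⟨_, add_mem h1 (Submodule.smul_mem _ (if k = j then (1 : ℂ) else 0) h2),
        fun η _ => ?_⟩
      have := DFunLike.congr_fun (F.ll k j) ((w.map F.l).prod η)
      split_ifs at this ⊢ <;> simpa [Fock.s] using this
  | zero => exact ⟨0, zero_mem _, fun η _ => by simp⟩
  | add x y _ _ hx hy =>
    obtain ⟨c, hc, h1⟩ := hx
    obtain ⟨d, hd, h2⟩ := hy
    exact ⟨c + d, add_mem hc hd, fun η hη => by rw [mul_add, add_apply, h1 η hη, h2 η hη]; rfl⟩
  | smul r x _ hx =>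
    obtain ⟨c, hc, h1⟩ := hx
    exact ⟨r • c, Submodule.smul_mem _ _ hc, fun η hη => by
      rw [mul_smul_comm, smul_apply, h1 η hη]; rfl⟩

theorem Q_adj {J : Set I} {a : H →L[ℂ] H} (ha : a ∈ StarAlgebra.adjoin ℂ (F.s '' J)) :
    Q F J a := by
  have h : ∀ c, Q F J c → Q F J (a * c) := by
    have ha' : a ∈ Algebra.adjoin ℂ (F.s '' J ∪ star (F.s '' J)) := by
      rw [← StarAlgebra.adjoin_toSubalgebra]; exact ha
    clear ha
    induction ha' using Algebra.adjoin_induction with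
    | mem x hx =>
      intro c hc
      rcases hx with ⟨k, hk, rfl⟩ | ⟨k, hk, h⟩
      · exact Q_s F hk hc
      · have : x = F.s k := by rw [← star_star x, ← h, (F.s_sa k).star_eq]
        rw [this]
        exact Q_s F hk hc
    | algebraMap r =>
      rintro c ⟨b, hb, h⟩
      exact ⟨r • b, Submodule.smul_mem _ _ hb, fun η hη => by
        rw [← Algebra.smul_def, smul_apply, h η hη]; rfl⟩
    | add x y _ _ hx hy =>
      intro c hc
      obtain ⟨b, hb, h1⟩ := hx c hc
      obtain ⟨d, hd, h2⟩ := hy c hc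
      exact ⟨b + d, add_mem hb hd, fun η hη => by rw [add_mul, add_apply, h1 η hη, h2 η hη]; rfl⟩
    | mul x y _ _ hx hy =>
      intro c hc
      rw [mul_assoc]
      exact hx _ (hy c hc)
  simpa using h 1 ⟨1, Submodule.subset_span ⟨[], by simp, rfl⟩, fun _ _ => rfl⟩

theorem inner_V {J : Set I} {b : H →L[ℂ] H} (hb : b ∈ V F J) (η : H) {η' : H}
    (hη' : ∀ k ∈ J, star (F.l k) η' = 0) :
    ⟪η', b η⟫_ℂ = ⟪F.Ω, b F.Ω⟫_ℂ * ⟪η', η⟫_ℂ := by
  induction hb using Submodule.span_induction with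
  | mem x hx =>
    obtain ⟨w, hw, rfl⟩ := hx
    rcases w with _ | ⟨j, w⟩
    · simp [F.norm_Ω]
    · simp only [List.map_cons, List.prod_cons, mul_apply_eq_comp]
      rw [FA.inner_star, FA.inner_star (F.l j), hη' j (hw j List.mem_cons_self), F.lΩ]
      simp
  | zero => simp
  | add x y _ _ hx hy => simp only [add_apply, inner_add_right, hx, hy, add_mul]
  | smul r x _ hx => simp only [smul_apply, inner_smul_right, hx, mul_assoc]

end MA

open MA in
theorem freeJ (J : Set I) {a : H →L[ℂ] H} (ha : a ∈ W (F.s '' J)) {η η' : H}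
    (hη : ∀ k ∈ J, star (F.l k) η = 0) (hη' : ∀ k ∈ J, star (F.l k) η' = 0) :
    ⟪η', a η⟫_ℂ = ⟪F.Ω, a F.Ω⟫_ℂ * ⟪η', η⟫_ℂ := by
  classical
  rw [← sub_eq_zero, ← norm_le_zero_iff]
  refine le_of_forall_pos_le_add fun ε hε => ?_
  set C := ‖η'‖ + ‖η'‖ * ‖η‖ + 1 with hC
  have hC0 : 0 < C := by positivity
  obtain ⟨c, hc, h⟩ := FA.W_approx ha {η, F.Ω} (div_pos hε hC0)
  obtain ⟨b, hb, h2⟩ := Q_adj F hc
  have e1 := inner_V F hb η hη'
  rw [← h2 η hη, ← h2 F.Ω fun k _ => F.lΩ k] at e1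
  have e2 : ⟪η', a η⟫_ℂ - ⟪F.Ω, a F.Ω⟫_ℂ * ⟪η', η⟫_ℂ =
      ⟪F.Ω, c F.Ω - a F.Ω⟫_ℂ * ⟪η', η⟫_ℂ - ⟪η', c η - a η⟫_ℂ := by
    simp only [inner_sub_right, e1]; ring
  have a1 := h η (by simp)
  have a2 := h F.Ω (by simp)
  have b1 : ‖⟪F.Ω, c F.Ω - a F.Ω⟫_ℂ‖ ≤ ε / C :=
    (norm_inner_le_norm _ _).trans (by rw [F.norm_Ω, one_mul]; exact a2)
  have b2 : ‖⟪η', c η - a η⟫_ℂ‖ ≤ ‖η'‖ * (ε / C) :=
    (norm_inner_le_norm _ _).trans (by gcongr)
  have b3 : ‖⟪η', η⟫_ℂ‖ ≤ ‖η'‖ * ‖η‖ := norm_inner_le_norm _ _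
  rw [e2, zero_add]
  calc _ ≤ ε / C * (‖η'‖ * ‖η‖) + ‖η'‖ * (ε / C) :=
        (norm_sub_le _ _).trans (by rw [norm_mul]; gcongr)
    _ = ε / C * (C - 1) := by rw [hC]; ring
    _ ≤ ε / C * C := by gcongr; linarith
    _ = ε := by field_simp

theorem faithful : IsFaithfulTracialState (ts F.tr).τ := by
  refine ⟨(ts F.tr).one, fun a => ?_, fun a h => ?_, (ts F.tr).comm⟩
  · have := Complex.nonneg_iff.1 ((ts F.tr).pos a)
    exact ⟨this.2.symm, this.1⟩
  · refine ts_faith F.tr a ?_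
    rw [TS.n2_eq, h]; simp

namespace MA

theorem ssum_rep {Λ M : Type*} [AddCommMonoid M] (a : Λ) (G : List Λ → Λ → List Λ → M) (k : ℕ) :
    ssum G (List.replicate k a) =
      ∑ i ∈ Finset.range k, G (List.replicate i a) a (List.replicate (k - 1 - i) a) := by
  induction k generalizing G with
  | zero => simp
  | succ k ih =>
    rw [List.replicate_succ, ssum_cons, ih, Finset.sum_range_succ', add_comm]
    congr 1
    refine Finset.sum_congr rfl fun i _ => ?_
    rw [List.replicate_succ]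
    congr 2
    omega

theorem cat_of_rec (m : ℕ → ℂ) (h0 : m 0 = 1)
    (h : ∀ k, m (k + 1) = ∑ i ∈ Finset.range k, m i * m (k - 1 - i)) (k : ℕ) :
    m (2 * k) = catalan k ∧ m (2 * k + 1) = 0 := by
  induction k using Nat.strong_induction_on with
  | _ k ih =>
    have hodd : ∀ j, j < k → m (2 * j + 1) = 0 := fun j hj => (ih j hj).2
    have h2 : m (2 * k + 1) = 0 := by
      rw [h]
      refine Finset.sum_eq_zero fun i hi => ?_
      rw [Finset.mem_range] at hi
      rcases Nat.even_or_odd' i with ⟨j, rfl | rfl⟩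
      · rw [show 2 * k - 1 - 2 * j = 2 * (k - 1 - j) + 1 by omega, hodd _ (by omega), mul_zero]
      · rw [hodd j (by omega), zero_mul]
    refine ⟨?_, h2⟩
    rcases k with _ | k
    · simpa using h0
    · rw [show 2 * (k + 1) = 2 * k + 1 + 1 by ring, h, catalan_succ, Nat.cast_sum]
      have e : ∀ n, n ≤ k → ∑ i ∈ Finset.range (2 * n + 1), m i * m (2 * k + 1 - 1 - i) =
          ∑ i ∈ Finset.range (n + 1), m (2 * i) * m (2 * (k - i)) := by
        intro n hn
        induction n with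
        | zero => simp
        | succ n ihn =>
          rw [show 2 * (n + 1) + 1 = 2 * n + 1 + 1 + 1 by ring, Finset.sum_range_succ,
            Finset.sum_range_succ, ihn (by omega), hodd n (by omega), zero_mul, add_zero,
            Finset.sum_range_succ _ (n + 1)]
          congr 3; omega
      rw [e k le_rfl, Finset.sum_range]
      refine Finset.sum_congr rfl fun i _ => ?_
      rw [(ih i (by omega)).1, (ih (k - i) (by omega)).1, Nat.cast_mul]

end MA

open MA in
theorem semicirc {n : ℕ} (e : Fin n → I) :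
    IsStandardSemicircular (ts F.tr).τ fun i => F.sA (e i) := by
  classical
  refine ⟨fun i => Subtype.ext (F.s_sa (e i)).star_eq, fun i k => ?_⟩
  have hsd := (F.sd ∅ (fun _ : Unit => e i) (fun _ _ _ => rfl) fun _ h => h).2 () trivial
  have hw : ∀ j, wp (fun _ : Unit => F.sA (e i)) (List.replicate j (Sum.inl ())) =
      F.sA (e i) ^ j := fun j => by simp [wp]
  refine cat_of_rec (fun j => (ts F.tr).τ (F.sA (e i) ^ j)) (by simpa using (ts F.tr).one)
    (fun j => ?_) k
  have := hsd (List.replicate j (Sum.inl ())) fun x hx => by simp at hx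
  rw [ssum_rep, hw, ← pow_succ'] at this
  simpa only [if_true, hw] using this

namespace MA

theorem poly_mem {M : VonNeumannAlgebra H} (N : VonNeumannAlgebra H) {n : ℕ}
    (X : Fin n → Alg M) (hX : ∀ i, (X i).1 ∈ N) (P : NCPoly n) : (polyEval X P).1 ∈ N := by
  change polyEval X P ∈ sub M N
  rw [polyEval_eq_sum]
  refine sum_mem fun w _ => SMulMemClass.smul_mem _ ?_
  rw [wordEval_eq_prod]
  refine list_prod_mem fun x hx => ?_
  obtain ⟨i, -, rfl⟩ := List.mem_map.1 hx
  exact hX i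

theorem step {J : Set I} {a : H →L[ℂ] H} (ha : a ∈ W (F.s '' J)) (h0 : ⟪F.Ω, a F.Ω⟫_ℂ = 0)
    {η : H} (hη : ∀ k ∈ J, star (F.l k) η = 0) {j : I} (hj : j ∉ J) : star (F.l j) (a η) = 0 := by
  classical
  refine ext_inner_left ℂ fun ζ => ?_
  rw [FA.inner_star, star_star, freeJ F J ha hη, h0, zero_mul, inner_zero_right]
  intro k hk
  have := DFunLike.congr_fun (F.ll k j) ζ
  rwa [if_neg (fun h : k = j => hj (h ▸ hk))] at this

end MA

open MA in
theorem freeFamily (J : Set I) {n : ℕ} (e : Fin n → I) (he : Function.Injective e)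
    (hJ : ∀ i, e i ∉ J) (X : Fin n → Alg F.M) (hX : ∀ i, (X i).1 ∈ W (F.s '' J)) :
    IsFreeFamily (ts F.tr).τ (withNoise X fun i => F.sA (e i)) := by
  let JJ : Option (Fin n) → Set I := fun t => t.elim J fun i => {e i}
  have hd : ∀ t t', t ≠ t' → ∀ k ∈ JJ t', k ∉ JJ t := by
    rintro (_ | i) (_ | j) h k hk hk'
    · exact h rfl
    · exact hJ j ((show k = e j from hk) ▸ hk')
    · exact hJ i ((show k = e i from hk') ▸ hk)
    · exact h (congrArg some (he ((show k = e i from hk').symm.trans hk)))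
  set G := withNoise X fun i => F.sA (e i) with hG
  have hm : ∀ t P, (polyEval (G t) P).1 ∈ W (F.s '' JJ t) := fun t P => by
    refine poly_mem _ _ (fun i => ?_) P
    rcases t with _ | j
    · exact hX i
    · exact subset_W ⟨e j, rfl, rfl⟩
  have key : ∀ l : List (Option (Fin n) × NCPoly n), l.IsChain (fun a b => a.1 ≠ b.1) →
      (∀ x ∈ l, (ts F.tr).τ (polyEval (G x.1) x.2) = 0) → ∀ t, (∀ x ∈ l.head?, t ≠ x.1) →
      ∀ k ∈ JJ t, star (F.l k) ((l.map fun x => polyEval (G x.1) x.2).prod.1 F.Ω) = 0 := by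
    intro l
    induction l with
    | nil => exact fun _ _ _ _ k _ => F.lΩ k
    | cons x l ih =>
      intro hc h0 t ht k hk
      have h1 := ih hc.tail (fun y hy => h0 y (List.mem_cons_of_mem _ hy)) x.1
        fun y hy => hc.rel_head? hy
      exact step F (hm x.1 x.2) (by rw [← F.τ_eq]; exact h0 x List.mem_cons_self) h1
        (hd _ _ (ht x rfl).symm k hk)
  rintro (_ | ⟨x, l⟩) hl hc h0
  · exact absurd rfl hl
  · have h1 := key l hc.tail (fun y hy => h0 y (List.mem_cons_of_mem _ hy)) x.1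
      fun y hy => hc.rel_head? hy
    have h2 := freeJ F _ (hm x.1 x.2) h1 fun k _ => F.lΩ k
    rw [← F.τ_eq (polyEval (G x.1) x.2), h0 x List.mem_cons_self, zero_mul] at h2
    rw [F.τ_eq]
    exact h2

namespace MA

theorem split_aux {n : ℕ} (X : Fin n → Alg F.M) (k : I) (c : ℂ) (i : Fin n)
    (h : ∀ j η, star (F.r k) ((X j).1 η) = (X j).1 (star (F.r k) η) +
      if j = i then (c * ⟪F.Ω, η⟫_ℂ) • F.Ω else 0) (P : NCPoly n) :
    ⟪F.l k F.Ω, (polyEval X P : Alg F.M).1 F.Ω⟫_ℂ = c * splitPairing (ts F.tr).τ X i P := by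
  have key : ∀ w : List (Fin n), star (F.r k) ((w.map X).prod.1 F.Ω) =
      ∑ p ∈ Finset.range w.length, if w[p]? = some i then
        (c * (ts F.tr).τ ((w.drop (p + 1)).map X).prod) • ((w.take p).map X).prod.1 F.Ω else 0 := by
    intro w
    induction w with
    | nil => simpa using F.rΩ k
    | cons j w ih =>
      have e1 : ∀ u : List (Fin n), ((j :: u).map X).prod.1 F.Ω =
          (X j).1 ((u.map X).prod.1 F.Ω) := fun u => rfl
      rw [e1, h, ih, List.length_cons, Finset.sum_range_succ', map_sum, ← F.τ_eq]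
      congr 1
      · refine Finset.sum_congr rfl fun p _ => ?_
        simp only [List.getElem?_cons_succ, List.drop_succ_cons, List.take_succ_cons, e1]
        split_ifs
        · rw [map_smul]
        · exact map_zero _
      · simp
  have e2 : ∀ x : Alg F.M, ⟪F.l k F.Ω, x.1 F.Ω⟫_ℂ = innerSL ℂ F.Ω (star (F.r k) (x.1 F.Ω)) :=
    fun x => by rw [innerSL_apply_apply, FA.inner_star (star _), star_star, F.rl]
  let φ : Alg F.M →ₗ[ℂ] ℂ :=
    { toFun := fun x => ⟪F.l k F.Ω, x.1 F.Ω⟫_ℂ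
      map_add' := fun x y => by simp
      map_smul' := fun r x => by simp }
  change φ _ = _
  rw [polyEval_eq_sum, splitPairing, Finsupp.sum, Finsupp.sum, map_sum, Finset.mul_sum]
  refine Finset.sum_congr rfl fun w _ => ?_
  rw [map_smul, smul_eq_mul, mul_left_comm]
  congr 1
  change ⟪F.l k F.Ω, _⟫_ℂ = _
  rw [e2, wordEval_eq_prod, key, map_sum, Finset.mul_sum]
  refine Finset.sum_congr rfl fun p _ => ?_
  split_ifs
  · rw [map_smul, innerSL_apply_apply, ← F.τ_eq, wordEval_ofList, wordEval_ofList, smul_eq_mul]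
    ring
  · simp

end MA

open MA in
theorem split (J : Set I) {n : ℕ} (a b : Fin n → I) (hab : Function.Injective (Sum.elim a b))
    (ha : ∀ i, a i ∉ J) (hb : ∀ i, b i ∉ J) (y X : Fin n → Alg F.M)
    (hy : ∀ i, (y i).1 ∈ W (F.s '' J)) (σ t : Fin n → ℝ)
    (hX : ∀ i, X i = y i + (σ i : ℂ) • F.sA (a i) + (t i : ℂ) • F.sA (b i)) (i : Fin n)
    (P : NCPoly n) :
    ⟪F.l (a i) F.Ω, (polyEval X P : Alg F.M).1 F.Ω⟫_ℂ = σ i * splitPairing (ts F.tr).τ X i P ∧
      ⟪F.l (b i) F.Ω, (polyEval X P : Alg F.M).1 F.Ω⟫_ℂ =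
        t i * splitPairing (ts F.tr).τ X i P := by
  classical
  have e : ∀ j η, (X j).1 η = (y j).1 η + (σ j : ℂ) • F.s (a j) η + (t j : ℂ) • F.s (b j) η :=
    fun j η => by rw [hX]; rfl
  have h1 : ∀ j k η, star (F.r k) (F.s j η) = F.s j (star (F.r k) η) +
      if j = k then ⟪F.Ω, η⟫_ℂ • F.Ω else 0 := fun j k η => by
    have := DFunLike.congr_fun (F.sr_s j k) η
    split_ifs at this ⊢ <;> simpa using this
  have h2 : ∀ j k, k ∉ J → ∀ η, star (F.r k) ((y j).1 η) = (y j).1 (star (F.r k) η) :=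
    fun j k hk η => DFunLike.congr_fun (F.sr_comm hk (hy j)) η
  have i1 : ∀ j, a j = a i ↔ j = i := fun j =>
    ⟨fun h => Sum.inl_injective (hab (a₁ := .inl j) (a₂ := .inl i) h), fun h => h ▸ rfl⟩
  have i2 : ∀ j, b j = b i ↔ j = i := fun j =>
    ⟨fun h => Sum.inr_injective (hab (a₁ := .inr j) (a₂ := .inr i) h), fun h => h ▸ rfl⟩
  have i3 : ∀ j k, b j ≠ a k := fun j k h =>
    Sum.inr_ne_inl (hab (a₁ := .inr j) (a₂ := .inl k) h)
  constructor
  · refine split_aux F X _ _ i (fun j η => ?_) P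
    simp only [e, map_add, map_smul, h1, h2 j _ (ha i), i1, if_neg (i3 j i)]
    split_ifs with h
    · subst h; rw [mul_smul]; module
    · module
  · refine split_aux F X _ _ i (fun j η => ?_) P
    simp only [e, map_add, map_smul, h1, h2 j _ (hb i), i2, if_neg (i3 i j).symm]
    split_ifs with h
    · subst h; rw [mul_smul]; module
    · module

end Crest.Agent.R89
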