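import Crest.Agent.R89.Defs

/-! Row 89, task S: the group `(ℤ/2)^ι` inside the Fock model. -/

set_option autoImplicit false
set_option linter.unusedSectionVars false

open scoped InnerProductSpace ComplexOrder NNReal
open Crest.OpAlg Crest.Agent.R124 Crest.Agent.R95 Crest.Agent.R134 MeasureTheory ProbabilityTheory

namespace Crest.Agent.R89

variable {H : Type*} [NormedAddCommGroup H] [InnerProductSpace ℂ H] [CompleteSpace H]

namespace SA

/-- The representation of `ℤ/2` given by an involution. -/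
def inv2 {B : Type*} [Monoid B] (e : B) (he : e * e = 1) : Multiplicative (ZMod 2) →* B where
  toFun x := if x = 1 then 1 else e
  map_one' := if_pos rfl
  map_mul' x y := by
    have h : ∀ x : Multiplicative (ZMod 2), x = 1 ∨ x = Multiplicative.ofAdd 1 := by decide
    have h1 : (Multiplicative.ofAdd 1 : Multiplicative (ZMod 2)) ≠ 1 := by decide
    have h2 : (Multiplicative.ofAdd 1 : Multiplicative (ZMod 2)) * Multiplicative.ofAdd 1 = 1 := by
      decide
    rcases h x with rfl | rfl <;> rcases h y with rfl | rfl <;> simp [h1, h2, he]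

theorem inv2_apply {B : Type*} [Monoid B] (e : B) (he : e * e = 1) (x : Multiplicative (ZMod 2)) :
    inv2 e he x = if x = 1 then 1 else e := rfl

theorem sq (ι : Type) (g : Multiplicative (ι → ZMod 2)) : g * g = 1 := by
  apply Multiplicative.toAdd.injective
  funext α
  exact CharTwo.add_self_eq_zero (g.toAdd α)

theorem of_rich {A : Type*} [CStarAlgebra A] (T : TS A) (P : StarSubalgebra ℂ A) (hR : Rich T P)
    (ι : Type) [Fintype ι] [DecidableEq ι] :
    ∃ E : Multiplicative (ι → ZMod 2) →* A, (∀ g, E g ∈ P) ∧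
      (∀ g, star (E g) = E g) ∧ ∀ g, T.τ (E g) = if g = 1 then 1 else 0 := by
  classical
  obtain ⟨p, -, -, -, h⟩ := hR 1 one_pos
  let f : ι → ℕ × ℕ := fun α => (Fintype.equivFin ι α, 0)
  have hf : Function.Injective f := fun α β h =>
    (Fintype.equivFin ι).injective (Fin.ext (congrArg Prod.fst h))
  obtain ⟨e, he, -, hc, hτ⟩ := h (Finset.univ.image f)
  let ϕ : ι → Multiplicative (ZMod 2) →* A := fun α => inv2 (e (f α)) (he _).2.2
  have hϕ : Pairwise fun α β => ∀ x y, Commute (ϕ α x) (ϕ β y) := fun α β _ x y => by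
    simp only [ϕ, inv2_apply]
    split_ifs
    exacts [Commute.one_left _, Commute.one_left _, Commute.one_right _, hc _ _]
  let E : Multiplicative (ι → ZMod 2) →* A := (MonoidHom.noncommPiCoprod ϕ hϕ).comp
    (MulEquiv.piMultiplicative fun _ : ι => ZMod 2).toMonoidHom
  have hE : ∀ g, E g = Finset.univ.noncommProd
      (fun α => ϕ α (Multiplicative.ofAdd (g.toAdd α)))
      fun α _ β _ h => hϕ h _ _ := fun g => rfl
  have hm : ∀ (S : Submonoid A) (α : ι) x, e (f α) ∈ S → ϕ α x ∈ S := fun S α x hx => by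
    simp only [ϕ, inv2_apply]
    split_ifs
    exacts [one_mem S, hx]
  refine ⟨E, fun g => ?_, fun g => ?_, fun g => ?_⟩
  · rw [hE]
    exact Submonoid.noncommProd_mem P.toSubalgebra.toSubsemiring.toSubmonoid _ _ _
      fun α _ => hm _ α _ (he _).1
  · have hu : E g ∈ unitary A := by
      rw [hE]
      refine Submonoid.noncommProd_mem _ _ _ _ fun α _ => hm _ α _ ?_
      rw [Unitary.mem_iff, (he _).2.1]
      exact ⟨(he _).2.2, (he _).2.2⟩
    have h2 : E g * E g = 1 := by rw [← map_mul, sq, map_one]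
    rw [← mul_one (star (E g)), ← h2, ← mul_assoc, (Unitary.mem_iff.1 hu).1, one_mul]
  · split_ifs with hg
    · rw [hg, map_one, T.one]
    · obtain ⟨α, hα⟩ : ∃ α, g.toAdd α ≠ 0 := by
        by_contra h
        push Not at h
        exact hg (Multiplicative.toAdd.injective (funext h))
      have e0 := (Finset.noncommProd_erase_mul _ (Finset.mem_univ α)
        (fun α => ϕ α (Multiplicative.ofAdd (g.toAdd α))) fun α _ β _ h => hϕ h _ _).symm
      have e1 : ϕ α (Multiplicative.ofAdd (g.toAdd α)) = e (f α) := if_neg hα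
      rw [(hE g).trans e0, e1]
      refine hτ _ (Finset.mem_image_of_mem f (Finset.mem_univ α)) _ ?_
      refine Submonoid.noncommProd_mem (Algebra.adjoin ℂ _).toSubsemiring.toSubmonoid _ _ _
        fun β hβ => hm _ β _ (Algebra.subset_adjoin (Or.inr ⟨f β, fun h => ?_, rfl⟩))
      exact (Finset.mem_erase.1 hβ).1 (hf h)

end SA

open SA in
theorem exists_E {I : Type*} (F : Fock I H) (k0 : I) (ι : Type) [Fintype ι] [DecidableEq ι] :
    ∃ E : Multiplicative (ι → ZMod 2) →* Alg F.M, (∀ g, (E g).1 ∈ W (F.s '' {k0})) ∧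
      (∀ g, star (E g) = E g) ∧ ∀ g, (ts F.tr).τ (E g) = if g = 1 then 1 else 0 := by
  set N := W (F.s '' {k0}) with hN
  have hNM : N ≤ F.M := W_le (by rintro _ ⟨i, -, rfl⟩; exact subset_W ⟨i, rfl⟩)
  have hsa : IsSelfAdjoint (F.sA k0) := Subtype.ext (F.s_sa k0).star_eq
  obtain ⟨Φ, Ψ, hΦ, -, hU, -⟩ := law (ts F.tr) hsa (F.norm_s k0) (F.τ_ch k0)
  have hx : ((cfc Φ (F.sA k0) : Alg F.M) : H →L[ℂ] H) ∈ N := by
    have e : ((cfc Φ (F.sA k0) : Alg F.M) : H →L[ℂ] H) = cfc Φ (F.s k0) :=
      StarAlgHomClass.map_cfc (R := ℝ) (S := ℂ) F.M.toStarSubalgebra.subtype Φ (F.sA k0)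
        hΦ.continuousOn continuous_subtype_val hsa (F.s_sa k0)
    rw [e]
    exact R124.cfc_mem _ (subset_W ⟨k0, rfl, rfl⟩)
  exact of_rich _ _ (rich F.tr N hNM _ hx hU) ι

/-- One real combination generates the group algebra. -/
theorem exists_gen (ι : Type) [Fintype ι] [DecidableEq ι] :
    ∃ c : Multiplicative (ι → ZMod 2) → ℝ, ∀ g, ∃ p : Polynomial ℂ,
      ∀ (B : Type) [Ring B] [Algebra ℂ B] (E : Multiplicative (ι → ZMod 2) →* B),
        Polynomial.aeval (∑ h, (c h : ℂ) • E h) p = E g := by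
  classical
  set Γ := Multiplicative (ι → ZMod 2)
  let L : AddChar (ι → ZMod 2) ℂ → (Γ → ℝ) →ₗ[ℝ] ℂ := fun ψ =>
    { toFun := fun c => ∑ h, (c h : ℂ) * ψ h.toAdd
      map_add' := fun x y => by simp [add_mul, Finset.sum_add_distrib]
      map_smul' := fun r x => by simp [Finset.mul_sum, mul_assoc] }
  have hL : ∀ ψ h, L ψ (Pi.single h 1) = ψ h.toAdd := fun ψ h => by
    change ∑ k, ((Pi.single h (1 : ℝ) : Γ → ℝ) k : ℂ) * ψ k.toAdd = _
    rw [Finset.sum_eq_single h (fun k _ hk => by simp [hk]) (by simp)]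
    simp
  let s : Finset (Submodule ℝ (Γ → ℝ)) :=
    (Finset.univ.offDiag).image fun x : _ × _ => LinearMap.ker (L x.1 - L x.2)
  have hs : ⊤ ∉ s := fun h => by
    obtain ⟨x, hx, h⟩ := Finset.mem_image.1 h
    refine (Finset.mem_offDiag.1 hx).2.2 (AddChar.ext _ _ fun a => ?_)
    have : Pi.single (Multiplicative.ofAdd a) 1 ∈ LinearMap.ker (L x.1 - L x.2) := by
      rw [h]; trivial
    rw [LinearMap.mem_ker, LinearMap.sub_apply, hL, hL, sub_eq_zero] at this
    exact this
  obtain ⟨c, hc⟩ := (Set.ne_univ_iff_exists_notMem _).1 (Subspace.biUnion_ne_univ_of_top_notMem hs)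
  have hinj : Function.Injective fun ψ => L ψ c := fun ψ φ h => by
    by_contra hne
    refine hc (Set.mem_iUnion₂.2 ⟨_, Finset.mem_image.2 ⟨(ψ, φ), by simpa using hne, rfl⟩, ?_⟩)
    exact sub_eq_zero.2 h
  refine ⟨c, fun g => ⟨Lagrange.interpolate Finset.univ (fun ψ => L ψ c) fun ψ => ψ g.toAdd,
    fun B _ _ E => ?_⟩⟩
  set p := Lagrange.interpolate Finset.univ (fun ψ => L ψ c) fun ψ => ψ g.toAdd with hp
  have hD : ∀ (B : Type) [Ring B] [Algebra ℂ B] (E : Γ →* B), MonoidAlgebra.lift ℂ B Γ E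
      (∑ h, (c h : ℂ) • MonoidAlgebra.of ℂ Γ h) = ∑ h, (c h : ℂ) • E h := fun B _ _ E => by
    simp only [map_sum, map_smul, MonoidAlgebra.lift_of]
  have key : Polynomial.aeval (∑ h, (c h : ℂ) • MonoidAlgebra.of ℂ Γ h) p =
      MonoidAlgebra.of ℂ Γ g := by
    rw [← sub_eq_zero]
    set x := Polynomial.aeval (∑ h, (c h : ℂ) • MonoidAlgebra.of ℂ Γ h) p -
      MonoidAlgebra.of ℂ Γ g with hx
    have h1 : ∀ ψ : AddChar (ι → ZMod 2) ℂ, MonoidAlgebra.lift ℂ ℂ Γ ψ.toMonoidHom x = 0 := by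
      intro ψ
      rw [hx, map_sub, ← Polynomial.aeval_algHom_apply, hD, MonoidAlgebra.lift_of, sub_eq_zero]
      have := Lagrange.eval_interpolate_at_node (s := Finset.univ) (v := fun ψ => L ψ c)
        (fun ψ => ψ g.toAdd) hinj.injOn (Finset.mem_univ ψ)
      rw [Polynomial.coe_aeval_eq_eval]
      exact this
    let Λ : ((ι → ZMod 2) → ℂ) →ₗ[ℂ] ℂ :=
      { toFun := fun f => ∑ h : Γ, x.coeff h * f h.toAdd
        map_add' := fun x y => by simp [mul_add, Finset.sum_add_distrib]
        map_smul' := fun r x => by simp [Finset.mul_sum, mul_left_comm] }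
    have h2 : Λ = 0 := (AddChar.complexBasis (ι → ZMod 2)).ext fun ψ => by
      rw [AddChar.complexBasis_apply, LinearMap.zero_apply, ← h1 ψ, MonoidAlgebra.lift_apply,
        Finsupp.sum_fintype _ _ (by simp)]
      rfl
    ext h
    have h3 : ∑ k : Γ, x.coeff k * (Pi.single h.toAdd (1 : ℂ) : _ → ℂ) k.toAdd = 0 :=
      LinearMap.congr_fun h2 (Pi.single h.toAdd 1)
    rw [Finset.sum_eq_single h (fun k _ hk => by
      rw [Pi.single_eq_of_ne (Multiplicative.toAdd.injective.ne hk), mul_zero]) (by simp)] at h3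
    simpa using h3
  rw [← hD, Polynomial.aeval_algHom_apply, key, MonoidAlgebra.lift_of]

theorem gen_props (ι : Type) [Fintype ι] [DecidableEq ι] :
    (∀ g : Multiplicative (ι → ZMod 2), g * g = 1) ∧
    ∃ e : ι → Multiplicative (ι → ZMod 2), Function.Injective e ∧ (∀ α, e α ≠ 1) ∧
      ∀ α β α' β', α ≠ β → e α * e β = e α' * e β' → α' = α ∨ α' = β := by
  refine ⟨SA.sq ι, fun α => Multiplicative.ofAdd (Pi.single α 1), fun α β h => ?_, fun α h => ?_,
    fun α β α' β' hne h => ?_⟩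
  · have := congrFun (Multiplicative.ofAdd.injective h) α
    by_contra hne
    simp [hne] at this
  · simpa using congrFun (congrArg Multiplicative.toAdd h) α
  · have h1 : ∀ x, (Pi.single α 1 : ι → ZMod 2) x + (Pi.single β 1 : ι → ZMod 2) x =
        (Pi.single α' 1 : ι → ZMod 2) x + (Pi.single β' 1 : ι → ZMod 2) x :=
      congrFun (congrArg Multiplicative.toAdd h)
    by_contra hc
    push Not at hc
    by_cases e : α' = β'
    · have := h1 α
      rw [e, CharTwo.add_self_eq_zero] at this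
      simp [hne] at this
    · have := h1 α'
      simp [hc.1, hc.2, e] at this

end Crest.Agent.R89
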