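import Crest.Agent.R89.Defs

/-! Row 89, task U: upper bound for the microstates entropy. -/

set_option autoImplicit false
set_option linter.unusedSectionVars false

open scoped InnerProductSpace ComplexOrder NNReal
open Crest.OpAlg Crest.Agent.R124 Crest.Agent.R95 Crest.Agent.R134 MeasureTheory ProbabilityTheory

namespace Crest.Agent.R89

namespace Up

theorem gauss_vol {κ : Type} [Fintype κ] (lam c : κ → ℝ) (hl : ∀ k, 0 < lam k) (t : ℝ) :
    volume {f : κ → ℝ | ∑ k, lam k * (f k - c k) ^ 2 ≤ t} ≤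
      ENNReal.ofReal (Real.exp t * ∏ k, √(Real.pi / lam k)) := by
  have hi : ∀ k, Integrable fun x : ℝ => Real.exp (-lam k * (x - c k) ^ 2) := fun k =>
    (integrable_exp_neg_mul_sq (hl k)).comp_sub_right (c k)
  have h1 : Integrable (fun f : κ → ℝ => ∏ k, Real.exp (-lam k * (f k - c k) ^ 2)) :=
    Integrable.fintype_prod hi
  have h2 : ∫ f : κ → ℝ, ∏ k, Real.exp (-lam k * (f k - c k) ^ 2) = ∏ k, √(Real.pi / lam k) := by
    rw [integral_fintype_prod_volume_eq_prod fun k x => Real.exp (-lam k * (x - c k) ^ 2)]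
    refine Finset.prod_congr rfl fun k _ => ?_
    rw [integral_sub_right_eq_self (fun x => Real.exp (-lam k * x ^ 2)), integral_gaussian]
  have h0 : 0 ≤ᵐ[volume] fun f : κ → ℝ => ∏ k, Real.exp (-lam k * (f k - c k) ^ 2) :=
    .of_forall fun f => by positivity
  have h3 := mul_meas_ge_le_integral_of_nonneg h0 h1 (Real.exp (-t))
  have h4 := h1.measure_ge_lt_top (Real.exp_pos (-t))
  refine (measure_mono (t := {f : κ → ℝ | Real.exp (-t) ≤
    ∏ k, Real.exp (-lam k * (f k - c k) ^ 2)}) fun f hf => ?_).trans ?_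
  · simp only [Set.mem_ofPred_eq, ← Real.exp_sum, Real.exp_le_exp, neg_mul,
      Finset.sum_neg_distrib] at hf ⊢
    linarith
  · rw [← ofReal_measureReal h4.ne]
    refine ENNReal.ofReal_le_ofReal ?_
    rw [← inv_mul_le_iff₀ (Real.exp_pos t), ← Real.exp_neg, ← h2]
    exact h3

theorem two_block {κ : Type} [Fintype κ] (q : κ → Prop) [DecidablePred q] (lam : κ → ℝ)
    (hl : ∀ k, 0 < lam k) (c : (κ → ℝ) → κ → ℝ) (hm : Measurable c)
    (hc : ∀ f g, (∀ k, q k → f k = g k) → c f = c g) (hc0 : ∀ f k, q k → c f k = 0) (t1 t2 : ℝ) :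
    volume {f : κ → ℝ | ∑ k with q k, lam k * (f k - c f k) ^ 2 ≤ t1 ∧
        ∑ k with ¬q k, lam k * (f k - c f k) ^ 2 ≤ t2} ≤
      ENNReal.ofReal (Real.exp (t1 + t2) * ∏ k, √(Real.pi / lam k)) := by
  let e := MeasurableEquiv.piEquivPiSubtypeProd (fun _ : κ => ℝ) q
  let c' : (Subtype q → ℝ) → {k // ¬q k} → ℝ := fun a k => c (e.symm (a, 0)) k
  have hc' : Measurable c' := measurable_pi_lambda _ fun k => (measurable_pi_apply _).comp
    (hm.comp (e.symm.measurable.comp (measurable_id.prodMk measurable_const)))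
  let A : Set (Subtype q → ℝ) := {a | ∑ k : Subtype q, lam k * (a k - 0) ^ 2 ≤ t1}
  have hA : MeasurableSet A := measurableSet_le (by fun_prop) measurable_const
  let T : Set ((Subtype q → ℝ) × ({k // ¬q k} → ℝ)) :=
    {x | x.1 ∈ A ∧ ∑ k : {k // ¬q k}, lam k * (x.2 k - c' x.1 k) ^ 2 ≤ t2}
  have hT : MeasurableSet T := (measurable_fst hA).inter
    (measurableSet_le (f := fun x : (Subtype q → ℝ) × ({k // ¬q k} → ℝ) =>
      ∑ k : {k // ¬q k}, lam k * (x.2 k - c' x.1 k) ^ 2) (by fun_prop) measurable_const)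
  refine (measure_mono (t := e ⁻¹' T) fun f hf => ?_).trans ?_
  · obtain ⟨h1, h2⟩ := hf
    rw [Finset.sum_subtype (p := q) _ (by simp)] at h1
    rw [Finset.sum_subtype (p := fun k => ¬q k) _ (by simp)] at h2
    refine ⟨le_of_eq_of_le (Finset.sum_congr rfl fun k _ => ?_) h1,
      le_of_eq_of_le (Finset.sum_congr rfl fun k _ => ?_) h2⟩
    · rw [hc0 f k k.2]; rfl
    · rw [hc f (e.symm ((e f).1, 0)) fun k hk => by
        simp [e, MeasurableEquiv.piEquivPiSubtypeProd, hk]]
      rfl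
  rw [(volume_preserving_piEquivPiSubtypeProd (fun _ : κ => ℝ) q).measure_preimage
    hT.nullMeasurableSet, Measure.volume_eq_prod, Measure.prod_apply hT]
  have h3 : ∀ a, volume (Prod.mk a ⁻¹' T) ≤ A.indicator (fun _ => ENNReal.ofReal
      (Real.exp t2 * ∏ k : {k // ¬q k}, √(Real.pi / lam k))) a := fun a => by
    by_cases ha : a ∈ A
    · rw [Set.indicator_of_mem ha]
      exact (measure_mono fun b hb => hb.2).trans (gauss_vol _ (c' a) (fun k => hl _) t2)
    · rw [show Prod.mk a ⁻¹' T = ∅ from Set.eq_empty_of_forall_notMem fun b hb => ha hb.1]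
      simp
  refine (lintegral_mono h3).trans ?_
  rw [lintegral_indicator_const hA]
  refine (mul_le_mul_right (gauss_vol _ (fun _ => 0) (fun k => hl _) t1) _).trans ?_
  rw [← ENNReal.ofReal_mul (by positivity), Real.exp_add,
    ← Fintype.prod_subtype_mul_prod_subtype q]
  exact le_of_eq (by congr 1; ring)

variable {d : ℕ}

/-- Coordinates of the Hermitian part of a matrix. -/
noncomputable def co (y : Matrix (Fin d) (Fin d) ℂ) (p : Fin d × Fin d) : ℝ :=
  if p.1 = p.2 then (y p.1 p.1).re else if p.1 < p.2 then ((y p.1 p.2).re + (y p.2 p.1).re) / √2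
    else ((y p.2 p.1).im - (y p.1 p.2).im) / √2

theorem co_sub (x y : Matrix (Fin d) (Fin d) ℂ) (p : Fin d × Fin d) :
    co (x - y) p = co x p - co y p := by
  simp only [co, Matrix.sub_apply, Complex.sub_re, Complex.sub_im]
  split_ifs <;> ring

theorem co_herm (a : EuclideanSpace ℝ (Fin d × Fin d)) (p : Fin d × Fin d) :
    co (hermitianOfCoords a) p = a p := by
  obtain ⟨i, j⟩ := p
  have h2 : √2 * √2 = 2 := Real.mul_self_sqrt zero_le_two
  have h0 : √2 ≠ 0 := by positivity
  rcases lt_trichotomy i j with h | rfl | h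
  · simp [co, hermitianOfCoords, h, h.ne, h.ne', h.not_gt, Complex.div_ofReal_re]
    field_simp
    rw [Real.sq_sqrt zero_le_two]; ring
  · simp [co, hermitianOfCoords]
  · simp [co, hermitianOfCoords, h, h.ne, h.ne', h.not_gt, Complex.div_ofReal_im]
    field_simp
    rw [Real.sq_sqrt zero_le_two]; ring

theorem co_sq (y : Matrix (Fin d) (Fin d) ℂ) :
    ∑ p, co y p ^ 2 ≤ ∑ p : Fin d × Fin d, ‖y p.1 p.2‖ ^ 2 := by
  have h1 := Equiv.sum_comp (Equiv.prodComm (Fin d) (Fin d)) fun p => co y p ^ 2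
  have h2 := Equiv.sum_comp (Equiv.prodComm (Fin d) (Fin d)) fun p => ‖y p.1 p.2‖ ^ 2
  have h3 : ∑ p : Fin d × Fin d, (co y p ^ 2 + co y p.swap ^ 2) ≤
      ∑ p : Fin d × Fin d, (‖y p.1 p.2‖ ^ 2 + ‖y p.2 p.1‖ ^ 2) := by
    refine Finset.sum_le_sum ?_
    rintro ⟨i, j⟩ -
    simp only [Complex.sq_norm, Complex.normSq_apply, co, Prod.swap]
    rcases lt_trichotomy i j with h | rfl | h
    · simp only [h, h.ne, h.ne', h.not_gt, if_true, if_false, div_pow, Real.sq_sqrt zero_le_two]
      nlinarith [sq_nonneg ((y i j).re - (y j i).re), sq_nonneg ((y i j).im + (y j i).im)]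
    · simp only [if_true]
      nlinarith [sq_nonneg (y i i).im]
    · simp only [h, h.ne, h.ne', h.not_gt, if_true, if_false, div_pow, Real.sq_sqrt zero_le_two]
      nlinarith [sq_nonneg ((y i j).re - (y j i).re), sq_nonneg ((y i j).im + (y j i).im)]
  simp only [Finset.sum_add_distrib, Equiv.prodComm_apply, Prod.fst_swap, Prod.snd_swap] at h1 h2 h3
  linarith

theorem ntr_sq (y : Matrix (Fin d) (Fin d) ℂ) :
    (ntr (star y * y)).re = (d : ℝ)⁻¹ * ∑ p : Fin d × Fin d, ‖y p.1 p.2‖ ^ 2 := by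
  have : (star y * y).trace = ((∑ p : Fin d × Fin d, ‖y p.1 p.2‖ ^ 2 : ℝ) : ℂ) := by
    simp only [Matrix.trace, Matrix.diag, Matrix.mul_apply, Matrix.star_apply,
      Fintype.sum_prod_type, Complex.ofReal_sum]
    rw [Finset.sum_comm]
    refine Finset.sum_congr rfl fun i _ => Finset.sum_congr rfl fun j _ => ?_
    rw [Complex.star_def, Complex.conj_mul']; norm_cast
  rw [ntr, this, ← Complex.ofReal_natCast, ← Complex.ofReal_inv, ← Complex.ofReal_mul,
    Complex.ofReal_re]

theorem herm_star (a : EuclideanSpace ℝ (Fin d × Fin d)) :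
    star (hermitianOfCoords a) = hermitianOfCoords a := by
  ext i j
  rcases lt_trichotomy i j with h | rfl | h
  · simp [hermitianOfCoords, h, h.ne, h.ne', h.not_gt]
  · simp [hermitianOfCoords]
  · simp [hermitianOfCoords, h, h.ne, h.ne', h.not_gt, sub_eq_add_neg]

theorem cont_Gm {ι : Type} (l : ι) : Continuous fun a : ι × (Fin d × Fin d) → ℝ => Gm a l := by
  refine continuous_pi fun i => continuous_pi fun j => ?_
  simp only [Gm, hermitianOfCoords]
  split_ifs <;> fun_prop

theorem cont_poly {n : ℕ} (Q : NCPoly n) :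
    Continuous fun a : Fin n × (Fin d × Fin d) → ℝ => polyEval (Gm a) Q := by
  simp only [polyEval_eq_sum, Finsupp.sum, wordEval_eq_prod]
  exact continuous_finsetSum _ fun w _ =>
    (continuous_list_prod _ fun i _ => cont_Gm i).const_smul (Q.coeff w)

theorem cont_co (p : Fin d × Fin d) : Continuous fun y : Matrix (Fin d) (Fin d) ℂ => co y p := by
  simp only [co]
  split_ifs <;> fun_prop

theorem mom_le {A : Type*} [Ring A] [Algebra ℂ A] (τ : A →ₗ[ℂ] ℂ) {n : ℕ} (X : Fin n → A)
    (Q : NCPoly n) {δ : ℝ} (hδ : 0 < δ) : ∀ᶠ m : ℕ in Filter.atTop, ∀ᶠ ε : ℝ in nhds 0,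
      ∀ (d : ℕ) (x : Fin n → Matrix (Fin d) (Fin d) ℂ), (∀ w : FreeMonoid (Fin n),
        (FreeMonoid.toList w).length ≤ m → ‖matrixMoment x w - τ (wordEval X w)‖ < ε) →
        ‖ntr (polyEval x Q) - τ (polyEval X Q)‖ < δ := by
  filter_upwards [Filter.eventually_ge_atTop
    (Q.coeff.support.sup fun w => (FreeMonoid.toList w).length)] with m hm
  have hc : Continuous fun ε : ℝ => ∑ w ∈ Q.coeff.support, ‖Q.coeff w‖ * ε := by fun_prop
  filter_upwards [(hc.tendsto 0).eventually (gt_mem_nhds (by simpa using hδ))] with ε hε d x hx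
  refine lt_of_le_of_lt ?_ hε
  simp only [polyEval_eq_sum, Finsupp.sum, map_sum, ntr, Matrix.trace_sum, Finset.mul_sum,
    ← Finset.sum_sub_distrib]
  refine (norm_sum_le _ _).trans (Finset.sum_le_sum fun w hw => ?_)
  rw [Matrix.trace_smul, map_smul, smul_eq_mul, smul_eq_mul, mul_left_comm, ← mul_sub, norm_mul]
  exact mul_le_mul_of_nonneg_left (hx w ((Finset.le_sup hw).trans hm)).le (norm_nonneg _)

theorem eval_Q {B : Type*} [Ring B] [Algebra ℂ B] [StarRing B] [StarModule ℂ B] {n : ℕ}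
    {X : Fin n → B} (hX : ∀ i, star (X i) = X i) (i : Fin n) (r : NCPoly n) :
    polyEval X (polyStar (MonoidAlgebra.single (FreeMonoid.of i) 1 - r) *
      (MonoidAlgebra.single (FreeMonoid.of i) 1 - r)) =
      star (X i - polyEval X r) * (X i - polyEval X r) := by
  have h : polyEval X (MonoidAlgebra.single (FreeMonoid.of i) 1 - r) = X i - polyEval X r := by
    rw [polyEval, map_sub]; simp [polyEval]
  rw [← h, ← polyEval_star hX, polyEval, map_mul]; rfl

end Up

open Up in
/-- Sketch. For `m` large and `ε` small every microstate `x` has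
`Re ntr (star (x i - r i x) * (x i - r i x)) ≤ ρ i ^ 2` (`polyEval_star`, moments are linear), i.e.
Hilbert-Schmidt distance `≤ ρ i √d`. Split the coordinates into `p` and `¬p` blocks (Fubini,
`MeasurableEquiv.piEquivPiSubtypeProd` or similar); given the `p` block, the `i`-th matrix lies in
a set of diameter `≤ 2 ρ i √d` (`hermitianOfCoords` is a linear isometry for the HS norm). Volume
of a product of balls: weight `exp (-∑ λ i ‖a i - c i‖²)`, `λ i = d² / (2 (2ρ i √d)²)`, gives
`∏ (8πe ρ i² / d)^(d²/2)`, and `log (8πe) / 2 ≤ 3`. -/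
theorem chi_le {A : Type*} [CStarAlgebra A] (τ : A →ₗ[ℂ] ℂ) {n : ℕ} (X : Fin n → A)
    (hX : ∀ i, IsSelfAdjoint (X i)) (p : Fin n → Prop) (r : Fin n → NCPoly n)
    (hr : ∀ (i : Fin n) (d : ℕ) (x x' : Fin n → Matrix (Fin d) (Fin d) ℂ), (∀ j, p j → x j = x' j) →
      polyEval x (r i) = polyEval x' (r i))
    (hr0 : ∀ i, p i → r i = 0) (ρ : Fin n → ℝ) (hρ : ∀ i, 0 < ρ i)
    (h : ∀ i, (τ (star (X i - polyEval X (r i)) * (X i - polyEval X (r i)))).re < ρ i ^ 2) :
    chi τ X ≤ ((∑ i, Real.log (ρ i) + 3 * n : ℝ) : EReal) := by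
  classical
  have h1 := fun i => mom_le τ X (polyStar (MonoidAlgebra.single (FreeMonoid.of i) 1 - r i) *
      (MonoidAlgebra.single (FreeMonoid.of i) 1 - r i)) (sub_pos.2 (h i))
  obtain ⟨m, hm⟩ := (Filter.eventually_all.2 h1).exists
  obtain ⟨ε, hε, hε0⟩ := (((Filter.eventually_all.2 hm).filter_mono
    (nhdsWithin_le_nhds (s := Set.Ioi 0))).and self_mem_nhdsWithin).exists
  refine iSup₂_le fun R _ => (iInf_le _ m).trans ((iInf₂_le ε hε0).trans ?_)
  refine Filter.limsup_le_of_le (h := ?_)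
  filter_upwards [Filter.eventually_gt_atTop 0] with d hd
  have hd' : (0 : ℝ) < d := by exact_mod_cast hd
  let lam : Fin n × (Fin d × Fin d) → ℝ := fun k => d / (2 * ρ k.1 ^ 2)
  have hl : ∀ k, 0 < lam k := fun k => by have := hρ k.1; positivity
  let c : (Fin n × (Fin d × Fin d) → ℝ) → Fin n × (Fin d × Fin d) → ℝ := fun f k =>
    co (polyEval (Gm f) (r k.1)) k.2
  have h2 := two_block (fun k : Fin n × (Fin d × Fin d) => p k.1) lam hl c
    (measurable_pi_lambda _ fun k => ((cont_co k.2).comp (cont_poly (r k.1))).measurable)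
    (fun f g hfg => funext fun k => by
      simp only [c]
      rw [hr k.1 d (Gm f) (Gm g) fun j hj => by
        simp only [Gm]; congr 2; funext x; exact hfg (j, x) hj])
    (fun f k hk => by simp [c, hr0 _ hk, polyEval, co])
    (∑ i with p i, (d : ℝ) ^ 2 / 2) (∑ i with ¬p i, (d : ℝ) ^ 2 / 2)
  have h3 : ∀ a ∈ microstates τ X R m d ε, ∀ i,
      ∑ x, lam (i, x) * (a.ofLp (i, x) - c a.ofLp (i, x)) ^ 2 ≤ (d : ℝ) ^ 2 / 2 := by
    intro a ha i
    have b1 := hε i d (matrixTuple a) ha.2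
    rw [eval_Q (X := matrixTuple a) (fun i => herm_star _), eval_Q fun i => (hX i).star_eq] at b1
    have b2 := (Complex.re_le_norm _).trans b1.le
    rw [Complex.sub_re, ntr_sq] at b2
    have b3 := co_sq (matrixTuple a i - polyEval (matrixTuple a) (r i))
    simp only [co_sub, matrixTuple, co_herm] at b3
    simp only [lam, ← Finset.mul_sum]
    have b4 : ∑ x, (a.ofLp (i, x) - c a.ofLp (i, x)) ^ 2 ≤ d * ρ i ^ 2 := by
      refine b3.trans ?_
      rw [← inv_mul_le_iff₀ hd']
      simp only [matrixTuple] at b2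
      linarith
    have := hρ i
    calc _ ≤ d / (2 * ρ i ^ 2) * (d * ρ i ^ 2) := by gcongr
      _ = _ := by field_simp
  have h4 : volume (microstates τ X R m d ε) ≤ ENNReal.ofReal
      (Real.exp (n * ((d : ℝ) ^ 2 / 2)) * ∏ k, √(Real.pi / lam k)) := by
    rw [Finset.sum_filter_add_sum_filter_not, Finset.sum_const (s := Finset.univ),
      Finset.card_univ, Fintype.card_fin, nsmul_eq_mul] at h2
    refine le_trans ?_ h2
    refine le_trans (measure_mono fun a ha => ?_) ((Measure.le_map_apply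
      (PiLp.volume_preserving_ofLp _).aemeasurable _).trans
        (le_of_eq (by rw [(PiLp.volume_preserving_ofLp _).map_eq])))
    simp only [Set.mem_preimage, Set.mem_ofPred_eq, Finset.sum_filter, Fintype.sum_prod_type (α₁ := Fin n)]
    constructor <;> refine Finset.sum_le_sum fun i _ => ?_ <;> split_ifs <;>
      first | exact h3 a ha i | simp
  have h5 : (volume (microstates τ X R m d ε)).log ≤ ((n * ((d : ℝ) ^ 2 / 2) +
      (d : ℝ) ^ 2 * ∑ i, (Real.log (2 * Real.pi) / 2 + Real.log (ρ i) - Real.log d / 2) : ℝ) :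
      EReal) := by
    have hp : ∀ k, 0 < √(Real.pi / lam k) := fun k => by
      have := hl k; have := Real.pi_pos; positivity
    refine (ENNReal.log_monotone h4).trans (le_of_eq ?_)
    rw [ENNReal.log_ofReal_of_pos (mul_pos (Real.exp_pos _) (Finset.prod_pos fun k _ => hp k)),
      Real.log_mul (Real.exp_pos _).ne' (Finset.prod_pos fun k _ => hp k).ne', Real.log_exp,
      Real.log_prod fun k _ => (hp k).ne', Fintype.sum_prod_type, Finset.mul_sum]
    congr 2
    refine Finset.sum_congr rfl fun i _ => ?_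
    have := hρ i
    have := Real.pi_pos
    simp only [lam, Finset.sum_const, Finset.card_univ, Fintype.card_prod, Fintype.card_fin,
      nsmul_eq_mul]
    rw [Real.log_sqrt (by positivity), show Real.pi / (d / (2 * ρ i ^ 2)) =
      2 * Real.pi * ρ i ^ 2 / d by field_simp, Real.log_div (by positivity) hd'.ne',
      Real.log_mul (by positivity) (by positivity), Real.log_pow]
    push_cast
    ring
  refine (add_le_add_left (mul_le_mul_of_nonneg_left h5 (by positivity)) _).trans ?_
  rw [← EReal.coe_mul, ← EReal.coe_add, EReal.coe_le_coe_iff]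
  have b1 : Real.log (2 * Real.pi) ≤ 4 := by
    rw [Real.log_mul two_ne_zero Real.pi_pos.ne']
    linarith [Real.log_le_sub_one_of_pos two_pos, Real.log_le_sub_one_of_pos Real.pi_pos,
      Real.pi_le_four]
  simp only [Finset.sum_add_distrib, Finset.sum_sub_distrib, Finset.sum_const, Finset.card_univ,
    Fintype.card_fin, nsmul_eq_mul]
  have e : ((d : ℝ) ^ 2)⁻¹ * (n * ((d : ℝ) ^ 2 / 2) + (d : ℝ) ^ 2 * (n * (Real.log (2 * Real.pi) / 2) +
      ∑ i, Real.log (ρ i) - n * (Real.log d / 2))) = n / 2 + (n * (Real.log (2 * Real.pi) / 2) +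
      ∑ i, Real.log (ρ i) - n * (Real.log d / 2)) := by field_simp
  rw [e]
  nlinarith [mul_le_mul_of_nonneg_left b1 (Nat.cast_nonneg (α := ℝ) n), Nat.cast_nonneg (α := ℝ) n]

end Crest.Agent.R89
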