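import Crest.Agent.R89.Lower
import Crest.Agent.R89.Upper
import Crest.Agent.R89.Fisher
import Crest.Agent.R89.Model
import Crest.Agent.R89.Sym
import Crest.Agent.R89.Hard

/-! Row 89, task A: assembly. -/

set_option autoImplicit false
set_option linter.unusedSectionVars false

open scoped InnerProductSpace ComplexOrder NNReal
open Crest.OpAlg Crest.Agent.R124 Crest.Agent.R95 Crest.Agent.R134 MeasureTheory ProbabilityTheory

namespace Crest.Agent.R89

namespace FN

section qq
variable {Γ : Type} [Fintype Γ] {M : ℕ} (e : Fin 3 × Fin M → Γ) (c : Γ → ℝ)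

/-- Which letter carries which cubic. -/
def jj (α : Fin 3 × Fin M) : Fin 5 := α.1.succ.succ

theorem jj_lt {i : Fin 5} (hi : i.1 < 2) :
    (Finset.univ.filter fun α : Fin 3 × Fin M => jj α = i) = ∅ := by
  refine Finset.filter_eq_empty_iff.2 fun α _ h => ?_
  have := congrArg Fin.val h
  simp [jj] at this
  omega

theorem jj_ge {i : Fin 5} (hi : ¬ i.1 < 2) :
    (Finset.univ.filter fun α : Fin 3 × Fin M => jj α = i).card = M := by
  have : (Finset.univ.filter fun α : Fin 3 × Fin M => jj α = i) =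
      {(⟨i.1 - 2, by omega⟩ : Fin 3)} ×ˢ Finset.univ := by
    ext α
    simp only [jj, Finset.mem_filter, Finset.mem_univ, true_and, Finset.mem_product,
      Finset.mem_singleton, and_true, Fin.ext_iff, Fin.val_succ]
    omega
  rw [this]
  simp

variable {B C : Type} [Ring B] [Algebra ℂ B] [Ring C] [Algebra ℂ C]

/-- The sum of cubics. -/
noncomputable def cq (f : Option Γ → B) (i : Fin 5) : B :=
  (((√M)⁻¹ : ℝ) : ℂ) • ∑ α with jj α = i, cub (f (some (e α))) (f none)

/-- The hidden generator of the group algebra. -/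
noncomputable def dd (f : Option Γ → B) : B := ∑ h, (c h : ℂ) • f (some h)

/-- The noiseless variables. -/
noncomputable def qq (ε : ℝ) (f : Option Γ → B) (i : Fin 5) : B :=
  ((if i = 0 then ε else 0 : ℝ) : ℂ) • dd c f + ((if i = 1 then ε else 0 : ℝ) : ℂ) • f none +
    cq e f i

theorem map_cq (φ : B →ₐ[ℂ] C) (f : Option Γ → B) (i : Fin 5) :
    φ (cq e f i) = cq e (fun a => φ (f a)) i := by
  simp [cq, cub, map_sum]

theorem map_qq (φ : B →ₐ[ℂ] C) (ε : ℝ) (f : Option Γ → B) (i : Fin 5) :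
    φ (qq e c ε f i) = qq e c ε (fun a => φ (f a)) i := by
  simp only [qq, dd, map_add, map_smul, map_sum, map_cq]

theorem star_qq [StarRing B] [StarModule ℂ B] (ε : ℝ) {f : Option Γ → B}
    (hf : ∀ a, star (f a) = f a) (i : Fin 5) : star (qq e c ε f i) = qq e c ε f i := by
  simp only [qq, dd, cq, cub, star_add, star_smul, star_sum, star_mul, hf, Complex.star_def,
    Complex.conj_ofReal, mul_assoc]

theorem qq_mem (ε : ℝ) (P : Subalgebra ℂ B) {f : Option Γ → B} (hf : ∀ a, f a ∈ P) (i : Fin 5) :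
    qq e c ε f i ∈ P := by
  unfold qq dd cq cub
  refine add_mem (add_mem (P.smul_mem (sum_mem fun h _ => P.smul_mem (hf _) _) _)
    (P.smul_mem (hf _) _)) (P.smul_mem (sum_mem fun α _ => ?_) _)
  repeat' refine mul_mem ?_ (hf _)
  exact hf _

theorem cq_lt (f : Option Γ → B) {i : Fin 5} (hi : i.1 < 2) : cq e f i = 0 := by
  simp [cq, jj_lt hi]

theorem qq_ge (ε : ℝ) (f : Option Γ → B) {i : Fin 5} (hi : ¬ i.1 < 2) :
    qq e c ε f i = cq e f i := by
  have h0 : i ≠ 0 := by rintro rfl; simp at hi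
  have h1 : i ≠ 1 := by rintro rfl; simp at hi
  simp [qq, h0, h1]

theorem qq_0 (ε : ℝ) (f : Option Γ → B) : qq e c ε f 0 = (ε : ℂ) • dd c f := by
  simp [qq, cq_lt]

theorem qq_1 (ε : ℝ) (f : Option Γ → B) : qq e c ε f 1 = (ε : ℂ) • f none := by
  simp [qq, cq_lt]

/-- The decoder. -/
noncomputable def dec (p : Γ → Polynomial ℂ) (d z : B) (i : Fin 5) : B :=
  cq e (fun a => a.elim z fun g => Polynomial.aeval d (p g)) i

theorem map_dec (φ : B →ₐ[ℂ] C) (p : Γ → Polynomial ℂ) (d z : B) (i : Fin 5) :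
    φ (dec e p d z i) = dec e p (φ d) (φ z) i := by
  rw [dec, map_cq, dec]
  congr 1
  funext a
  rcases a with _ | g
  · rfl
  · exact (Polynomial.aeval_algHom_apply φ d (p g)).symm

theorem diff_dec {A : Type} [CStarAlgebra A] (p : Γ → Polynomial ℂ) (d z n0 n1 : A) (i : Fin 5) :
    DifferentiableAt ℂ (fun t : ℂ => dec e p (d + t • n0) (z + t • n1) i) 0 := by
  have h : ∀ g, DifferentiableAt ℂ (fun t : ℂ => Polynomial.aeval (d + t • n0) (p g)) 0 :=
    fun g => by
      simp only [Polynomial.aeval_eq_sum_range]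
      fun_prop
  simp only [dec, cq, cub, Option.elim]
  fun_prop

end qq

variable {H : Type} [NormedAddCommGroup H] [InnerProductSpace ℂ H] [CompleteSpace H]

/-- The Fock letters. -/
abbrev II := Bool × Option (Fin 5)

/-- Noise levels. -/
def sg (ε : ℝ) (i : Fin 5) : ℝ := if i.1 < 2 then ε ^ 2 else ε

theorem sg_pos {ε : ℝ} (hε : 0 < ε) (i : Fin 5) : 0 < sg ε i := by
  unfold sg; split_ifs <;> positivity

variable (F : Fock II H) {Γ : Type} [CommGroup Γ] [DecidableEq Γ] [Fintype Γ] {M : ℕ}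
  (e : Fin 3 × Fin M → Γ) (c : Γ → ℝ) (E : Γ →* Alg F.M)

/-- The hidden variables. -/
noncomputable def fA : Option Γ → Alg F.M := fun a => a.elim (F.sA (true, none)) E

/-- The tuple. -/
noncomputable def XX (ε : ℝ) (i : Fin 5) : Alg F.M :=
  qq e c ε (fA F E) i + (sg ε i : ℂ) • F.sA (true, some i)

/-- The free semicircular noise. -/
noncomputable def SS (i : Fin 5) : Alg F.M := F.sA (false, some i)

theorem sA_star (k : II) : star (F.sA k) = F.sA k := Subtype.ext (F.s_sa k).star_eq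

theorem fA_mem (hE : ∀ g, (E g).1 ∈ W (F.s '' {(false, none)})) {J : Set II}
    (h1 : (false, none) ∈ J) (h2 : (true, none) ∈ J) (a : Option Γ) :
    fA F E a ∈ (sub F.M (W (F.s '' J))).toSubalgebra := by
  rcases a with _ | g
  · exact subset_W ⟨_, h2, rfl⟩
  · refine (W_le ?_ : W (F.s '' {(false, none)}) ≤ W (F.s '' J)) (hE g)
    rintro _ ⟨k, rfl, rfl⟩
    exact subset_W ⟨_, h1, rfl⟩

/-- The normalised noise creation operators. -/
noncomputable def ww (ε s : ℝ) (i : Fin 5) : H →L[ℂ] H :=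
  ((sg ε i / √(sg ε i ^ 2 + s) : ℝ) : ℂ) • F.l (true, some i) +
    ((√s / √(sg ε i ^ 2 + s) : ℝ) : ℂ) • F.l (false, some i)

theorem l_ww (ε s : ℝ) (b : Bool) (i : Fin 5) : star (F.l (b, none)) * ww F ε s i = 0 := by
  simp [ww, mul_add, F.ll]

theorem ww_ww {ε s : ℝ} (hs : 0 < s) (i j : Fin 5) :
    star (ww F ε s i) * ww F ε s j = if i = j then 1 else 0 := by
  simp only [ww, star_add, star_smul, mul_add, add_mul, smul_mul_smul_comm, F.ll, Prod.mk.injEq,
    Option.some.injEq, true_and, Complex.star_def, Complex.conj_ofReal, Bool.false_eq_true,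
    Bool.true_eq_false, false_and, if_false, smul_zero, add_zero, zero_add]
  split_ifs with h
  · subst h
    simp only [← add_smul, ← Complex.ofReal_mul, ← Complex.ofReal_add]
    have h0 : 0 < sg ε i ^ 2 + s := by positivity
    rw [div_mul_div_comm, div_mul_div_comm, Real.mul_self_sqrt hs.le, Real.mul_self_sqrt h0.le,
      ← add_div, ← sq, div_self h0.ne']
    simp
  · simp

theorem sand {a : Alg F.M} (ha : a.1 ∈ W (F.s '' {(false, none)})) {u u' : H →L[ℂ] H}
    (hu : star (F.l (false, none)) * u = 0) (hu' : star (F.l (false, none)) * u' = 0) :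
    star u * a.1 * u' = (ts F.tr).τ a • (star u * u') := by
  ext η
  refine ext_inner_left ℂ fun ζ => ?_
  simp only [mul_apply_eq_comp, smul_apply, inner_smul_right]
  rw [FA.inner_star (star u), FA.inner_star (star u), star_star, F.τ_eq]
  refine freeJ F _ ha ?_ ?_
  · rintro _ rfl; exact DFunLike.congr_fun hu' η
  · rintro _ rfl; exact DFunLike.congr_fun hu ζ

theorem sandΩ {a : Alg F.M} (ha : a.1 ∈ W (F.s '' {(false, none)})) {u : H →L[ℂ] H}
    (hu : star (F.l (false, none)) * u = 0) (hΩ : star u F.Ω = 0) : star u (a.1 F.Ω) = 0 := by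
  refine ext_inner_left ℂ fun ζ => ?_
  rw [FA.inner_star (star u), star_star, freeJ F _ ha (fun k _ => F.lΩ k)
    (by rintro _ rfl; exact DFunLike.congr_fun hu ζ), ← star_star u, ← FA.inner_star, hΩ]
  simp

theorem ww_Ω (ε s : ℝ) (i : Fin 5) : star (ww F ε s i) F.Ω = 0 := by
  simp [ww, F.lΩ]

/-- The creation operators relative to the group representation. -/
noncomputable def rel (h2 : ∀ g : Γ, g * g = 1) (hE : ∀ g, (E g).1 ∈ W (F.s '' {(false, none)}))
    (hEs : ∀ g, star (E g) = E g) (hτ : ∀ g, (ts F.tr).τ (E g) = if g = 1 then 1 else 0)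
    (ε : ℝ) {s : ℝ} (hs : 0 < s) : Rel H Γ (Fin 5) where
  π := (F.M.toStarSubalgebra.subtype.toAlgHom.toRingHom.toMonoidHom).comp E
  Ω := F.Ω
  l := F.l (true, none)
  w := ww F ε s
  sq := h2
  π_star g := congrArg Subtype.val (hEs g)
  ll g := by
    have h0 : star (F.l (false, none)) * F.l (true, none) = 0 := by simp [F.ll]
    refine (sand F (hE g) h0 h0).trans ?_
    rw [hτ, F.l_iso]
    split_ifs <;> simp
  lw g i := by
    refine (sand F (hE g) (by simp [F.ll]) (l_ww F ε s false i)).trans ?_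
    rw [l_ww, smul_zero]
  ww g i j := by
    refine (sand F (hE g) (l_ww F ε s false i) (l_ww F ε s false j)).trans ?_
    rw [hτ, ww_ww F hs]
    by_cases h1 : g = 1 <;> by_cases h2 : i = j <;> simp [h1, h2]
  lΩ g := sandΩ F (hE g) (by simp [F.ll]) (F.lΩ _)
  wΩ g i := sandΩ F (hE g) (l_ww F ε s false i) (ww_Ω F ε s i)

theorem ww_inner (hE : ∀ g, (E g).1 ∈ W (F.s '' {(false, none)})) (ε : ℝ) {s : ℝ} (hs : 0 < s)
    (i : Fin 5) (P : NCPoly 5) :
    √(sg ε i ^ 2 + s) * ‖splitPairing (ts F.tr).τ (heatTuple (XX F e c E ε) (SS F) s) i P‖ =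
      ‖⟪F.Ω, star (ww F ε s i)
        ((polyEval (heatTuple (XX F e c E ε) (SS F) s) P : Alg F.M).1 F.Ω)⟫_ℂ‖ := by
  obtain ⟨a1, a2⟩ := split F {k | k.2 = none} (fun i => (true, some i)) (fun i => (false, some i))
    (by rintro (a | a) (b | b) h <;> simp_all) (by simp) (by simp) (qq e c ε (fA F E))
    (heatTuple (XX F e c E ε) (SS F) s)
    (fun i => qq_mem e c ε _ (fA_mem F E hE (J := {k | k.2 = none}) rfl rfl) i) (sg ε)
    (fun _ => √s) (fun _ => rfl) i P
  have h0 : 0 < sg ε i ^ 2 + s := by positivity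
  have h1 : 0 < √(sg ε i ^ 2 + s) := Real.sqrt_pos.2 h0
  rw [FA.inner_star, star_star]
  simp only [ww, add_apply, smul_apply, inner_add_left, inner_smul_left, a1, a2,
    Complex.conj_ofReal, ← mul_assoc, ← add_mul, ← Complex.ofReal_mul, ← Complex.ofReal_add]
  rw [norm_mul, Complex.norm_real, div_mul_eq_mul_div, div_mul_eq_mul_div,
    Real.mul_self_sqrt hs.le, ← add_div, ← sq, Real.div_sqrt, Real.norm_of_nonneg h1.le]

theorem heat_sa (hEs : ∀ g, star (E g) = E g) (ε s : ℝ) (i : Fin 5) :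
    IsSelfAdjoint (heatTuple (XX F e c E ε) (SS F) s i) := by
  have h : ∀ a, star (fA F E a) = fA F E a := by
    rintro (_ | g)
    exacts [sA_star F _, hEs g]
  simp only [IsSelfAdjoint, heatTuple, XX, SS, star_add, star_smul, star_qq e c ε h, sA_star,
    Complex.star_def, Complex.conj_ofReal]

theorem split_le (hE : ∀ g, (E g).1 ∈ W (F.s '' {(false, none)})) (ε : ℝ) {s : ℝ} (hs : 0 < s)
    (i : Fin 5) (P : NCPoly 5) :
    ‖splitPairing (ts F.tr).τ (heatTuple (XX F e c E ε) (SS F) s) i P‖ ≤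
      1 / √(sg ε i ^ 2 + s) * (ts F.tr).n2 (polyEval (heatTuple (XX F e c E ε) (SS F) s) P) := by
  have h0 : 0 < sg ε i ^ 2 + s := by positivity
  have h1 : 0 < √(sg ε i ^ 2 + s) := Real.sqrt_pos.2 h0
  rw [one_div, le_inv_mul_iff₀ h1, ww_inner F e c E hE ε hs, F.n2_eq, FA.inner_star, star_star]
  refine (norm_inner_le_norm _ _).trans (mul_le_of_le_one_left (norm_nonneg _) ?_)
  have h2 : ⟪ww F ε s i F.Ω, ww F ε s i F.Ω⟫_ℂ = 1 := by
    have := DFunLike.congr_fun (ww_ww F (ε := ε) hs i i) F.Ω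
    rw [if_pos rfl, mul_apply_eq_comp, one_apply_eq_self] at this
    rw [← star_star (ww F ε s i), ← FA.inner_star, star_star, this, F.inner_Ω]
  have h3 : ‖ww F ε s i F.Ω‖ ^ 2 = 1 := by
    rw [← inner_self_eq_norm_sq (𝕜 := ℂ), h2]; simp
  nlinarith [norm_nonneg (ww F ε s i F.Ω)]

theorem fisher1 (hE : ∀ g, (E g).1 ∈ W (F.s '' {(false, none)})) (hEs : ∀ g, star (E g) = E g)
    (ε : ℝ) {s : ℝ} (hs : 0 < s) :
    freeFisher (ts F.tr).τ (heatTuple (XX F e c E ε) (SS F) s) ≤
      ENNReal.ofReal (2 / (ε ^ 4 + s) + 3 / (ε ^ 2 + s)) := by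
  refine (fisher_le _ _ (heat_sa F e c E hEs ε s) _ (split_le F e c E hE ε hs)).trans
    (le_of_eq ?_)
  congr 1
  have h : ∀ i, (1 / √(sg ε i ^ 2 + s)) ^ 2 = 1 / (sg ε i ^ 2 + s) := fun i => by
    rw [div_pow, Real.sq_sqrt (by positivity), one_pow]
  simp only [h, Fin.sum_univ_five]
  simp [sg]
  ring

theorem ww_sa {ε s : ℝ} (hs : 0 < s) (i : Fin 5) (η : H) :
    ((√(sg ε i ^ 2 + s) : ℝ) : ℂ) • (ww F ε s i + star (ww F ε s i)) η =
      (sg ε i : ℂ) • F.s (true, some i) η + ((√s : ℝ) : ℂ) • F.s (false, some i) η := by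
  have h0 : 0 < sg ε i ^ 2 + s := by positivity
  have h1 : ((√(sg ε i ^ 2 + s) : ℝ) : ℂ) ≠ 0 := by exact_mod_cast (Real.sqrt_pos.2 h0).ne'
  simp only [ww, Fock.s, star_add, star_smul, Complex.star_def, Complex.conj_ofReal, add_apply,
    smul_apply]
  push_cast
  match_scalars <;> field_simp

theorem coe_cq (f : Option Γ → Alg F.M) (i : Fin 5) :
    (cq e f i).1 = cq e (fun a => (f a).1) i :=
  map_cq e F.M.toStarSubalgebra.subtype.toAlgHom f i

theorem fisher2 {κ0 : ℝ} (hκ : 0 < κ0) (h2 : ∀ g : Γ, g * g = 1)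
    (hE : ∀ g, (E g).1 ∈ W (F.s '' {(false, none)})) (hEs : ∀ g, star (E g) = E g)
    (hτ : ∀ g, (ts F.tr).τ (E g) = if g = 1 then 1 else 0)
    (hard : ∀ (R : Rel H Γ (Fin 5)) (κ ν : Fin 5 → ℝ), (∀ i, |κ i| ≤ κ0) → (∀ i, 0 < ν i) →
      (∀ i, ν i = 1 ∨ (Finset.univ.filter fun α : Fin 3 × Fin M => jj α = i).card = M) →
      ∀ ξ : H, (∀ U : Submodule ℂ H, R.Ω ∈ U → (∀ g, ∀ η ∈ U, R.π g η ∈ U) →
        (∀ i, ∀ η ∈ U, R.x e jj M κ ν i η ∈ U) → ξ ∈ U) →
      ∀ i, ‖star (R.w i) ξ‖ ≤ 2 * ν i * ‖ξ‖)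
    {ε : ℝ} (hε : 0 < ε) {s : ℝ} (hs : 0 < s) (hk : 1 / κ0 ^ 2 * ε ^ 2 ≤ s) :
    freeFisher (ts F.tr).τ (heatTuple (XX F e c E ε) (SS F) s) ≤
      ENNReal.ofReal (2 / (ε ^ 4 + s) + 12) := by
  set Y := heatTuple (XX F e c E ε) (SS F) s with hY
  let v : Fin 5 → ℝ := fun i => √(sg ε i ^ 2 + s)
  have hv : ∀ i, 0 < v i := fun i => Real.sqrt_pos.2 (by positivity)
  have hv' : ∀ i, (v i : ℂ) ≠ 0 := fun i => by exact_mod_cast (hv i).ne'
  let R := rel F E h2 hE hEs hτ ε hs
  let κ : Fin 5 → ℝ := fun i => if i = 1 then ε / v 1 else 0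
  let ν : Fin 5 → ℝ := fun i => if i.1 < 2 then 1 else v i
  have hYa : ∀ i η, (Y i).1 η = (qq e c ε (fA F E) i).1 η +
      (v i : ℂ) • (ww F ε s i + star (ww F ε s i)) η := fun i η => by
    rw [ww_sa F hs, ← add_assoc]; rfl
  have hx : ∀ i η, R.x e jj M κ ν i η = (κ i : ℂ) • F.s (true, none) η +
      (cq e (fA F E) i).1 η + (ν i : ℂ) • (ww F ε s i + star (ww F ε s i)) η := fun i η => by
    rw [coe_cq]; rfl
  have key : ∀ P i, ‖star (ww F ε s i) ((polyEval Y P : Alg F.M).1 F.Ω)‖ ≤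
      2 * ν i * ‖(polyEval Y P : Alg F.M).1 F.Ω‖ := fun P => by
    refine hard R κ ν (fun i => ?_) (fun i => ?_) (fun i => ?_) _ fun U h0 hπ hU => ?_
    · simp only [κ]
      split_ifs
      · rw [abs_of_pos (div_pos hε (hv 1)), div_le_iff₀ (hv 1), ← div_le_iff₀' hκ]
        refine Real.le_sqrt_of_sq_le ?_
        rw [div_pow]
        rw [one_div_mul_eq_div] at hk
        nlinarith [sq_nonneg (sg ε 1)]
      · simpa using hκ.le
    · simp only [ν]
      split_ifs
      exacts [one_pos, hv i]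
    · by_cases hi : i.1 < 2
      exacts [Or.inl (if_pos hi), Or.inr (jj_ge hi)]
    · have hYU : ∀ i, ∀ η ∈ U, (Y i).1 η ∈ U := fun i η hη => by
        have b := hU i η hη
        rw [hx] at b
        rw [hYa]
        by_cases hi : i.1 < 2
        · rw [cq_lt e _ hi] at b
          have : i = 0 ∨ i = 1 := by omega
          rcases this with rfl | rfl
          · refine add_mem ?_ (U.smul_mem _ (by simpa [κ, ν] using b))
            rw [qq_0]
            refine U.smul_mem _ ?_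
            change (dd c (fA F E)).1 η ∈ U
            simp only [dd, AddSubmonoidClass.coe_finset_sum, ContinuousLinearMap.sum_apply]
            exact sum_mem fun h _ => U.smul_mem _ (hπ h η hη)
          · rw [qq_1]
            convert U.smul_mem (v 1 : ℂ) b using 1
            have := hv' 1
            change (ε : ℂ) • F.s (true, none) η + _ = _
            simp only [κ, ν, if_true, Fin.val_one, Nat.one_lt_ofNat, ZeroMemClass.coe_zero,
              zero_apply]
            push_cast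
            match_scalars <;> field_simp
        · rw [qq_ge e c ε _ hi]
          have h1 : i ≠ 1 := by rintro rfl; simp at hi
          simpa only [κ, ν, if_neg h1, if_neg hi, Complex.ofReal_zero, zero_smul, zero_add] using b
      rw [polyEval_eq_sum, Finsupp.sum]
      simp only [AddSubmonoidClass.coe_finset_sum, ContinuousLinearMap.sum_apply]
      refine sum_mem fun w _ => U.smul_mem _ ?_
      rw [wordEval_eq_prod]
      induction FreeMonoid.toList w with
      | nil => exact h0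
      | cons a w ih => exact hYU a _ ih
  refine (fisher_le _ _ (heat_sa F e c E hEs ε s) (fun i => if i.1 < 2 then 1 / v i else 2)
    fun i P => ?_).trans (le_of_eq ?_)
  · split_ifs with hi
    · exact split_le F e c E hE ε hs i P
    · refine le_of_mul_le_mul_left ?_ (hv i)
      rw [ww_inner F e c E hE ε hs, F.n2_eq]
      refine (norm_inner_le_norm _ _).trans ?_
      have := key P i
      simp only [ν, if_neg hi] at this
      rw [F.norm_Ω, one_mul]
      linarith
  · congr 1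
    have h : ∀ i, (1 / v i) ^ 2 = 1 / (sg ε i ^ 2 + s) := fun i => by
      rw [div_pow, Real.sq_sqrt (by positivity), one_pow]
    simp only [Fin.sum_univ_five]
    simp only [Fin.isValue, Fin.coe_ofNat_eq_mod, Nat.reduceMod, Nat.reduceLT, if_true, if_false, h]
    simp [sg]
    ring

theorem upper (p : Γ → Polynomial ℂ) (hp : ∀ g, Polynomial.aeval (dd c (fA F E)) (p g) = E g)
    (hEs : ∀ g, star (E g) = E g) :
    ∃ L : ℝ, 0 < L ∧ ∀ᶠ ε : ℝ in nhdsWithin 0 (Set.Ioi 0),
      chi (ts F.tr).τ (XX F e c E ε) ≤ ((5 * Real.log (L * ε) + 15 : ℝ) : EReal) := by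
  set D := dd c (fA F E)
  set Z := F.sA (true, none)
  let N : Fin 5 → Alg F.M := fun i => F.sA (true, some i)
  have hN : ∀ i, ‖N i‖ ≤ 2 := fun i => F.norm_s _
  have hZ : ‖Z‖ ≤ 2 := F.norm_s _
  let f : ℂ → Fin 5 → Alg F.M := fun t i => dec e p (D + t • N 0) (Z + t • N 1) i
  have hf : DifferentiableAt ℂ f 0 := differentiableAt_pi.2 fun i => diff_dec e p D Z _ _ i
  obtain ⟨K, hK0, hK⟩ := hf.isBigO_sub.exists_pos
  have hK := (Complex.continuous_ofReal.tendsto' 0 0 rfl).eventually hK.bound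
  have f0 : ∀ i, f 0 i = cq e (fA F E) i := fun i => by
    simp only [f, zero_smul, add_zero, dec, hp]; rfl
  refine ⟨K + ‖D‖ + 5, by positivity, ?_⟩
  filter_upwards [nhdsWithin_le_nhds hK, self_mem_nhdsWithin,
    nhdsWithin_le_nhds (Iio_mem_nhds (zero_lt_one' ℝ))] with ε h1 hε hε1
  have hε : 0 < ε := hε
  have hε1 : ε < 1 := hε1
  have hε' : (ε : ℂ) ≠ 0 := by exact_mod_cast hε.ne'
  let x : Fin 5 → NCPoly 5 := fun i => MonoidAlgebra.single (FreeMonoid.of i) ((ε : ℂ)⁻¹)
  have ev : ∀ {B : Type} [Ring B] [Algebra ℂ B] (Y : Fin 5 → B) (i : Fin 5),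
      polyEval Y (dec e p (x 0) (x 1) i) = dec e p ((ε : ℂ)⁻¹ • Y 0) ((ε : ℂ)⁻¹ • Y 1) i :=
    fun {B} _ _ Y i => by
      have h : ∀ j, polyEval Y (x j) = (ε : ℂ)⁻¹ • Y j := fun j => by
        rw [polyEval_single]; simp [wordEval]
      rw [← h, ← h]
      exact map_dec e (MonoidAlgebra.lift ℂ B _ (FreeMonoid.lift Y)) p _ _ i
  have hsa : ∀ i, IsSelfAdjoint (XX F e c E ε i) := fun i => by
    simpa [heatTuple] using heat_sa F e c E hEs ε 0 i
  have := chi_le (ts F.tr).τ (XX F e c E ε) hsa (fun i => i.1 < 2)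
    (fun i => dec e p (x 0) (x 1) i)
    (fun i d y y' h => by rw [ev, ev, h 0 (by simp), h 1 (by simp)])
    (fun i hi => cq_lt e _ hi) (fun _ => (K + ‖D‖ + 5) * ε) (fun _ => by positivity) fun i => by
      rw [← TS.n2_sq]
      refine pow_lt_pow_left₀ (((ts F.tr).n2_le_norm _).trans_lt ?_) (TS.n2_nonneg _ _) two_ne_zero
      have nε : ‖(ε : ℂ)‖ = ε := by rw [Complex.norm_real, Real.norm_of_nonneg hε.le]
      have nε2 : ‖((ε ^ 2 : ℝ) : ℂ)‖ = ε ^ 2 := by
        rw [Complex.norm_real, Real.norm_of_nonneg (by positivity)]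
      have x0 : XX F e c E ε 0 = (ε : ℂ) • D + ((ε ^ 2 : ℝ) : ℂ) • N 0 := by rw [XX, qq_0]; rfl
      have x1 : XX F e c E ε 1 = (ε : ℂ) • Z + ((ε ^ 2 : ℝ) : ℂ) • N 1 := by rw [XX, qq_1]; rfl
      have hD := norm_nonneg D
      by_cases hi : i.1 < 2
      · rw [ev, dec, cq_lt e _ hi, sub_zero]
        have : i = 0 ∨ i = 1 := by omega
        rcases this with rfl | rfl
        · rw [x0]
          refine (norm_add_le _ _).trans_lt ?_
          rw [norm_smul, norm_smul, nε, nε2]
          have : ε ^ 2 * ‖N 0‖ ≤ ε * 2 := by gcongr; nlinarith; exact hN 0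
          nlinarith
        · rw [x1]
          refine (norm_add_le _ _).trans_lt ?_
          rw [norm_smul, norm_smul, nε, nε2]
          have : ε ^ 2 * ‖N 1‖ ≤ ε * 2 := by gcongr; nlinarith; exact hN 1
          nlinarith
      · have e1 : polyEval (XX F e c E ε) (dec e p (x 0) (x 1) i) = f ε i := by
          rw [ev, x0, x1]
          simp only [f]
          congr 1 <;> push_cast <;> match_scalars <;> field_simp
        have e2 : XX F e c E ε i - f ε i = (ε : ℂ) • N i - (f ε - f 0) i := by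
          rw [XX, qq_ge e c ε _ hi, ← f0, sg, if_neg hi, Pi.sub_apply]
          abel
        rw [e1, e2]
        refine (norm_sub_le _ _).trans_lt ?_
        have b1 := (norm_le_pi_norm (f ε - f 0) i).trans h1
        rw [sub_zero, nε] at b1
        rw [norm_smul, nε]
        nlinarith [hN i]
  simpa [show (3 : ℝ) * 5 = 15 by norm_num] using this

end FN

open FN in
/-- Assembly of the pieces. -/
theorem final :
    ∃ (A : Type) (_ : CStarAlgebra A) (τ : A →ₗ[ℂ] ℂ) (n : ℕ) (X S : Fin n → A),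
      IsFaithfulTracialState τ ∧ 2 ≤ n ∧ (∀ i, IsSelfAdjoint (X i)) ∧
      IsStandardSemicircular τ S ∧ IsFreeFamily τ (withNoise X S) ∧
      (∀ s : ℝ, 0 < s → freeFisher τ (heatTuple X S s) < ⊤) ∧
      IntegrableOn (fun s : ℝ => (n : ℝ) / (1 + s) - (freeFisher τ (heatTuple X S s)).toReal)
        (Set.Ioi 0) ∧
      ⊥ < chi τ X ∧ chi τ X ≤ ((chiStar τ X S - 1 / 2 : ℝ) : EReal) := by
  classical
  obtain ⟨M, hM, κ0, hκ, hh⟩ := hard
  obtain ⟨F⟩ := exists_fock II
  obtain ⟨E, hE, hEs, hτ⟩ := exists_E F (false, none) (Fin 3 × Fin M)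
  obtain ⟨c, hc⟩ := exists_gen (Fin 3 × Fin M)
  choose p hp using hc
  obtain ⟨h2, e, he1, he2, he3⟩ := gen_props (Fin 3 × Fin M)
  obtain ⟨L, hL, hup⟩ := upper F e c E p (fun g => hp g _ E) hEs
  obtain ⟨ε, h1, hε, hε1, hε2⟩ := (hup.and (Filter.Eventually.and self_mem_nhdsWithin
    (Filter.Eventually.and (nhdsWithin_le_nhds (Iio_mem_nhds (zero_lt_one' ℝ)))
      (nhdsWithin_le_nhds (Iio_mem_nhds
        (Real.exp_pos (-(5 * Real.log L + 26 + 2 * (1 / κ0 ^ 2))))))))).exists
  have hε : 0 < ε := hε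
  have hε1 : ε < 1 := hε1
  have hε2 : Real.log ε < -(5 * Real.log L + 26 + 2 * (1 / κ0 ^ 2)) :=
    (Real.log_lt_iff_lt_exp hε).2 hε2
  have hsa : ∀ i, IsSelfAdjoint (XX F e c E ε i) := fun i => by
    simpa [heatTuple] using heat_sa F e c E hEs ε 0 i
  have hsc : IsStandardSemicircular (ts F.tr).τ (SS F) := semicirc F fun i => (false, some i)
  let J : Set II := {k | ∀ i, k ≠ (false, some i)}
  have hXJ : ∀ i, XX F e c E ε i ∈ sub F.M (W (F.s '' J)) := fun i =>
    add_mem (qq_mem e c ε _ (fA_mem F E hE (J := J) (by simp [J]) (by simp [J])) i)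
      (SMulMemClass.smul_mem _ (subset_W ⟨(true, some i), by simp [J], rfl⟩))
  have hinj : Function.Injective fun i : Fin 5 => ((false, some i) : II) := fun i j h => by
    simpa using h
  have f1 := fun s hs => fisher1 F e c E hE hEs ε (s := s) hs
  obtain ⟨i1, i2⟩ := chiStar_ge (ts F.tr) (XX F e c E ε) (SS F) hsa hsc.1
    (fun i => by simpa [← sq] using (hsc.2 i 1).1)
    (fun i => by
      have := (F.sd J _ hinj fun j h => h j rfl).2 i trivial [Sum.inr (XX F e c E ε i)]
        (fun x hx => by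
          obtain rfl : x = XX F e c E ε i := by simpa using hx
          exact hXJ i)
      rw [TS.comm]
      simpa [ssum, SS] using this)
    hε hε1.le (k := 1 / κ0 ^ 2) (by positivity) f1
    fun s hs hk => fisher2 F e c E hκ h2 hE hEs hτ
      (fun R κ ν => hh _ _ _ _ R e jj κ ν he1 he2 he3 (by simp) (by simp)) hε hs hk
  refine ⟨Alg F.M, inferInstance, (ts F.tr).τ, 5, XX F e c E ε, SS F, faithful F, by norm_num,
    hsa, hsc, freeFamily F J _ hinj (fun j h => h j rfl) _ hXJ,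
    fun s hs => (f1 s hs).trans_lt ENNReal.ofReal_lt_top, i1, ?_, h1.trans ?_⟩
  · have hq : ∀ {B : Type} [Ring B] [Algebra ℂ B] (f : Option _ → B) (i : Fin 5),
        FreeAlgebra.lift ℂ f (qq e c ε (FreeAlgebra.ι ℂ) i) = qq e c ε f i :=
      fun {B} _ _ f i => by rw [map_qq]; simp
    have := chi_gt_bot (ts F.tr) (sub F.M (W (F.s '' {(false, none)}))) h2 E hE hEs hτ _
      (F.sd {(false, none)} (fun o : Option (Fin 5) => (true, o)) (fun i j h => by simpa using h)
        (by simp))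
      (qq e c ε (FreeAlgebra.ι ℂ)) (fun i d f hf => by rw [hq, star_qq e c ε hf]) (sg ε)
      (sg_pos hε)
    simp only [hq] at this
    exact this
  · rw [EReal.coe_le_coe_iff, Real.log_mul hL.ne' hε.ne']
    linarith

end Crest.Agent.R89
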