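import Crest.Agent.R89.Defs

/-! Row 89: families of vectors and the `ℓ¹/ℓ²` potential. -/

set_option autoImplicit false
set_option linter.unusedSectionVars false

open scoped InnerProductSpace

namespace Crest.Agent.R89.Hd

variable {H : Type} [NormedAddCommGroup H] [InnerProductSpace ℂ H] [CompleteSpace H]

section nn
variable {J J' : Type} [Fintype J] [Fintype J']

/-- The `ℓ²` norm of a family. -/
noncomputable def nn (v : J → H) : ℝ := ‖(WithLp.toLp 2 v : PiLp 2 fun _ : J => H)‖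

theorem nn_nonneg (v : J → H) : 0 ≤ nn v := norm_nonneg _

theorem nn_sq (v : J → H) : nn v ^ 2 = ∑ j, ‖v j‖ ^ 2 := by
  rw [nn, PiLp.norm_sq_eq_of_L2]

theorem nn_le {v : J → H} {c : ℝ} (hc : 0 ≤ c) (h : ∑ j, ‖v j‖ ^ 2 ≤ c ^ 2) : nn v ≤ c :=
  (pow_le_pow_iff_left₀ (nn_nonneg v) hc two_ne_zero).1 (by rwa [nn_sq])

theorem nn_zero : nn (fun _ : J => (0 : H)) = 0 :=
  le_antisymm (nn_le le_rfl (by simp)) (nn_nonneg _)

theorem nn_add (v u : J → H) : nn (fun j => v j + u j) ≤ nn v + nn u :=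
  norm_add_le (WithLp.toLp 2 v : PiLp 2 fun _ : J => H) (WithLp.toLp 2 u)

theorem nn_smul (c : ℂ) (v : J → H) : nn (fun j => c • v j) = ‖c‖ * nn v :=
  norm_smul c (WithLp.toLp 2 v : PiLp 2 fun _ : J => H)

theorem nn_sum {α : Type} (s : Finset α) (v : α → J → H) :
    nn (fun j => ∑ a ∈ s, v a j) ≤ ∑ a ∈ s, nn (v a) := by
  classical
  induction s using Finset.induction_on with
  | empty => simp [nn_zero]
  | insert a s ha ih =>
    simp only [Finset.sum_insert ha]
    exact (nn_add _ _).trans (by gcongr)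

theorem nn_mono {v u : J → H} (h : ∀ j, ‖v j‖ ≤ ‖u j‖) : nn v ≤ nn u :=
  nn_le (nn_nonneg u) (by rw [nn_sq]; gcongr with j; exact h j)

theorem sum_inj {σ : J' → J} (hσ : Function.Injective σ) {f : J → ℝ} (hf : ∀ j, 0 ≤ f j) :
    ∑ x, f (σ x) ≤ ∑ j, f j := by
  classical
  rw [← Finset.sum_image (s := Finset.univ) (g := σ) (f := f) fun a _ b _ h => hσ h]
  exact Finset.sum_le_sum_of_subset_of_nonneg (Finset.subset_univ _) fun j _ _ => hf j

theorem nn_comp {σ : J' → J} (hσ : Function.Injective σ) (v : J → H) :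
    nn (fun x => v (σ x)) ≤ nn v :=
  nn_le (nn_nonneg v) (by rw [nn_sq]; exact sum_inj hσ (f := fun j => ‖v j‖ ^ 2) fun j => by positivity)

theorem norm_le_nn (v : J → H) (j : J) : ‖v j‖ ≤ nn v :=
  PiLp.norm_apply_le (WithLp.toLp 2 v : PiLp 2 fun _ : J => H) j

theorem sum_le_sqrt {α : Type} [Fintype α] {f : α → ℝ} {c : ℝ} (hc : 0 ≤ c)
    (h : ∑ a, f a ^ 2 ≤ c ^ 2) : ∑ a, f a ≤ √(Fintype.card α) * c := by
  have h1 := sq_sum_le_card_mul_sum_sq (s := Finset.univ) (f := f)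
  refine (le_abs_self _).trans (abs_le_of_sq_le_sq ?_ (by positivity))
  rw [mul_pow, Real.sq_sqrt (by positivity)]
  refine h1.trans ?_
  rw [Finset.card_univ]
  gcongr

theorem nn_slices {α : Type} [Fintype α] {σ : α → J' → J}
    (hσ : Function.Injective fun p : α × J' => σ p.1 p.2) (v : J → H) :
    ∑ a, nn (fun x => v (σ a x)) ≤ √(Fintype.card α) * nn v := by
  refine sum_le_sqrt (nn_nonneg v) ?_
  simp only [nn_sq]
  rw [← Fintype.sum_prod_type']
  exact sum_inj hσ (f := fun j => ‖v j‖ ^ 2) fun j => by positivity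

end nn

section orth
variable {X : Type} [Fintype X] [DecidableEq X] {V : X → H →L[ℂ] H}

theorem orth_sq (hV : ∀ a b ξ, star (V a) (V b ξ) = if a = b then ξ else 0) (ξ : X → H) :
    ‖∑ a, V a (ξ a)‖ ^ 2 = ∑ a, ‖ξ a‖ ^ 2 := by
  have h : ∀ a b, ⟪V a (ξ a), V b (ξ b)⟫_ℂ = if a = b then ⟪ξ a, ξ a⟫_ℂ else 0 := fun a b => by
    rw [← ContinuousLinearMap.adjoint_inner_right, ← ContinuousLinearMap.star_eq_adjoint, hV]
    split_ifs with h
    · rw [h]
    · simp
  simp only [@norm_sq_eq_re_inner ℂ, sum_inner, inner_sum, h,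
    Finset.sum_ite_eq', Finset.mem_univ, if_true, map_sum]

theorem orth_bessel (hV : ∀ a b ξ, star (V a) (V b ξ) = if a = b then ξ else 0) (ξ : H) :
    ∑ a, ‖star (V a) ξ‖ ^ 2 ≤ ‖ξ‖ ^ 2 := by
  have h1 := orth_sq hV fun a => star (V a) ξ
  have h2 : ∑ a, ‖star (V a) ξ‖ ^ 2 = RCLike.re ⟪∑ a, V a (star (V a) ξ), ξ⟫_ℂ := by
    simp only [@norm_sq_eq_re_inner ℂ, sum_inner, map_sum]
    refine Finset.sum_congr rfl fun a _ => ?_
    rw [← ContinuousLinearMap.adjoint_inner_right (V a), ← ContinuousLinearMap.star_eq_adjoint]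
  have h3 := re_inner_le_norm (𝕜 := ℂ) (∑ a, V a (star (V a) ξ)) ξ
  rw [← h2, ← h1] at h3
  rw [← h1]
  nlinarith [sq_nonneg (‖∑ a, V a (star (V a) ξ)‖ - ‖ξ‖)]

end orth

variable {Γ Λ : Type} [CommGroup Γ] [DecidableEq Γ] [DecidableEq Λ] [Fintype Γ] (R : Rel H Γ Λ)

/-- Creation of a leg with label `t`. -/
noncomputable def L (t : Γ) : H →L[ℂ] H := R.π t * R.l

theorem Ls_apply (t : Γ) (ξ : H) : star (L R t) ξ = star R.l (R.π t ξ) := by
  rw [L, star_mul, R.π_star]; rfl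

theorem ππ (g g' : Γ) (ξ : H) : R.π g (R.π g' ξ) = R.π (g * g') ξ := by rw [map_mul]; rfl

theorem ππ' (g : Γ) (ξ : H) : R.π g (R.π g ξ) = ξ := by rw [ππ, R.sq, map_one]; rfl

include R in
theorem mul_eq_one' {g g' : Γ} : g * g' = 1 ↔ g = g' :=
  ⟨fun h => by rw [← mul_one g, ← R.sq g', ← mul_assoc, h, one_mul], fun h => h ▸ R.sq g⟩

theorem πL (g t : Γ) (ξ : H) : R.π g (L R t ξ) = L R (g * t) ξ := ππ R g t _

theorem LsL (s t : Γ) (ξ : H) : star (L R s) (L R t ξ) = if s = t then ξ else 0 := by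
  have := DFunLike.congr_fun (R.ll (s * t)) ξ
  rw [Ls_apply, πL]
  refine this.trans ?_
  simp only [mul_eq_one' R]
  split_ifs <;> rfl

theorem norm_π (g : Γ) (ξ : H) : ‖R.π g ξ‖ = ‖ξ‖ := by
  have := orth_sq (X := Unit) (V := fun _ => R.π g) (fun _ _ ξ => by simp [R.π_star, ππ']) fun _ => ξ
  simpa using this

theorem norm_L (t : Γ) (ξ : H) : ‖L R t ξ‖ = ‖ξ‖ := by
  have := orth_sq (X := Unit) (V := fun _ => L R t) (fun _ _ ξ => by simp [LsL]) fun _ => ξ
  simpa using this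

theorem Ls_sum (s : Γ) (ξ : Γ → H) : star (L R s) (∑ t, L R t (ξ t)) = ξ s := by
  simp [map_sum, LsL]

variable (K : Submodule ℂ H)

/-- The potential of a family of vectors: `ℓ²` in the family, `ℓ¹` in the labels of the legs. -/
inductive Pot {J : Type} [Fintype J] : (J → H) → ℝ → Prop
  | zero (b : ℝ) (hb : 0 ≤ b) : Pot (fun _ => 0) b
  | step (v z : J → H) (v' : Γ → J → H) (b' : Γ → ℝ) (b : ℝ) (hz : ∀ j, z j ∈ K)
      (h : ∀ t, Pot (v' t) (b' t)) (hv : ∀ j, v j = z j + ∑ t, L R t (v' t j))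
      (hb : nn v + 2000 * nn z + (∑ t, b' t) / 2000 ≤ b) : Pot v b

variable {R K} {J J' : Type} [Fintype J] [Fintype J']

theorem Pot.nonneg {v : J → H} {b : ℝ} (h : Pot R K v b) : 0 ≤ b := by
  induction h with
  | zero b hb => exact hb
  | step v z v' b' b _ _ _ hb ih =>
    have := Finset.sum_nonneg fun t (_ : t ∈ Finset.univ) => ih t
    linarith [nn_nonneg v, nn_nonneg z]

theorem Pot.dec {v : J → H} {b : ℝ} (h : Pot R K v b) : ∃ (z : J → H) (v' : Γ → J → H)
    (b' : Γ → ℝ), (∀ j, z j ∈ K) ∧ (∀ t, Pot R K (v' t) (b' t)) ∧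
    (∀ j, v j = z j + ∑ t, L R t (v' t j)) ∧ nn v + 2000 * nn z + (∑ t, b' t) / 2000 ≤ b := by
  cases h with
  | zero b hb =>
    exact ⟨fun _ => 0, fun _ _ => 0, fun _ => 0, fun _ => K.zero_mem, fun _ => .zero 0 le_rfl,
      by simp, by simpa [nn_zero] using hb⟩
  | step v z v' b' b hz h hv hb => exact ⟨z, v', b', hz, h, hv, hb⟩

theorem Pot.dec' {v : J → H} {b : ℝ} (h : Pot R K v b) : ∃ (z : J → H) (v' : Γ → J → H)
    (b' : Γ → ℝ), (∀ j, z j ∈ K) ∧ (∀ t, Pot R K (v' t) (b' t)) ∧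
    (∀ j, v j = z j + ∑ t, L R t (v' t j)) ∧ nn z ≤ b / 2000 ∧ ∑ t, b' t ≤ 2000 * b := by
  obtain ⟨z, v', b', h1, h2, h3, h4⟩ := h.dec
  have := Finset.sum_nonneg fun t (_ : t ∈ Finset.univ) => (h2 t).nonneg
  exact ⟨z, v', b', h1, h2, h3, by linarith [nn_nonneg v], by linarith [nn_nonneg v, nn_nonneg z]⟩

theorem Pot.mono {v : J → H} {b c : ℝ} (h : Pot R K v b) (hc : b ≤ c) : Pot R K v c := by
  obtain ⟨z, v', b', h1, h2, h3, h4⟩ := h.dec
  exact .step v z v' b' c h1 h2 h3 (h4.trans hc)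

theorem Pot.congr {v u : J → H} {b : ℝ} (h : Pot R K v b) (e : ∀ j, u j = v j) : Pot R K u b :=
  funext e ▸ h

theorem Pot.nn_le {v : J → H} {b : ℝ} (h : Pot R K v b) : nn v ≤ b := by
  obtain ⟨z, v', b', h1, h2, h3, h4⟩ := h.dec
  have := Finset.sum_nonneg fun t (_ : t ∈ Finset.univ) => (h2 t).nonneg
  linarith [nn_nonneg z]

theorem Pot.monoK {K' : Submodule ℂ H} (hK : K ≤ K') {v : J → H} {b : ℝ} (h : Pot R K v b) :
    Pot R K' v b := by
  induction h with
  | zero b hb => exact .zero b hb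
  | step v z v' b' b hz _ hv hb ih => exact .step v z v' b' b (fun j => hK (hz j)) ih hv hb

theorem Pot.add {v u : J → H} {b c : ℝ} (h : Pot R K v b) (h' : Pot R K u c) :
    Pot R K (fun j => v j + u j) (b + c) := by
  induction h generalizing u c with
  | zero b hb => exact (h'.mono (by linarith)).congr fun j => zero_add _
  | step v z v' b' b hz _ hv hb ih =>
    obtain ⟨y, u', c', h1, h2, h3, h4⟩ := h'.dec
    refine .step _ (fun j => z j + y j) (fun t j => v' t j + u' t j) (fun t => b' t + c' t) _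
      (fun j => K.add_mem (hz j) (h1 j)) (fun t => ih t (h2 t)) (fun j => ?_) ?_
    · simp only [hv, h3, map_add, Finset.sum_add_distrib]; abel
    · rw [Finset.sum_add_distrib]
      linarith [nn_add v u, nn_add z y]

theorem Pot.sum {α : Type} (s : Finset α) {v : α → J → H} {b : α → ℝ}
    (h : ∀ a ∈ s, Pot R K (v a) (b a)) : Pot R K (fun j => ∑ a ∈ s, v a j) (∑ a ∈ s, b a) := by
  classical
  induction s using Finset.induction_on with
  | empty => exact (Pot.zero 0 le_rfl).congr fun j => by simp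
  | insert a s ha ih =>
    simp only [Finset.sum_insert ha]
    exact (h a (Finset.mem_insert_self _ _)).add (ih fun a ha => h a (Finset.mem_insert_of_mem ha))

theorem Pot.smul (c : ℂ) {v : J → H} {b : ℝ} (h : Pot R K v b) :
    Pot R K (fun j => c • v j) (‖c‖ * b) := by
  induction h with
  | zero b hb => exact (Pot.zero _ (by positivity)).congr fun j => smul_zero _
  | step v z v' b' b hz _ hv hb ih =>
    refine .step _ (fun j => c • z j) (fun t j => c • v' t j) (fun t => ‖c‖ * b' t) _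
      (fun j => K.smul_mem c (hz j)) ih (fun j => ?_) ?_
    · simp only [hv, map_smul, smul_add, Finset.smul_sum]
    · rw [nn_smul, nn_smul, ← Finset.mul_sum]
      nlinarith [norm_nonneg c]

theorem Pot.pi (hK : ∀ g, ∀ ξ ∈ K, R.π g ξ ∈ K) (g : Γ) {v : J → H} {b : ℝ} (h : Pot R K v b) :
    Pot R K (fun j => R.π g (v j)) b := by
  obtain ⟨z, v', b', h1, h2, h3, h4⟩ := h.dec
  refine .step _ (fun j => R.π g (z j)) (fun t => v' (g * t)) (fun t => b' (g * t)) _
    (fun j => hK g _ (h1 j)) (fun t => h2 _) (fun j => ?_) ?_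
  · rw [h3, map_add, map_sum, ← Equiv.sum_comp (Equiv.mulLeft g)]
    simp only [πL, Equiv.coe_mulLeft, ← mul_assoc, R.sq, one_mul]
  · have e := Equiv.sum_comp (Equiv.mulLeft g) b'
    simp only [Equiv.coe_mulLeft] at e
    rw [e]
    have h5 : nn (fun j => R.π g (v j)) ≤ nn v := nn_mono fun j => (norm_π R g _).le
    have h6 : nn (fun j => R.π g (z j)) ≤ nn z := nn_mono fun j => (norm_π R g _).le
    linarith

theorem Pot.comp {σ : J' → J} (hσ : Function.Injective σ) {v : J → H} {b : ℝ}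
    (h : Pot R K v b) : Pot R K (fun x => v (σ x)) b := by
  induction h with
  | zero b hb => exact .zero b hb
  | step v z v' b' b hz _ hv hb ih =>
    refine .step _ (fun x => z (σ x)) (fun t x => v' t (σ x)) b' b (fun x => hz _) ih
      (fun x => hv _) ?_
    linarith [nn_comp hσ v, nn_comp hσ z]

theorem Pot.slices {α : Type} [Fintype α] {σ : α → J' → J}
    (hσ : Function.Injective fun p : α × J' => σ p.1 p.2) {v : J → H} {b : ℝ}
    (h : Pot R K v b) : ∃ c : α → ℝ, (∀ a, Pot R K (fun x => v (σ a x)) (c a)) ∧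
      ∑ a, c a ≤ √(Fintype.card α) * b := by
  induction h with
  | zero b hb => exact ⟨fun _ => 0, fun _ => .zero 0 le_rfl, by simp; positivity⟩
  | step v z v' b' b hz _ hv hb ih =>
    choose c hc1 hc2 using ih
    refine ⟨fun a => nn (fun x => v (σ a x)) + 2000 * nn (fun x => z (σ a x)) +
      (∑ t, c t a) / 2000, fun a => .step _ (fun x => z (σ a x)) (fun t x => v' t (σ a x))
      (fun t => c t a) _ (fun x => hz _) (fun t => hc1 t a) (fun x => hv _) le_rfl, ?_⟩
    rw [Finset.sum_add_distrib, Finset.sum_add_distrib, ← Finset.mul_sum, ← Finset.sum_div,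
      Finset.sum_comm]
    have h1 := nn_slices hσ v
    have h2 := nn_slices hσ z
    have h3 : ∑ t, ∑ a, c t a ≤ √(Fintype.card α) * ∑ t, b' t := by
      rw [Finset.mul_sum]; exact Finset.sum_le_sum fun t _ => hc2 t
    nlinarith [Real.sqrt_nonneg (Fintype.card α : ℝ)]

theorem Pot.ofK {z : J → H} (hz : ∀ j, z j ∈ K) : Pot R K z (2001 * nn z) :=
  .step z z (fun _ _ => 0) (fun _ => 0) _ hz (fun _ => .zero 0 le_rfl) (by simp)
    (by simp; linarith)

theorem Pot.sumL {α : Type} [Fintype α] (e : α → Γ) {f : α → J → H} {b : α → ℝ}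
    (h : ∀ a, Pot R K (f a) (b a)) : Pot R K (fun j => ∑ a, L R (e a) (f a j))
      (nn (fun j => ∑ a, L R (e a) (f a j)) + (∑ a, b a) / 2000) := by
  refine .step _ (fun _ => 0) (fun t j => ∑ a with e a = t, f a j) (fun t => ∑ a with e a = t, b a)
    _ (fun _ => K.zero_mem) (fun t => Pot.sum _ fun a _ => h a) (fun j => ?_) ?_
  · rw [zero_add, ← Finset.sum_fiberwise Finset.univ e]
    refine Finset.sum_congr rfl fun t _ => ?_
    rw [map_sum]
    exact Finset.sum_congr rfl fun a ha => by rw [(Finset.mem_filter.1 ha).2]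
  · rw [nn_zero, Finset.sum_fiberwise]
    simp

theorem Pot.L1 (t : Γ) {z : J → H} (hz : ∀ j, z j ∈ K) :
    Pot R K (fun j => L R t (z j)) (3 * nn z) := by
  have h := Pot.sumL (R := R) (α := Unit) (fun _ => t) (f := fun _ => z) fun _ => Pot.ofK hz
  simp only [Finset.univ_unique, Finset.sum_singleton] at h
  have h1 : nn (fun j => L R t (z j)) ≤ nn z := nn_mono fun j => (norm_L R t _).le
  exact h.mono (by linarith [nn_nonneg z])

theorem Pot.shift (hK : ∀ g, ∀ ξ ∈ K, R.π g ξ ∈ K) {f : J × Γ → H} {b : ℝ} (h : Pot R K f b) :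
    ∃ (k : J → H) (f' : J × Γ → H), (∀ j, k j ∈ K) ∧ Pot R K f' (2000 * b) ∧
      ∀ j, ∑ g, R.π g (f (j, g)) = k j + ∑ s, L R s (f' (j, s)) := by
  obtain ⟨z, v', b', h1, h2, h3, -, h5⟩ := h.dec'
  refine ⟨fun j => ∑ g, R.π g (z (j, g)), fun p => ∑ t, v' t (p.1, p.2 * t),
    fun j => sum_mem fun g _ => hK g _ (h1 _), (Pot.sum _ fun t _ => (h2 t).comp
      (σ := fun p : J × Γ => (p.1, p.2 * t)) fun p q hpq => ?_).mono h5, fun j => ?_⟩
  · simp only [Prod.mk.injEq, mul_left_inj] at hpq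
    exact Prod.ext hpq.1 hpq.2
  · simp only [h3, map_add, map_sum, Finset.sum_add_distrib, πL]
    congr 1
    rw [Finset.sum_comm, Finset.sum_comm (f := fun s t => L R s (v' t (j, s * t)))]
    refine Finset.sum_congr rfl fun t _ => ?_
    rw [← Equiv.sum_comp (Equiv.mulRight t)]
    simp only [Equiv.coe_mulRight, mul_assoc, R.sq, mul_one]

end Crest.Agent.R89.Hd
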