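import Crest.Agent.R89.HardA

/-! Row 89: consequences of the Wick decomposition. -/

set_option autoImplicit false
set_option linter.unusedSectionVars false

open scoped InnerProductSpace

namespace Crest.Agent.R89.Hd

/-- The parameters of the letters. -/
structure Par (Γ Λ I : Type) [CommGroup Γ] [DecidableEq Λ] [Fintype Λ] [Fintype I] where
  e : I → Γ
  jj : I → Λ
  μ : ℝ
  κ : Λ → ℝ
  ν : Λ → ℝ
  e_inj : Function.Injective e
  e_ne : ∀ α, e α ≠ 1
  sidon : ∀ α β α' β', α ≠ β → e α * e β = e α' * e β' → α' = α ∨ α' = β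
  μ0 : 0 ≤ μ
  μN : μ ^ 2 * Fintype.card I ≤ 3
  μs : μ ≤ 1 / 10 ^ 12
  κs : ∑ i, |κ i| ≤ 1 / 10 ^ 7
  ν0 : ∀ i, 0 < ν i
  fib : ∀ i, ν i = 1 ∨ μ ^ 2 * (Finset.univ.filter fun α => jj α = i).card = 1

variable {H : Type} [NormedAddCommGroup H] [InnerProductSpace ℂ H] [CompleteSpace H]
variable {Γ Λ I : Type} [CommGroup Γ] [DecidableEq Γ] [DecidableEq Λ] [Fintype Γ] [Fintype Λ]
  [Fintype I] (R : Rel H Γ Λ) (P : Par Γ Λ I)

theorem Par.μN' : P.μ * √(Fintype.card I) ≤ 2 := by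
  refine (le_abs_self _).trans (abs_le_of_sq_le_sq ?_ (by positivity))
  rw [mul_pow, Real.sq_sqrt (by positivity)]
  linarith [P.μN]

theorem Par.norm_μ : ‖(P.μ : ℂ)‖ = P.μ := by rw [Complex.norm_real, Real.norm_of_nonneg P.μ0]

/-- The cubic creation part after removing the first leg. -/
noncomputable def F2 (y : Γ × Λ → H) (s : Γ) : H :=
  (P.μ : ℂ) • ∑ β, L R (P.e β) (L R (P.e β) (R.π (P.e β) (y (s * P.e β, P.jj β))))

/-- Creation of noise. -/
noncomputable def Nz (y : Γ × Λ → H) : H := ∑ p, (P.ν p.2 : ℂ) • R.π p.1 (R.w p.2 (y p))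

/-- The difference quotient. -/
noncomputable def D (p : Γ × Λ) : H →L[ℂ] H := (P.ν p.2 : ℂ)⁻¹ • (star (R.w p.2) * R.π p.1)

theorem Ls_w (s g : Γ) (i : Λ) (ξ : H) : star (L R s) (R.π g (R.w i ξ)) = 0 := by
  rw [Ls_apply, ππ]
  exact DFunLike.congr_fun (R.lw (s * g) i) ξ

theorem ws_L (i : Λ) (g t : Γ) (ξ : H) : star (R.w i) (R.π g (L R t ξ)) = 0 := by
  have := congrArg star (R.lw (g * t) i)
  rw [star_mul, star_mul, star_star, R.π_star, star_zero] at this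
  rw [πL]
  exact DFunLike.congr_fun this ξ

theorem ws_w (i j : Λ) (g g' : Γ) (ξ : H) :
    star (R.w i) (R.π g (R.π g' (R.w j ξ))) = if (g, i) = (g', j) then ξ else 0 := by
  have := DFunLike.congr_fun (R.ww (g * g') i j) ξ
  rw [ππ]
  refine this.trans ?_
  simp only [mul_eq_one' R, Prod.mk.injEq]
  split_ifs <;> rfl

theorem Ls_Nz (s : Γ) (y : Γ × Λ → H) : star (L R s) (Nz R P y) = 0 := by
  simp [Nz, map_sum, Ls_w]

theorem ws_Nz (p : Γ × Λ) (y : Γ × Λ → H) :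
    star (R.w p.2) (R.π p.1 (Nz R P y)) = (P.ν p.2 : ℂ) • y p := by
  simp [Nz, map_sum, ws_w]

theorem D_Nz (p : Γ × Λ) (y : Γ × Λ → H) : D R P p (Nz R P y) = y p := by
  have : (P.ν p.2 : ℂ) ≠ 0 := by exact_mod_cast (P.ν0 _).ne'
  change (P.ν p.2 : ℂ)⁻¹ • star (R.w p.2) (R.π p.1 (Nz R P y)) = _
  rw [ws_Nz, smul_smul, inv_mul_cancel₀ this, one_smul]

theorem D_L (p : Γ × Λ) (ξ : Γ → H) : D R P p (∑ s, L R s (ξ s)) = 0 := by
  simp [D, map_sum, ws_L]

theorem Ls_F2 (α : I) (y : Γ × Λ → H) (s : Γ) : star (L R (P.e α)) (F2 R P y s) =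
    (P.μ : ℂ) • L R (P.e α) (R.π (P.e α) (y (s * P.e α, P.jj α))) := by
  classical
  simp [F2, map_sum, LsL, P.e_inj.eq_iff]

theorem Ls_L1 (α : I) (ξ : H) : star (L R (P.e α)) (L R 1 ξ) = 0 := by
  rw [LsL, if_neg (P.e_ne α)]

theorem norm_sumL_sq (ξ : I → H) : ‖∑ β, L R (P.e β) (ξ β)‖ ^ 2 = ∑ β, ‖ξ β‖ ^ 2 := by
  classical
  exact orth_sq (V := fun β => L R (P.e β)) (fun a b ξ => by simp [LsL, P.e_inj.eq_iff]) ξ

theorem norm_F2_sq (y : Γ × Λ → H) (s : Γ) :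
    ‖F2 R P y s‖ ^ 2 = P.μ ^ 2 * ∑ β, ‖y (s * P.e β, P.jj β)‖ ^ 2 := by
  simp only [F2, norm_smul, P.norm_μ, mul_pow, norm_sumL_sq, norm_L, norm_π]

/-- The vacuum space. -/
noncomputable def K0 : Submodule ℂ H := Submodule.span ℂ (Set.range fun g => R.π g R.Ω)

theorem K0_kill {T : H →L[ℂ] H} (h : ∀ g, T (R.π g R.Ω) = 0) {ξ : H} (hξ : ξ ∈ K0 R) :
    T ξ = 0 := by
  have : K0 R ≤ LinearMap.ker (T : H →ₗ[ℂ] H) := Submodule.span_le.2 (by
    rintro _ ⟨g, rfl⟩; exact h g)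
  exact this hξ

theorem Ls_K0 (s : Γ) {ξ : H} (hξ : ξ ∈ K0 R) : star (L R s) ξ = 0 :=
  K0_kill R (fun g => by rw [Ls_apply, ππ, R.lΩ]) hξ

theorem ws_K0 (p : Γ × Λ) {ξ : H} (hξ : ξ ∈ K0 R) : star (R.w p.2) (R.π p.1 ξ) = 0 :=
  K0_kill R (T := star (R.w p.2) * R.π p.1) (fun g => by
    change star (R.w p.2) (R.π p.1 (R.π g R.Ω)) = 0
    rw [ππ, R.wΩ]) hξ

theorem D_K0 (p : Γ × Λ) {ξ : H} (hξ : ξ ∈ K0 R) : D R P p ξ = 0 := by
  change (P.ν p.2 : ℂ)⁻¹ • star (R.w p.2) (R.π p.1 ξ) = 0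
  rw [ws_K0 R p hξ, smul_zero]

/-- Test isometries. -/
noncomputable def V (p : Γ × Λ) : H →L[ℂ] H :=
  if P.ν p.2 = 1 then R.π p.1 * R.w p.2 else
    (P.μ : ℂ) • ∑ α with P.jj α = p.2, L R (p.1 * P.e α) * L R (P.e α) * L R (P.e α) * R.π (P.e α)

theorem Vs_pos {p : Γ × Λ} (h : P.ν p.2 = 1) (ξ : H) :
    star (V R P p) ξ = star (R.w p.2) (R.π p.1 ξ) := by
  rw [V, if_pos h, star_mul, R.π_star]; rfl

theorem Vs_neg {p : Γ × Λ} (h : P.ν p.2 ≠ 1) (ξ : H) :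
    star (V R P p) ξ = (P.μ : ℂ) • ∑ α with P.jj α = p.2, R.π (P.e α) (star (L R (P.e α))
      (star (L R (P.e α)) (star (L R (p.1 * P.e α)) ξ))) := by
  rw [V, if_neg h]
  simp [star_sum, R.π_star]

theorem fib_smul {i : Λ} (h : P.ν i ≠ 1) (ξ : H) :
    (P.μ : ℂ) • ∑ _α with P.jj _α = i, (P.μ : ℂ) • ξ = ξ := by
  have := (P.fib i).resolve_left h
  rw [Finset.sum_const, ← Nat.cast_smul_eq_nsmul ℂ, smul_smul, smul_smul]
  have e : (P.μ : ℂ) * ((Finset.univ.filter fun α => P.jj α = i).card : ℂ) * P.μ = 1 := by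
    have := congrArg (fun x : ℝ => (x : ℂ)) this
    push_cast at this
    linear_combination this
  rw [e, one_smul]

theorem V_orth (a b : Γ × Λ) (ξ : H) :
    star (V R P a) (V R P b ξ) = if a = b then ξ else 0 := by
  classical
  by_cases ha : P.ν a.2 = 1
  · rw [Vs_pos R P ha]
    by_cases hb : P.ν b.2 = 1
    · rw [V, if_pos hb]; exact ws_w R _ _ _ _ _
    · rw [V, if_neg hb, if_neg fun h : a = b => hb (h ▸ ha)]
      simp [map_sum, ws_L]
  · rw [Vs_neg R P ha]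
    by_cases hb : P.ν b.2 = 1
    · rw [V, if_pos hb, if_neg fun h : a = b => ha (h ▸ hb)]
      simp [Ls_w]
    · have key : ∀ α, R.π (P.e α) (star (L R (P.e α)) (star (L R (P.e α))
          (star (L R (a.1 * P.e α)) (V R P b ξ)))) =
          if P.jj α = b.2 ∧ a.1 = b.1 then (P.μ : ℂ) • ξ else 0 := by
        intro α
        rw [V, if_neg hb]
        simp only [smul_apply, sum_apply, map_smul, map_sum, Finset.sum_filter]
        rw [Finset.sum_eq_single α]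
        · by_cases h1 : P.jj α = b.2 <;> by_cases h2 : a.1 = b.1 <;> simp [h1, h2, LsL, ππ']
        · intro β _ hβ
          by_cases h1 : P.jj β = b.2 <;> by_cases h2 : a.1 * P.e α = b.1 * P.e β <;>
            simp [h1, h2, LsL, P.e_inj.eq_iff, hβ.symm]
        · simp
      simp only [key]
      split_ifs with h
      · subst h
        rw [Finset.sum_congr rfl fun α hα => if_pos ⟨(Finset.mem_filter.1 hα).2, rfl⟩]
        exact fib_smul P ha ξ
      · rw [Finset.sum_eq_zero, smul_zero]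
        intro α hα
        exact if_neg fun h' => h (Prod.ext h'.2 ((Finset.mem_filter.1 hα).2.symm.trans h'.1))

variable {J J' : Type} [Fintype J] [Fintype J']

theorem nn_Vs (ξ : J → H) : nn (fun x : J × Γ × Λ => star (V R P x.2) (ξ x.1)) ≤ nn ξ := by
  refine nn_le (nn_nonneg _) ?_
  rw [nn_sq, Fintype.sum_prod_type]
  exact Finset.sum_le_sum fun j _ => orth_bessel (V := V R P) (V_orth R P) (ξ j)

theorem nn_sumL (v : J × Γ → H) : nn (fun j => ∑ s, L R s (v (j, s))) ≤ nn v := by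
  refine nn_le (nn_nonneg _) ?_
  rw [nn_sq, Fintype.sum_prod_type]
  exact Finset.sum_le_sum fun j _ => (orth_sq (LsL R) _).le

theorem nn_Ls (ξ : J → H) : nn (fun x : J × Γ => star (L R x.2) (ξ x.1)) ≤ nn ξ := by
  refine nn_le (nn_nonneg _) ?_
  rw [nn_sq, Fintype.sum_prod_type]
  exact Finset.sum_le_sum fun j _ => orth_bessel (V := L R) (LsL R) (ξ j)

theorem nn_F2 (η : J × Γ × Λ → H) :
    nn (fun x : J × Γ => F2 R P (fun p => η (x.1, p)) x.2) ≤ 2 * nn η := by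
  refine nn_le (by positivity [nn_nonneg η]) ?_
  simp only [norm_F2_sq]
  rw [← Finset.mul_sum, Finset.sum_comm]
  have : ∀ β, ∑ x : J × Γ, ‖η (x.1, x.2 * P.e β, P.jj β)‖ ^ 2 ≤ nn η ^ 2 := fun β => by
    rw [nn_sq]
    refine sum_inj (σ := fun x : J × Γ => (x.1, x.2 * P.e β, P.jj β)) (fun x y h => ?_)
      (f := fun j => ‖η j‖ ^ 2) fun _ => by positivity
    simp only [Prod.mk.injEq, mul_left_inj, and_true] at h
    exact Prod.ext h.1 h.2
  have h2 := Finset.sum_le_sum fun β (_ : β ∈ Finset.univ) => this β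
  rw [Finset.sum_const, Finset.card_univ, nsmul_eq_mul] at h2
  nlinarith [P.μN, sq_nonneg P.μ, sq_nonneg (nn η), mul_le_mul_of_nonneg_left h2 (sq_nonneg P.μ)]

/-- Decomposition of a family with prescribed difference quotient `η`. -/
def Dec (K : Submodule ℂ H) {J : Type} [Fintype J] (ζ : J → H) (η : J × Γ × Λ → H) : Prop :=
  ∃ u v : J × Γ → H, (∀ x, u x ∈ K) ∧ nn u ≤ 6 * nn η ∧ Pot R K v (nn η / 2) ∧
    ∀ j, ζ j = Nz R P (fun p => η (j, p)) +
      ∑ s, L R s (F2 R P (fun p => η (j, p)) s + L R 1 (u (j, s)) + v (j, s))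

/-- Every family in `K` decomposes. -/
def Cl (K : Submodule ℂ H) : Prop :=
  ∀ (J : Type) [Fintype J] (ζ : J → H), (∀ j, ζ j ∈ K) → (∀ j p, D R P p (ζ j) ∈ K) ∧
    ∃ E : J → H, (∀ j, E j ∈ K0 R) ∧ Dec R P K (fun j => ζ j - E j) fun x => D R P x.2 (ζ x.1)

/-- Description of the first annihilation. -/
def Rep (K : Submodule ℂ H) : Prop :=
  ∀ (J : Type) [Fintype J] (ζ : J → H), (∀ j, ζ j ∈ K) → ∃ (η : J × Γ × Λ → H) (u v : J × Γ → H),
    (∀ x, η x ∈ K) ∧ (∀ x, u x ∈ K) ∧ nn η ≤ 2 * nn ζ ∧ nn u ≤ 12 * nn ζ ∧ Pot R K v (nn ζ) ∧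
    (∀ j s, star (L R s) (ζ j) = F2 R P (fun p => η (j, p)) s + L R 1 (u (j, s)) + v (j, s)) ∧
    ∀ x, η x = D R P x.2 (ζ x.1)

variable {R P} {K : Submodule ℂ H}

theorem Cl.rep (h : Cl R P K) : Rep R P K := by
  intro J _ ζ hζ
  obtain ⟨hD, E, hE, u, v, hu, hu', hv, hd⟩ := h J ζ hζ
  set η : J × Γ × Λ → H := fun x => D R P x.2 (ζ x.1) with hη
  have hL : ∀ j s, star (L R s) (ζ j) =
      F2 R P (fun p => η (j, p)) s + L R 1 (u (j, s)) + v (j, s) := fun j s => by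
    have := congrArg (star (L R s) : H →L[ℂ] H) (hd j)
    rwa [map_sub, Ls_K0 R s (hE j), sub_zero, map_add, Ls_Nz, zero_add, Ls_sum] at this
  have h1 : ∀ x : J × Γ × Λ, η x = star (V R P x.2) (ζ x.1) +
      (-1 : ℂ) • star (V R P x.2) (∑ s, L R s (v (x.1, s))) := by
    rintro ⟨j, p⟩
    by_cases hp : P.ν p.2 = 1
    · simp [Vs_pos R P hp, map_sum, ws_L, hη, D, hp]
    · simp only [Vs_neg R P hp, hL, Ls_sum, map_add, Ls_F2, P.e_ne, if_false, map_smul, LsL, if_true, ππ',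
        add_zero, mul_assoc, R.sq, mul_one, Finset.sum_add_distrib, smul_add,
        neg_smul, one_smul, add_neg_cancel_right]
      rw [Finset.sum_congr rfl fun α hα => by rw [(Finset.mem_filter.1 hα).2], fib_smul P hp]
  have h2 : nn η ≤ nn ζ + nn η / 2 := by
    have a1 := nn_add (fun x : J × Γ × Λ => star (V R P x.2) (ζ x.1))
      fun x => (-1 : ℂ) • star (V R P x.2) (∑ s, L R s (v (x.1, s)))
    rw [← funext h1, nn_smul] at a1
    have a2 := nn_Vs R P ζ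
    have a3 := nn_Vs R P fun j => ∑ s, L R s (v (j, s))
    have a4 := nn_sumL R v
    have a5 := hv.nn_le
    simp only [norm_neg, norm_one, one_mul] at a1
    linarith
  exact ⟨η, u, v, fun x => hD _ _, hu, by linarith, by linarith, hv.mono (by linarith), hL,
    fun _ => rfl⟩

theorem pot_F2 (hK : ∀ g, ∀ ξ ∈ K, R.π g ξ ∈ K) {y : J' → Γ × Λ → H} (hy : ∀ x p, y x p ∈ K)
    (s : J' → Γ) : Pot R K (fun x => F2 R P (y x) (s x)) (nn (fun x => F2 R P (y x) (s x)) +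
      P.μ * (∑ β, 3 * nn fun x => y x (s x * P.e β, P.jj β)) / 2000) := by
  have h := Pot.sumL (R := R) (K := K) P.e
    (f := fun β x => (P.μ : ℂ) • L R (P.e β) (R.π (P.e β) (y x (s x * P.e β, P.jj β))))
    (b := fun β => P.μ * (3 * nn fun x => y x (s x * P.e β, P.jj β))) fun β => by
      have := (Pot.L1 (R := R) (P.e β) fun x => hK (P.e β) _ (hy x (s x * P.e β, P.jj β))).smul P.μ
      rw [P.norm_μ] at this
      refine this.mono ?_
      have h1 := P.μ0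
      gcongr
      exact nn_mono fun j => (norm_π R _ _).le
  simp only [map_smul, ← Finset.smul_sum, ← Finset.mul_sum] at h
  simp only [← Finset.mul_sum]
  exact h

theorem Rep.q (h : Rep R P K) (hK : ∀ g, ∀ ξ ∈ K, R.π g ξ ∈ K) {z : J → H} (hz : ∀ j, z j ∈ K)
    (t : Γ) : Pot R K (fun j => star (L R t) (z j)) (42 * nn z) := by
  obtain ⟨η, u, v, hη, hu, h1, h2, h3, h4, -⟩ := h J z hz
  have hσ : Function.Injective fun j : J => (j, t) := fun a b h => (Prod.ext_iff.1 h).1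
  have a1 := pot_F2 (P := P) hK (y := fun j p => η (j, p)) (fun _ _ => hη _) fun _ => t
  have a2 := (Pot.L1 (R := R) 1 hu).comp hσ
  have a3 := h3.comp hσ
  refine ((a1.add a2).add a3).congr (fun j => h4 j t) |>.mono ?_
  have b1 := (nn_comp hσ _).trans (nn_F2 R P η)
  have b2 := nn_slices (σ := fun (β : I) (j : J) => (j, t * P.e β, P.jj β)) (fun a b h => by
    simp only [Prod.mk.injEq, mul_right_inj, P.e_inj.eq_iff] at h
    exact Prod.ext h.2.1 h.1) η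
  rw [← Finset.mul_sum]
  have b3 := mul_le_mul_of_nonneg_left b2 P.μ0
  have b4 := mul_le_mul_of_nonneg_right P.μN' (nn_nonneg η)
  simp only at b1
  nlinarith [nn_nonneg z]

theorem Rep.ann (h : Rep R P K) (hK : ∀ g, ∀ ξ ∈ K, R.π g ξ ∈ K) {f : J → H} {b : ℝ}
    (hf : Pot R K f b) (t : Γ) : Pot R K (fun j => star (L R t) (f j)) (2001 * b) := by
  obtain ⟨z, v', b', h1, h2, h3, h4, h5⟩ := hf.dec'
  have h6 := Finset.single_le_sum (fun t (_ : t ∈ Finset.univ) => (h2 t).nonneg) (Finset.mem_univ t)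
  refine (((h.q hK h1 t).add (h2 t)).congr fun j => by rw [h3, map_add, Ls_sum]).mono ?_
  linarith [hf.nonneg]

theorem Rep.s1 (h : Rep R P K) (hK : ∀ g, ∀ ξ ∈ K, R.π g ξ ∈ K) {f : J → H} {b : ℝ}
    (hf : Pot R K f b) {σ : I → J' → J} (hσ : Function.Injective fun p : I × J' => σ p.1 p.2) :
    ∃ c : I → ℝ, (∀ α, Pot R K (fun x => star (L R (P.e α)) (f (σ α x))) (c α)) ∧
      P.μ * ∑ α, c α ≤ b / 20 := by
  obtain ⟨z, v', b', h1, h2, h3, h4, h5⟩ := hf.dec'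
  have hσ' : ∀ α, Function.Injective (σ α) := fun α a b h =>
    (Prod.ext_iff.1 (hσ (a₁ := (α, a)) (a₂ := (α, b)) h)).2
  refine ⟨fun α => 42 * nn (fun x => z (σ α x)) + b' (P.e α), fun α =>
    ((h.q hK (fun x => h1 _) (P.e α)).add ((h2 (P.e α)).comp (hσ' α))).congr fun x => by
      rw [h3, map_add, Ls_sum], ?_⟩
  rw [Finset.sum_add_distrib, ← Finset.mul_sum]
  have b1 := mul_le_mul_of_nonneg_left (nn_slices hσ z) P.μ0
  have b2 := mul_le_mul_of_nonneg_right P.μN' (nn_nonneg z)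
  have b3 := mul_le_mul_of_nonneg_left ((sum_inj P.e_inj fun t => (h2 t).nonneg).trans h5) P.μ0
  have b4 := mul_le_mul_of_nonneg_right P.μs hf.nonneg
  nlinarith [hf.nonneg]

theorem Rep.s2 (h : Rep R P K) (hK : ∀ g, ∀ ξ ∈ K, R.π g ξ ∈ K) {f : J → H} {b : ℝ}
    (hf : Pot R K f b) {σ : I → J' → J} (hσ : Function.Injective fun p : I × J' => σ p.1 p.2) :
    ∃ c : I → ℝ, (∀ α, Pot R K
      (fun x => star (L R (P.e α)) (star (L R (P.e α)) (f (σ α x)))) (c α)) ∧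
      P.μ * ∑ α, c α ≤ b / 30000 := by
  obtain ⟨z, v', b', h1, h2, h3, h4, h5⟩ := hf.dec'
  have hσ' : ∀ α, Function.Injective (σ α) := fun α a b h =>
    (Prod.ext_iff.1 (hσ (a₁ := (α, a)) (a₂ := (α, b)) h)).2
  obtain ⟨η, u, v, hη, hu, a1, -, a3, a4, -⟩ := h J z h1
  obtain ⟨c, hc, hc'⟩ := h.s1 hK a3 (σ := fun α x => (σ α x, P.e α)) fun a b h =>
    hσ (Prod.ext_iff.1 h).1
  refine ⟨fun α => P.μ * (3 * nn fun x => η (σ α x, 1, P.jj α)) + c α + 2001 * b' (P.e α),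
    fun α => ?_, ?_⟩
  · have := (Pot.L1 (R := R) (P.e α) fun x => hK (P.e α) _ (hη (σ α x, 1, P.jj α))).smul P.μ
    rw [P.norm_μ] at this
    have h7 : nn (fun x => R.π (P.e α) (η (σ α x, 1, P.jj α))) ≤ nn fun x => η (σ α x, 1, P.jj α) :=
      nn_mono fun j => (norm_π R _ _).le
    refine (((this.add (hc α)).add (h.ann hK ((h2 (P.e α)).comp (hσ' α)) (P.e α))).congr
      fun x => ?_).mono ?_
    · rw [h3, map_add, Ls_sum, map_add, a4, map_add, map_add, Ls_F2, Ls_L1, add_zero, R.sq]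
    · have := mul_le_mul_of_nonneg_left h7 P.μ0
      simp only
      linarith
  · simp only [Finset.sum_add_distrib, ← Finset.mul_sum]
    have b1 := mul_le_mul_of_nonneg_left (nn_slices (σ := fun α x => (σ α x, (1 : Γ), P.jj α))
      (fun a b h => hσ (Prod.ext_iff.1 h).1) η) P.μ0
    have b2 := mul_le_mul_of_nonneg_right P.μN' (nn_nonneg η)
    have b3 := mul_le_mul_of_nonneg_left ((sum_inj P.e_inj fun t => (h2 t).nonneg).trans h5) P.μ0
    have b4 := mul_le_mul_of_nonneg_right P.μs hf.nonneg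
    have b5 : P.μ * ∑ α, nn (fun x => η (σ α x, 1, P.jj α)) ≤ b := by linarith [hf.nonneg]
    have b6 := mul_le_mul_of_nonneg_left b5 P.μ0
    nlinarith [hf.nonneg]

end Crest.Agent.R89.Hd
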