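import Crest.Agent.R89.LoopA

/-! Row 89, task L: GUE matrices are asymptotically free from a multiple of the regular representation. -/

set_option autoImplicit false
set_option linter.unusedSectionVars false

open scoped InnerProductSpace ComplexOrder NNReal
open Crest.OpAlg Crest.Agent.R124 Crest.Agent.R95 Crest.Agent.R134 MeasureTheory ProbabilityTheory

namespace Crest.Agent.R89

namespace LA

open Filter Topology

variable {A : Type*} [CStarAlgebra A] {T : TS A} {P : StarSubalgebra ℂ A} {ι Γ : Type}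
  [Fintype ι] [DecidableEq ι] [CommGroup Γ] [DecidableEq Γ] {E : Γ →* A} {Y : ι → A}

variable (Γ) in
/-- sizes and good representations -/
abbrev J := Σ d : ℕ, {ρ : Γ →* Matrix (Fin d) (Fin d) ℂ // Good ρ}

variable (Γ) in
/-- the size tends to infinity -/
def 𝓕 : Filter (J Γ) := comap (·.1) atTop

lemma word_inr {B : Type*} [Monoid B] (Y : ι → B) (φ : Γ →* B) (w : List (ι ⊕ Γ))
    (h : ∀ l, Sum.inl l ∉ w) :
    (w.map (Sum.elim Y φ)).prod = φ (w.map (Sum.elim (fun _ => 1) id)).prod := by
  induction w with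
  | nil => simp
  | cons a w ih =>
    rcases a with l | g
    · exact absurd List.mem_cons_self (h l)
    · simp [ih fun l hl => h l (List.mem_cons_of_mem _ hl)]

lemma word_star {B : Type*} [Monoid B] [StarMul B] (f : ι ⊕ Γ → B) (hf : ∀ a, star (f a) = f a)
    (w : List (ι ⊕ Γ)) : star (w.map f).prod = (w.reverse.map f).prod := by
  induction w with
  | nil => simp
  | cons a w ih => simp [ih, hf]

lemma sd (hE : ∀ g, E g ∈ P) (hY : SD T P Y) (l : ι) (w : List (ι ⊕ Γ)) :
    T.τ ((Sum.inl l :: w).map (Sum.elim Y E)).prod = ssum (fun u a v => if a = Sum.inl l then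
      T.τ (u.map (Sum.elim Y E)).prod * T.τ (v.map (Sum.elim Y E)).prod else 0) w := by
  have e : ∀ w : List (ι ⊕ Γ), wp Y (w.map (Sum.map id E)) = (w.map (Sum.elim Y E)).prod :=
    fun w => by
      rw [wp, List.map_map]
      congr 2
      ext (a | a) <;> rfl
  have := hY.2 l trivial (w.map (Sum.map id E)) fun x hx => by
    obtain ⟨a | g, -, h⟩ := List.mem_map.1 hx
    · cases h
    · cases h; exact hE g
  rw [ssum_map, e] at this
  refine this.trans (ssum_congr fun u a v _ => ?_)
  rcases a with a | a <;> simp [e]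

lemma moments (hE : ∀ g, E g ∈ P) (hτ : ∀ g, T.τ (E g) = if g = 1 then 1 else 0) (hY : SD T P Y)
    (W : List (List (ι ⊕ Γ))) : Tendsto (fun j : J Γ => EL (j.1 : ℝ≥0)⁻¹ (fK j.2.1 W)) (𝓕 Γ)
      (𝓝 (W.map fun w => T.τ (w.map (Sum.elim Y E)).prod).prod) := by
  induction hn : W.flatten.countP Sum.isLeft using Nat.strong_induction_on generalizing W with
  | _ n ih =>
  by_cases h : ∃ w ∈ W, ∃ l, Sum.inl l ∈ w
  · obtain ⟨w, hw, l, hl⟩ := h
    obtain ⟨U, V, rfl⟩ := List.append_of_mem hw
    obtain ⟨u, v, rfl⟩ := List.append_of_mem hl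
    have e1 : ∀ j : J Γ, fK j.2.1 (U ++ (u ++ Sum.inl l :: v) :: V) =
        fK j.2.1 ((Sum.inl l :: (v ++ u)) :: (U ++ V)) := fun j => by
      simp only [fK, nK, wK, List.map_append, List.map_cons, List.prod_append, List.prod_cons]
      rw [Matrix.trace_mul_comm, mul_left_comm, mul_assoc]
    have e2 : ((U ++ (u ++ Sum.inl l :: v) :: V).map fun w => T.τ (w.map (Sum.elim Y E)).prod).prod =
        T.τ ((Sum.inl l :: (v ++ u)).map (Sum.elim Y E)).prod *
          ((U ++ V).map fun w => T.τ (w.map (Sum.elim Y E)).prod).prod := by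
      simp only [List.map_append, List.map_cons, List.prod_append, List.prod_cons]
      rw [T.comm, mul_left_comm, mul_assoc]
    have hn' : ((v ++ u) :: (U ++ V)).flatten.countP Sum.isLeft < n := by
      simp [← hn]; omega
    simp only [e1, e2, step]
    generalize v ++ u = w at *
    generalize U ++ V = R at *
    rw [sd hE hY, ← AddMonoidHom.mulRight_apply, map_ssum, ← add_zero (ssum _ w)]
    have h0 : Tendsto (fun j : J Γ => (j.1 : ℂ)⁻¹) (𝓕 Γ) (𝓝 0) :=
      (tendsto_inv_atTop_nhds_zero_nat (𝕜 := ℂ)).comp tendsto_comap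
    refine (tendsto_ssum fun u a v e => ?_).add ?_
    · split_ifs with ha
      · refine (ih _ ?_ _ rfl).congr' (Eventually.of_forall fun _ => rfl) |>.trans_eq ?_
        · simp [e, ha] at hn' ⊢; omega
        · simp [mul_assoc]
      · simpa using tendsto_const_nhds
    · have := (h0.mul h0).mul (tendsto_ssum (w := R) fun U w' V e => tendsto_ssum (w := w')
        (F := fun (j : J Γ) u a v => if a = Sum.inl l then
          EL (j.1 : ℝ≥0)⁻¹ (fK j.2.1 ((w ++ v ++ u) :: (U ++ V))) else 0)
        (G := fun u a v => if a = Sum.inl l then (((w ++ v ++ u) :: (U ++ V)).map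
          fun w => T.τ (w.map (Sum.elim Y E)).prod).prod else 0) fun u a v e' => by
          split_ifs with ha
          · refine ih _ ?_ _ rfl
            simp [e, e', ha] at hn' ⊢; omega
          · exact tendsto_const_nhds)
      rwa [zero_mul, zero_mul] at this
  · push Not at h
    refine tendsto_const_nhds.congr fun j => ?_
    have : fK j.2.1 W = MvPolynomial.C (W.map fun w => T.τ (w.map (Sum.elim Y E)).prod).prod := by
      rw [map_list_prod, List.map_map, fK]
      refine congrArg _ (List.map_congr_left fun w hw => ?_)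
      rw [Function.comp, word_inr Y E w (h w hw), hτ, ← j.2.2.2, nK, wK]
      refine (congrArg (fun x => (j.1 : ℂ)⁻¹ • Matrix.trace x) (word_inr _
        ((MvPolynomial.C (σ := ι × (Fin j.1 × Fin j.1))).mapMatrix.toMonoidHom.comp j.2.1) w
        (h w hw))).trans ?_
      simp [ntr, Matrix.trace, MvPolynomial.smul_eq_C_mul]
    rw [this, EL_C]

lemma prob (hE : ∀ g, E g ∈ P) (hEs : ∀ g, star (E g) = E g)
    (hτ : ∀ g, T.τ (E g) = if g = 1 then 1 else 0) (hY : SD T P Y) (w : List (ι ⊕ Γ)) {δ : ℝ}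
    (hδ : 0 < δ) : Tendsto (fun j : J Γ => (gm ι j.1).real {a | δ ≤
      ‖ntr (w.map (Sum.elim (Gm a) j.2.1)).prod - T.τ (w.map (Sum.elim Y E)).prod‖}) (𝓕 Γ) (𝓝 0) := by
  set t := T.τ (w.map (Sum.elim Y E)).prod with ht
  set t' := T.τ (w.reverse.map (Sum.elim Y E)).prod with ht'
  have h1 : Tendsto (fun j : J Γ => EL (j.1 : ℝ≥0)⁻¹ ((nK j.2.1 w - MvPolynomial.C t) *
      (nK j.2.1 w.reverse - MvPolynomial.C t'))) (𝓕 Γ) (𝓝 0) := by
    have := (((moments hE hτ hY [w, w.reverse]).sub ((moments hE hτ hY [w]).const_mul t')).sub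
      ((moments hE hτ hY [w.reverse]).const_mul t)).add_const (t * t')
    simp only [List.map_cons, List.map_nil, List.prod_cons, List.prod_nil, mul_one, fK, ← ht,
      ← ht'] at this
    rw [show t * t' - t' * t - t * t' + t * t' = 0 by ring] at this
    refine this.congr fun j => ?_
    rw [← EL_C (σ := ι × (Fin j.1 × Fin j.1)) (j.1 : ℝ≥0)⁻¹ (t * t'), ← smul_eq_mul t', ← smul_eq_mul t,
      ← map_smul, ← map_smul, ← map_sub, ← map_sub, ← map_add, MvPolynomial.smul_eq_C_mul,
      MvPolynomial.smul_eq_C_mul, map_mul]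
    congr 1; ring
  have h2 : ∀ (j : J Γ) a, (ev a ((nK j.2.1 w - MvPolynomial.C t) *
      (nK j.2.1 w.reverse - MvPolynomial.C t'))).re =
      ‖ntr (w.map (Sum.elim (Gm a) j.2.1)).prod - t‖ ^ 2 := fun j a => by
    have e1 : t' = (starRingEnd ℂ) t := by
      rw [ht, ← T.τ_star, word_star _ (by rintro (a | a); exacts [hY.1 a, hEs a])]
    have e2 : ntr (w.reverse.map (Sum.elim (Gm a) j.2.1)).prod =
        (starRingEnd ℂ) (ntr (w.map (Sum.elim (Gm a) j.2.1)).prod) := by
      rw [← word_star]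
      · simp [ntr, Matrix.star_eq_conjTranspose]
      rintro (l | g)
      · ext p q
        rcases lt_trichotomy p q with h | rfl | h
        · simp [Gm, hermitianOfCoords, h, h.ne, h.ne', h.not_gt]
        · simp [Gm, hermitianOfCoords]
        · simp [Gm, hermitianOfCoords, h, h.ne, h.ne', h.not_gt, sub_eq_add_neg]
      · exact j.2.2.1 g
    have e3 : ∀ c, ev a (MvPolynomial.C c) = c := fun c => MvPolynomial.aeval_C _ c
    rw [map_mul, map_sub, map_sub, ev_nK, ev_nK, e1, e2, e3, e3, ← map_sub, Complex.mul_conj']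
    norm_cast
  have h3 := ((Complex.continuous_re.tendsto 0).comp h1).div_const (δ ^ 2)
  rw [Complex.zero_re, zero_div] at h3
  refine squeeze_zero (fun _ => measureReal_nonneg) (fun j => ?_) h3
  have hi := integrable_ev (j.1 : ℝ≥0)⁻¹ ((nK j.2.1 w - MvPolynomial.C t) *
      (nK j.2.1 w.reverse - MvPolynomial.C t'))
  have := mul_meas_ge_le_integral_of_nonneg (Eventually.of_forall fun a => by
    change 0 ≤ Complex.re _; rw [h2]; positivity) hi.re (δ ^ 2)
  rw [integral_re hi] at this
  rw [le_div_iff₀' (by positivity)]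
  refine le_trans (mul_le_mul_of_nonneg_left (measureReal_mono fun a ha => ?_) (by positivity)) this
  change δ ^ 2 ≤ Complex.re _
  rw [h2]
  exact pow_le_pow_left₀ hδ.le ha 2

end LA

open LA Filter Topology in
/-- Sketch. For a list `W` of words `List (ι ⊕ Γ)` put `f_W a = ∏_{w ∈ W} ntr (w (Gm a, ρ))`. Show
`∃ C, ∀ d ≥ 1, ∀ ρ good, ‖∫ f_W - ∏ τ w‖ ≤ C / d^2` by induction on the number of `inl` letters.
No such letter: equality (`Good`, `hτ`). Otherwise permute and rotate so that the first word is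
`inl l :: w`; `Gm a l = ∑ p, a (l,p) • h p` with `h p = hermitianOfCoords (single p 1)`,
`∑ p, h p * U * h p = Tr U • 1`, `∑ p, Tr (h p * U) * Tr (h p * V) = Tr (U * V)`; Stein's identity
(copy `R350.stein` for complex `MvPolynomial`, matrices over `MvPolynomial`, `pderiv` is a
derivation) gives `ssum` over `w = u l v` of `f_(u :: v :: rest)` plus `d⁻²` times terms
`f_((w ++ v ++ u) :: others)`; compare with `hY.2`. Then Chebyshev with
`|ntr w - τ w|² = (ntr w - τ w) (ntr w.reverse - τ w.reverse)`, and linearity in `q`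
(`FreeAlgebra` is spanned by words; union bound). -/
theorem loop {A : Type*} [CStarAlgebra A] (T : TS A) (P : StarSubalgebra ℂ A) {ι Γ : Type}
    [Fintype ι] [DecidableEq ι] [CommGroup Γ] [DecidableEq Γ] (E : Γ →* A) (hE : ∀ g, E g ∈ P)
    (hEs : ∀ g, star (E g) = E g) (hτ : ∀ g, T.τ (E g) = if g = 1 then 1 else 0) (Y : ι → A)
    (hY : SD T P Y) (q : FreeAlgebra ℂ (ι ⊕ Γ)) {δ : ℝ} (hδ : 0 < δ) :
    ∃ d0 : ℕ, ∀ d ≥ d0, ∀ ρ : Γ →* Matrix (Fin d) (Fin d) ℂ, Good ρ →
      gm ι d {a | δ ≤ ‖ntr (FreeAlgebra.lift ℂ (Sum.elim (Gm a) ρ) q) -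
        T.τ (FreeAlgebra.lift ℂ (Sum.elim Y E) q)‖} ≤ ENNReal.ofReal δ := by
  have key : ∀ δ > 0, Tendsto (fun j : J Γ => (gm ι j.1).real {a | δ ≤
      ‖ntr (FreeAlgebra.lift ℂ (Sum.elim (Gm a) j.2.1) q) -
        T.τ (FreeAlgebra.lift ℂ (Sum.elim Y E) q)‖}) (𝓕 Γ) (𝓝 0) := by
    have hq : q ∈ Submodule.span ℂ 
        (SetLike.coe (Submonoid.closure (Set.range (FreeAlgebra.ι ℂ (X := ι ⊕ Γ))))) := by
      rw [← Algebra.adjoin_eq_span, FreeAlgebra.adjoin_range_ι]; trivial
    induction hq using Submodule.span_induction with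
    | mem x hx =>
      obtain ⟨w, rfl⟩ : ∃ w : List (ι ⊕ Γ), (w.map (FreeAlgebra.ι ℂ)).prod = x := by
        induction hx using Submonoid.closure_induction_left with
        | one => exact ⟨[], rfl⟩
        | mul_left x hx y _ ih =>
          obtain ⟨a, rfl⟩ := hx
          obtain ⟨w, rfl⟩ := ih
          exact ⟨a :: w, rfl⟩
      intro δ hδ
      simpa only [map_list_prod, List.map_map, Function.comp_def, FreeAlgebra.lift_ι_apply] using
        prob hE hEs hτ hY w hδ
    | zero => intro δ hδ; simpa [ntr, hδ.not_ge] using tendsto_const_nhds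
    | add x y _ _ hx hy =>
      intro δ hδ
      have := (hx _ (half_pos hδ)).add (hy _ (half_pos hδ))
      rw [add_zero] at this
      refine squeeze_zero (fun _ => measureReal_nonneg) (fun j => le_trans
        (measureReal_mono fun a ha => ?_) (measureReal_union_le _ _)) this
      by_contra h
      simp only [Set.mem_union, Set.mem_ofPred_eq, not_or, not_le, map_add, ntr, Matrix.trace_add,
        mul_add] at h ha
      rw [add_sub_add_comm] at ha
      linarith [ha.trans (norm_add_le _ _), h.1, h.2]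
    | smul c x _ hx =>
      intro δ hδ
      refine squeeze_zero (fun _ => measureReal_nonneg) (fun j => measureReal_mono fun a ha => ?_)
        (hx (δ / (‖c‖ + 1)) (by positivity))
      simp only [Set.mem_ofPred_eq, map_smul, ntr, Matrix.trace_smul, smul_eq_mul] at ha ⊢
      rw [mul_left_comm, ← mul_sub, norm_mul] at ha
      rw [div_le_iff₀' (by positivity), add_mul, one_mul]
      exact ha.trans (le_add_of_nonneg_right (norm_nonneg _))
  obtain ⟨d0, h⟩ := eventually_atTop.1 (eventually_comap.1 ((key δ hδ).eventually (ge_mem_nhds hδ)))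
  refine ⟨d0, fun d hd ρ hρ => ?_⟩
  rw [← ofReal_measureReal]
  exact ENNReal.ofReal_le_ofReal (h d hd ⟨d, ρ, hρ⟩ rfl)

end Crest.Agent.R89
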