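import Crest.Agent.R89.Defs
import Crest.Agent.R350.Gauss

/-! Row 89, task L: Stein's identity and the loop equations. -/

set_option autoImplicit false
set_option linter.unusedSectionVars false

open scoped NNReal
open Crest.OpAlg Crest.Agent.R134 MeasureTheory ProbabilityTheory MvPolynomial Finset

namespace Crest.Agent.R89.LA

section ssum
variable {Λ V : Type*}

theorem sum_ssum [AddCommMonoid V] {κ : Type*} (s : Finset κ)
    (F : κ → List Λ → Λ → List Λ → V) (w : List Λ) :
    ∑ i ∈ s, ssum (F i) w = ssum (fun u a v => ∑ i ∈ s, F i u a v) w := by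
  induction w generalizing F with
  | nil => simp
  | cons b w ih => simp only [ssum_cons, sum_add_distrib, ih]

theorem leib [Ring V] (δ : V →+ V) (h : ∀ x y, δ (x * y) = δ x * y + x * δ y) (t : Λ → V)
    (w : List Λ) : δ (w.map t).prod =
      ssum (fun u a v => (u.map t).prod * δ (t a) * (v.map t).prod) w := by
  induction w with
  | nil => simpa using h 1 1
  | cons b w ih =>
    rw [List.map_cons, List.prod_cons, h, ih, ssum_cons,
      ← AddMonoidHom.coe_mulLeft (t b), map_ssum]
    simp [mul_assoc]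

theorem tendsto_ssum {J : Type*} {𝓕 : Filter J} {F : J → List Λ → Λ → List Λ → ℂ}
    {G : List Λ → Λ → List Λ → ℂ} {w : List Λ}
    (h : ∀ u a v, w = u ++ a :: v → Filter.Tendsto (fun j => F j u a v) 𝓕 (nhds (G u a v))) :
    Filter.Tendsto (fun j => ssum (F j) w) 𝓕 (nhds (ssum G w)) := by
  induction w generalizing F G with
  | nil => exact tendsto_const_nhds
  | cons b w ih =>
    exact (h [] b w rfl).add (ih (F := fun j u => F j (b :: u)) (G := fun u => G (b :: u))
      fun u a v e => h (b :: u) a v (by rw [e]; rfl))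

end ssum

section stein
variable {σ : Type} [Fintype σ] [DecidableEq σ] (v : ℝ≥0)

/-- evaluation at a real point -/
noncomputable def ev (a : σ → ℝ) : MvPolynomial σ ℂ →ₐ[ℂ] ℂ := aeval fun s => (a s : ℂ)

lemma ev_monomial (a : σ → ℝ) (m : σ →₀ ℕ) (c : ℂ) :
    ev a (monomial m c) = c * ((∏ s, a s ^ m s : ℝ) : ℂ) := by
  rw [ev, aeval_monomial, Finsupp.prod_fintype _ _ (by simp)]
  simp

lemma integrable_ev (p : MvPolynomial σ ℂ) :
    Integrable (fun a => ev a p) (Measure.pi fun _ : σ => gaussianReal 0 v) := by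
  induction p using MvPolynomial.induction_on' with
  | monomial d c =>
    simp_rw [ev_monomial]
    exact (Integrable.fintype_prod (f := fun a (y : ℝ) => y ^ d a)
      (fun a => R350.integrable_pow_gauss v _)).ofReal.const_mul _
  | add p q hp hq =>
    simp_rw [map_add]
    exact hp.add hq

/-- Gaussian expectation -/
noncomputable def EL : MvPolynomial σ ℂ →ₗ[ℂ] ℂ where
  toFun p := ∫ a, ev a p ∂(Measure.pi fun _ : σ => gaussianReal 0 v)
  map_add' p q := by
    simp_rw [map_add]
    exact integral_add (integrable_ev v p) (integrable_ev v q)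
  map_smul' c p := by
    simp_rw [map_smul]
    simp [integral_const_mul]

lemma EL_monomial (m : σ →₀ ℕ) (c : ℂ) :
    EL v (monomial m c) = c * ((∏ s, R350.mom v (m s) : ℝ) : ℂ) := by
  change ∫ a, ev a (monomial m c) ∂_ = _
  simp_rw [ev_monomial]
  rw [integral_const_mul, integral_complex_ofReal,
    integral_fintype_prod_eq_prod (f := fun a (y : ℝ) => y ^ m a)]
  rfl

lemma EL_C (c : ℂ) : EL (σ := σ) v (C c) = c := by
  rw [C_apply, EL_monomial]; simp [R350.mom_zero]

lemma stein (a : σ) (p : MvPolynomial σ ℂ) : EL v (X a * p) = (v : ℝ) * EL v (pderiv a p) := by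
  induction p using MvPolynomial.induction_on' with
  | monomial d c =>
    rw [pderiv_monomial, X, monomial_mul, EL_monomial, EL_monomial,
      ← mul_prod_erase _ _ (mem_univ a), ← mul_prod_erase _ _ (mem_univ a)]
    have h1 : ∀ b ∈ univ.erase a,
        R350.mom v ((Finsupp.single a 1 + d : σ →₀ ℕ) b) = R350.mom v (d b) := fun b hb => by
      simp [ne_of_mem_erase hb]
    have h2 : ∀ b ∈ univ.erase a,
        R350.mom v ((d - Finsupp.single a 1 : σ →₀ ℕ) b) = R350.mom v (d b) := fun b hb => by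
      simp [ne_of_mem_erase hb]
    rw [prod_congr rfl h1, prod_congr rfl h2]
    simp only [Finsupp.coe_add, Pi.add_apply, Finsupp.single_eq_same, Finsupp.coe_tsub,
      Pi.sub_apply, one_mul]
    rw [add_comm 1, R350.mom_succ]
    push_cast
    ring
  | add p q hp hq => rw [mul_add, map_add, map_add, map_add, hp, hq, mul_add]

end stein

section cov
variable {d : ℕ} {M N : Type*} [AddCommGroup M] [Module ℂ M] [AddCommGroup N] [Module ℂ N]

/-- entries of a Hermitian matrix in terms of the coordinates -/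
noncomputable def cov (x : Fin d × Fin d → M) (i j : Fin d) : M :=
  if i = j then x (i, i) else if i < j then ((√2 : ℝ) : ℂ)⁻¹ • (x (i, j) + Complex.I • x (j, i))
  else ((√2 : ℝ) : ℂ)⁻¹ • (x (j, i) - Complex.I • x (i, j))

lemma map_cov (φ : M →ₗ[ℂ] N) (x : Fin d × Fin d → M) (i j : Fin d) :
    φ (cov x i j) = cov (fun p => φ (x p)) i j := by
  unfold cov
  split_ifs <;> simp only [map_smul, map_add, map_sub]

lemma cov_cov (i j k m : Fin d) :
    cov (fun p => cov (fun q => if q = p then (1 : ℂ) else 0) k m) i j =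
      if j = k ∧ i = m then 1 else 0 := by
  have h2 : ((√2 : ℝ) : ℂ)⁻¹ * ((√2 : ℝ) : ℂ)⁻¹ = 2⁻¹ := by
    rw [← mul_inv, ← Complex.ofReal_mul, Real.mul_self_sqrt zero_le_two]; simp
  simp only [cov, Prod.mk.injEq, smul_eq_mul]
  split_ifs <;> first
    | omega
    | (simp; done)
    | linear_combination 2 * h2 - ((√2 : ℝ) : ℂ)⁻¹ ^ 2 * Complex.I_mul_I
    | linear_combination ((√2 : ℝ) : ℂ)⁻¹ ^ 2 * Complex.I_mul_I

end cov

variable {ι Γ : Type} [Fintype ι] [DecidableEq ι] [CommGroup Γ] [DecidableEq Γ] {d : ℕ}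

/-- polynomial functions of the coordinates -/
abbrev K (ι : Type) (d : ℕ) := MvPolynomial (ι × (Fin d × Fin d)) ℂ

/-- the letters, as matrices of polynomials -/
noncomputable def LK (ρ : Γ →* Matrix (Fin d) (Fin d) ℂ) :
    ι ⊕ Γ → Matrix (Fin d) (Fin d) (K ι d) :=
  Sum.elim (fun l => Matrix.of (cov fun p => X (l, p))) fun g => (ρ g).map C

/-- the derivation dual to the entry `(i, j)` of the matrix `l` -/
noncomputable def dK (l : ι) (i j : Fin d) : Derivation ℂ (K ι d) (K ι d) :=
  cov (fun p => pderiv (l, p)) i j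

lemma dK_apply (l : ι) (i j : Fin d) (f : K ι d) :
    dK l i j f = cov (fun p => pderiv (l, p) f) i j := by
  unfold dK cov
  split_ifs <;> rfl

lemma stein_cov (l : ι) (i j : Fin d) (f : K ι d) :
    EL (d : ℝ≥0)⁻¹ (cov (fun p => X (l, p)) i j * f) = (d : ℂ)⁻¹ * EL (d : ℝ≥0)⁻¹ (dK l i j f) := by
  have := map_cov (EL (d : ℝ≥0)⁻¹ ∘ₗ LinearMap.mulRight ℂ f) (fun p => X (l, p)) i j
  have h2 := map_cov ((d : ℂ)⁻¹ • EL (d : ℝ≥0)⁻¹) (fun p => pderiv (l, p) f) i j
  rw [dK_apply]
  refine this.trans (Eq.trans ?_ h2.symm)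
  simp [stein]

variable (ρ : Γ →* Matrix (Fin d) (Fin d) ℂ)

lemma LK_inl (l : ι) (k m : Fin d) : LK ρ (Sum.inl l) k m = cov (fun p => X (l, p)) k m := rfl

lemma dK_L (l : ι) (i j : Fin d) (a : ι ⊕ Γ) : (LK ρ a).map (dK l i j) =
    if a = Sum.inl l then Matrix.single j i 1 else 0 := by
  ext1 k m
  rcases a with l' | g
  · have e : ∀ p, pderiv (l, p) (cov (fun q => (X (l', q) : K ι d)) k m) = if l' = l then
        (cov (fun q => if q = p then (1 : ℂ) else 0) k m) • 1 else 0 := fun p => by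
      refine (map_cov (pderiv (l, p)).toLinearMap _ k m).trans ?_
      split_ifs with h
      · subst h
        refine Eq.trans ?_ (map_cov (LinearMap.toSpanSingleton ℂ (K ι d) 1) _ k m).symm
        simp [pderiv_X, Pi.single_apply]
      · simp [pderiv_X, h, cov]
    simp only [Matrix.map_apply, LK_inl, dK_apply, e, Sum.inl.injEq]
    split_ifs with h
    · refine (map_cov (LinearMap.toSpanSingleton ℂ (K ι d) 1)
        (fun p => cov (fun q => if q = p then (1 : ℂ) else 0) k m) i j).symm.trans ?_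
      rw [cov_cov]
      simp [Matrix.single_apply]
    · simp [cov]
  · simp [LK, derivation_C]

/-- product along a word -/
noncomputable def wK (w : List (ι ⊕ Γ)) : Matrix (Fin d) (Fin d) (K ι d) := (w.map (LK ρ)).prod

lemma dK_w (l : ι) (i j : Fin d) (w : List (ι ⊕ Γ)) : (wK ρ w).map (dK l i j) =
    ssum (fun u a v => if a = Sum.inl l then wK ρ u * Matrix.single j i 1 * wK ρ v else 0) w := by
  refine (leib (V := Matrix (Fin d) (Fin d) (K ι d))
    (dK l i j).toLinearMap.toAddMonoidHom.mapMatrix (fun x y => ?_) _ w).trans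
    (ssum_congr fun u a v _ => ?_)
  · ext1 k m
    simp [Matrix.mul_apply, map_sum, sum_add_distrib, mul_comm, add_comm]
  · change _ * (LK ρ a).map (dK l i j) * _ = _
    rw [dK_L]
    split_ifs
    · rfl
    · rw [mul_zero, zero_mul]

/-- normalised trace of a word -/
noncomputable def nK (w : List (ι ⊕ Γ)) : K ι d := (d : ℂ)⁻¹ • (wK ρ w).trace

/-- product of normalised traces -/
noncomputable def fK (W : List (List (ι ⊕ Γ))) : K ι d := (W.map (nK ρ)).prod

lemma idA (l : ι) (w : List (ι ⊕ Γ)) : ∑ i, ∑ j, dK l i j (wK ρ w j i) =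
    ssum (fun u a v => if a = Sum.inl l then (wK ρ u).trace * (wK ρ v).trace else 0) w := by
  have e : ∀ i j, dK l i j (wK ρ w j i) =
      ssum (fun u a v => if a = Sum.inl l then wK ρ u j j * wK ρ v i i else 0) w := fun i j => by
    refine (congrArg (Matrix.entryAddMonoidHom _ j i) (dK_w ρ l i j w)).trans ?_
    rw [map_ssum]
    refine ssum_congr fun u a v _ => ?_
    split_ifs
    · simp [Matrix.mul_apply, Matrix.single_apply, ite_and]
    · rfl
  simp only [e, sum_ssum]
  refine ssum_congr fun u a v _ => ?_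
  split_ifs
  · simp only [Matrix.trace, Matrix.diag, sum_mul, mul_sum]
  · simp

lemma idB (l : ι) (w w' : List (ι ⊕ Γ)) : ∑ i, ∑ j, wK ρ w j i * dK l i j (nK ρ w') =
    ssum (fun u a v => if a = Sum.inl l then nK ρ (w ++ v ++ u) else 0) w' := by
  have e : ∀ i j, wK ρ w j i * dK l i j (nK ρ w') = ssum (fun u a v => if a = Sum.inl l then
      (d : ℂ)⁻¹ • (wK ρ w j i * (wK ρ v * wK ρ u) i j) else 0) w' := fun i j => by
    have := congrArg ((d : ℂ)⁻¹ • LinearMap.mulLeft ℂ (wK ρ w j i) ∘ₗ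
      Matrix.traceLinearMap (Fin d) ℂ (K ι d)) (dK_w ρ l i j w')
    rw [map_ssum] at this
    refine Eq.trans ?_ (this.trans (ssum_congr fun u a v _ => ?_))
    · simp [nK, Matrix.trace, map_sum, mul_sum]
    · split_ifs
      · simp [Matrix.trace_mul_cycle, Matrix.trace_mul_single]
      · rw [map_zero]
  simp only [e, sum_ssum]
  refine ssum_congr fun u a v _ => ?_
  split_ifs
  · simp only [nK, wK, List.map_append, List.prod_append, ← smul_sum, mul_assoc]
    rw [sum_comm]
    rfl
  · simp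

/-- the loop equation -/
lemma step (l : ι) (w : List (ι ⊕ Γ)) (R : List (List (ι ⊕ Γ))) :
    EL (d : ℝ≥0)⁻¹ (fK ρ ((Sum.inl l :: w) :: R)) =
      ssum (fun u a v => if a = Sum.inl l then EL (d : ℝ≥0)⁻¹ (fK ρ (u :: v :: R)) else 0) w +
      (d : ℂ)⁻¹ * (d : ℂ)⁻¹ * ssum (fun U w' V => ssum (fun u a v => if a = Sum.inl l then
        EL (d : ℝ≥0)⁻¹ (fK ρ ((w ++ v ++ u) :: (U ++ V))) else 0) w') R := by
  have e1 : fK ρ ((Sum.inl l :: w) :: R) =
      (d : ℂ)⁻¹ • ∑ i, ∑ j, cov (fun p => X (l, p)) i j * (wK ρ w j i * fK ρ R) := by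
    simp [fK, nK, wK, LK, Matrix.trace, Matrix.mul_apply, sum_mul, mul_assoc]
  have e2 : ∀ i j, wK ρ w j i * dK l i j (fK ρ R) =
      ssum (fun U w' V => wK ρ w j i * dK l i j (nK ρ w') * fK ρ (U ++ V)) R := fun i j => by
    have := leib (dK l i j).toLinearMap.toAddMonoidHom (fun x y => by simp [mul_comm, add_comm])
      (nK ρ) R
    refine (congrArg (AddMonoidHom.mulLeft (wK ρ w j i)) this).trans ?_
    rw [map_ssum]
    exact ssum_congr fun U w' V _ => by simp [fK]; ring
  simp only [e1, map_smul, map_sum, stein_cov, Derivation.leibniz, smul_eq_mul, e2, ← mul_sum]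
  simp only [← map_sum, sum_add_distrib, sum_ssum, ← sum_mul, ← mul_sum, idA, idB, map_add,
    mul_add]
  rw [add_comm, ← mul_assoc, ← mul_assoc]
  congr 1
  · have := map_ssum (((d : ℂ)⁻¹ * (d : ℂ)⁻¹) • EL (d : ℝ≥0)⁻¹ ∘ₗ LinearMap.mulLeft ℂ (fK ρ R))
      (fun u a v => if a = Sum.inl l then (wK ρ u).trace * (wK ρ v).trace else 0) w
    refine this.trans (ssum_congr fun u a v _ => ?_)
    split_ifs
    · simp [fK, nK, mul_assoc, mul_comm, mul_left_comm]
    · rw [map_zero]
  · rw [map_ssum]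
    congr 1
    refine ssum_congr fun U w' V _ => ?_
    refine (map_ssum (EL (d : ℝ≥0)⁻¹ ∘ₗ LinearMap.mulRight ℂ (fK ρ (U ++ V))) _ w').trans
      (ssum_congr fun u a v _ => ?_)
    split_ifs
    · rfl
    · rw [map_zero]

lemma ev_nK (a : ι × (Fin d × Fin d) → ℝ) (w : List (ι ⊕ Γ)) :
    ev a (nK ρ w) = ntr (w.map (Sum.elim (Gm a) ρ)).prod := by
  have e : ∀ x, (ev a).mapMatrix (LK ρ x) = Sum.elim (Gm a) ρ x := fun x => by
    ext i j
    rcases x with l | g
    · rw [AlgHom.mapMatrix_apply, Matrix.map_apply, LK_inl]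
      refine (map_cov (ev a).toLinearMap _ i j).trans ?_
      simp [cov, ev, Gm, hermitianOfCoords, div_eq_inv_mul, mul_comm Complex.I]
    · simp [LK, ev]
  rw [nK, map_smul, AddMonoidHom.map_trace (ev a), ← AlgHom.mapMatrix_apply, wK, map_list_prod,
    List.map_map]
  simp only [Function.comp_def, e]
  rfl

end Crest.Agent.R89.LA
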