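import Crest.Agent.R89.Defs

/-! Row 89, task N: the operator norm of a GUE matrix. -/

set_option autoImplicit false
set_option linter.unusedSectionVars false

open scoped InnerProductSpace ComplexOrder NNReal
open Crest.OpAlg Crest.Agent.R124 Crest.Agent.R95 Crest.Agent.R134 MeasureTheory ProbabilityTheory

namespace Crest.Agent.R89

namespace N

lemma lin_tail {J : Type} [Fintype J] (v : ℝ≥0) (L : (J → ℝ) →ₗ[ℝ] ℝ) (K : ℝ≥0)
    (hL : ∀ a, L a ^ 2 ≤ K * ∑ j, a j ^ 2) {ε : ℝ} (hε : 0 ≤ ε) :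
    (Measure.pi fun _ : J => gaussianReal 0 v).real {a | ε ≤ L a} ≤
      Real.exp (-ε ^ 2 / (2 * (K * v : ℝ≥0))) := by
  classical
  set c : J → ℝ := fun i => L fun j => if i = j then 1 else 0 with hc
  have e : ∀ a, L a = ∑ j, c j * a j := fun a => by
    rw [L.pi_apply_eq_sum_univ]; exact Finset.sum_congr rfl fun _ _ => mul_comm _ _
  have hS : ∑ j, c j ^ 2 ≤ K := by
    have h := hL c
    have h0 : 0 ≤ ∑ j, c j ^ 2 := by positivity
    simp only [e c, ← sq] at h
    nlinarith [K.2]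
  have g : HasSubgaussianMGF (fun x => x) v (gaussianReal 0 v) :=
    ⟨integrable_exp_mul_gaussianReal, fun t => by simp [mgf_fun_id_gaussianReal]⟩
  have h := HasSubgaussianMGF.sum_of_iIndepFun (s := Finset.univ)
    (iIndepFun_pi (μ := fun _ : J => gaussianReal 0 v) (X := fun j x => c j * x) (by fun_prop))
    fun j _ => HasSubgaussianMGF.of_map (Y := fun a : J → ℝ => a j) (measurable_pi_apply j).aemeasurable
      ((measurePreserving_eval (fun _ : J => gaussianReal 0 v) j).map_eq.symm ▸ g.const_mul (c j))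
  simp only [e]
  refine HasSubgaussianMGF.measure_ge_le ⟨h.1, fun t => (h.2 t).trans ?_⟩ hε
  gcongr
  rw [← Finset.sum_mul]
  gcongr
  rw [← NNReal.coe_le_coe, NNReal.coe_sum]
  exact hS

lemma exists_net (E : Type*) [NormedAddCommGroup E] [NormedSpace ℝ E] [FiniteDimensional ℝ E] :
    ∃ N : Finset E, (∀ c ∈ N, ‖c‖ ≤ 2) ∧ N.card ≤ 5 ^ Module.finrank ℝ E ∧
      ∀ x, ‖x‖ ≤ 2 → ∃ c ∈ N, ‖x - c‖ ≤ 1 := by
  classical
  obtain ⟨N, h1, h2, h3⟩ := Nat.sSup_mem (s := {n | ∃ s : Finset E, s.card = n ∧ (∀ c ∈ s, ‖c‖ ≤ 2) ∧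
    ∀ c ∈ s, ∀ d ∈ s, c ≠ d → 1 ≤ ‖c - d‖}) ⟨0, ∅, by simp⟩ ⟨5 ^ Module.finrank ℝ E, by
      rintro _ ⟨s, rfl, h⟩; exact Besicovitch.card_le_of_separated s h.1 h.2⟩
  refine ⟨N, h2, Besicovitch.card_le_of_separated N h2 h3, fun x hx => by_contra fun h => ?_⟩
  push Not at h
  have hx' : x ∉ N := fun m => by simpa using (h x m).trans' zero_lt_one
  have := Besicovitch.card_le_multiplicity (s := insert x N) (by simpa [hx] using h2) (by
    simp only [Finset.mem_insert]
    rintro c (rfl | hc) d (rfl | hd) n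
    exacts [(n rfl).elim, (h d hd).le, norm_sub_rev c d ▸ (h c hc).le, h3 c hc d hd n])
  rw [Finset.card_insert_of_notMem hx', h1] at this
  exact Nat.not_succ_le_self _ this

lemma norm_le_of_net {E : Type*} [NormedAddCommGroup E] [InnerProductSpace ℂ E] {N : Finset E}
    (hN : ∀ x, ‖x‖ ≤ 2 → ∃ c ∈ N, ‖x - c‖ ≤ 1) (T : E →L[ℂ] E) {M : ℝ} (hM : 0 ≤ M)
    (h : ∀ u ∈ N, ∀ v ∈ N, (⟪u, T v⟫_ℂ).re ≤ M) : ‖T‖ ≤ M := by
  have h1 : ∀ v ∈ N, ‖T v‖ ≤ M := fun v hv => by
    by_cases z : T v = 0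
    · simpa [z] using hM
    have z' := norm_ne_zero_iff.2 z
    obtain ⟨c, c1, c2⟩ := hN (((2 / ‖T v‖ : ℝ) : ℂ) • T v) (by
      rw [norm_smul, Complex.norm_real, Real.norm_of_nonneg (by positivity), div_mul_cancel₀ _ z'])
    have e1 := (Complex.re_le_norm _).trans (norm_inner_le_norm (𝕜 := ℂ)
      (((2 / ‖T v‖ : ℝ) : ℂ) • T v - c) (T v))
    rw [inner_sub_left, inner_smul_left, Complex.conj_ofReal, Complex.sub_re, Complex.re_ofReal_mul,
      show (⟪T v, T v⟫_ℂ).re = ‖T v‖ ^ 2 from inner_self_eq_norm_sq (𝕜 := ℂ) _] at e1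
    have e2 : 2 / ‖T v‖ * ‖T v‖ ^ 2 = 2 * ‖T v‖ := by field_simp
    nlinarith [h c c1 v hv, norm_nonneg (T v)]
  have h2 := T.opNorm_le_of_unit_norm (C := (M + ‖T‖) / 2) (by positivity) fun x hx => by
    obtain ⟨c, c1, c2⟩ := hN ((2 : ℂ) • x) (by simp [norm_smul, hx])
    have e1 := T.le_opNorm_of_le c2
    have e2 := norm_add_le (T ((2 : ℂ) • x - c)) (T c)
    rw [← map_add, sub_add_cancel, map_smul, norm_smul] at e2
    have := h1 c c1
    simp only [Complex.norm_ofNat] at e2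
    linarith
  linarith

/-- `Gm` as a real-linear map -/
noncomputable def Gl {ι : Type} (d : ℕ) (l : ι) :
    (ι × (Fin d × Fin d) → ℝ) →ₗ[ℝ] Matrix (Fin d) (Fin d) ℂ where
  toFun a := Gm a l
  map_add' a b := by
    ext i j; simp only [Gm, hermitianOfCoords, Matrix.add_apply, Pi.add_apply]
    split_ifs <;> push_cast <;> ring
  map_smul' c a := by
    ext i j
    simp only [Gm, hermitianOfCoords, Matrix.smul_apply, Pi.smul_apply, smul_eq_mul,
      RingHom.id_apply, Complex.real_smul]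
    split_ifs <;> push_cast <;> ring

lemma opn_sq_le {d : ℕ} (x : Matrix (Fin d) (Fin d) ℂ) : opn x ^ 2 ≤ ∑ i, ∑ j, ‖x i j‖ ^ 2 := by
  refine (Real.le_sqrt (norm_nonneg _) (by positivity)).1
    (ContinuousLinearMap.opNorm_le_of_unit_norm (by positivity) fun v hv => ?_)
  have h := EuclideanSpace.norm_sq_eq v
  rw [hv] at h
  rw [EuclideanSpace.norm_eq]
  refine Real.sqrt_le_sqrt (Finset.sum_le_sum fun i _ => ?_)
  have := Finset.sum_mul_sq_le_sq_mul_sq Finset.univ (fun j => ‖x i j‖) fun j => ‖v j‖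
  rw [← h, one_pow, mul_one] at this
  refine le_trans (pow_le_pow_left₀ (norm_nonneg _) ?_ 2) this
  simp only [← norm_mul]
  exact norm_sum_le Finset.univ fun j => x i j * v j

lemma opn_Gm {ι : Type} [Fintype ι] {d : ℕ} (a : ι × (Fin d × Fin d) → ℝ) (l : ι) :
    opn (Gm a l) ^ 2 ≤ 2 * ∑ j, a j ^ 2 := by
  have h : ∀ i j, ‖Gm a l i j‖ ^ 2 ≤ a (l, i, j) ^ 2 + a (l, j, i) ^ 2 := fun i j => by
    have := sq_nonneg (a (l, i, j))
    have := sq_nonneg (a (l, j, i))
    simp only [Gm, hermitianOfCoords]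
    split_ifs with h1
    · subst h1; simp; positivity
    all_goals
      rw [norm_div, div_pow, Complex.sq_norm, Complex.norm_real, Real.norm_eq_abs, sq_abs,
        Real.sq_sqrt zero_le_two]
      simp [Complex.normSq_apply]; nlinarith
  refine (opn_sq_le _).trans ((Finset.sum_le_sum fun i _ => Finset.sum_le_sum fun j _ =>
    h i j).trans ?_)
  simp only [Finset.sum_add_distrib]
  rw [Finset.sum_comm (f := fun i j => a (l, j, i) ^ 2), ← two_mul, Fintype.sum_prod_type,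
    ← Fintype.sum_prod_type (f := fun p => a (l, p) ^ 2)]
  gcongr
  exact Finset.single_le_sum (f := fun l => ∑ p, a (l, p) ^ 2) (fun _ _ => by positivity)
    (Finset.mem_univ l)

end N

open N in
/-- Net argument with a maximal separated set in the ball of radius two. -/
theorem opn_tail : ∃ R : ℝ, 0 < R ∧ ∀ (ι : Type) [Fintype ι] (δ : ℝ), 0 < δ →
    ∃ d0 : ℕ, ∀ d ≥ d0, gm ι d {a | ∃ l, R < opn (Gm a l)} ≤ ENNReal.ofReal δ := by
  refine ⟨256, by norm_num, fun ι _ δ hδ => ?_⟩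
  have h1 : 625 * Real.exp (-1024) < 1 := by
    rw [Real.exp_neg, ← div_eq_mul_inv, div_lt_one (Real.exp_pos _)]
    linarith [Real.add_one_le_exp 1024]
  have h2 := (tendsto_pow_atTop_nhds_zero_of_lt_one (by positivity) h1).const_mul
    (Fintype.card ι : ℝ)
  rw [mul_zero] at h2
  obtain ⟨d0, hd⟩ := Filter.eventually_atTop.1 (h2.eventually_le_const hδ)
  refine ⟨d0, fun d h => ?_⟩
  obtain ⟨N, n1, n2, n3⟩ := exists_net (EuclideanSpace ℂ (Fin d))
  let L : ι × EuclideanSpace ℂ (Fin d) × EuclideanSpace ℂ (Fin d) → _ →ₗ[ℝ] ℝ := fun x =>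
    Complex.reLm ∘ₗ ((innerₛₗ ℂ x.2.1 ∘ₗ (ContinuousLinearMap.apply ℂ _ x.2.2).toLinearMap ∘ₗ
      (Matrix.toEuclideanCLM (n := Fin d) (𝕜 := ℂ)).toAlgEquiv.toLinearMap).restrictScalars ℝ) ∘ₗ
      Gl d x.1
  have hL : ∀ x a, L x a = (⟪x.2.1, Matrix.toEuclideanCLM (n := Fin d) (𝕜 := ℂ) (Gm a x.1)
    x.2.2⟫_ℂ).re := fun _ _ => rfl
  rw [← ofReal_measureReal]
  refine ENNReal.ofReal_le_ofReal (le_trans ?_ (hd d h))
  calc _ ≤ (gm ι d).real (⋃ x ∈ Finset.univ ×ˢ N ×ˢ N, {a | 256 ≤ L x a}) := by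
        refine measureReal_mono (fun a ⟨l, hl⟩ => by_contra fun n => hl.not_ge ?_)
          (measure_ne_top _ _)
        refine norm_le_of_net n3 _ (by norm_num) fun u hu v hv => le_of_not_gt fun m => n ?_
        exact Set.mem_biUnion (x := (l, u, v)) (by simp [hu, hv]) m.le
    _ ≤ ∑ x ∈ Finset.univ ×ˢ N ×ˢ N, Real.exp (-1024 * d) := by
        refine (measureReal_biUnion_finset_le _ _).trans (Finset.sum_le_sum fun x hx => ?_)
        simp only [Finset.mem_product] at hx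
        refine (lin_tail _ (L x) 32 (fun a => ?_) (by norm_num)).trans (le_of_eq ?_)
        · have e1 := (Complex.abs_re_le_norm _).trans ((norm_inner_le_norm (𝕜 := ℂ) _ _).trans
            (mul_le_mul (n1 _ hx.2.1) ((Matrix.toEuclideanCLM (n := Fin d) (𝕜 := ℂ)
              (Gm a x.1)).le_opNorm_of_le (n1 _ hx.2.2)) (norm_nonneg _) zero_le_two))
          have e2 := pow_le_pow_left₀ (abs_nonneg _) e1 2
          have e3 := opn_Gm a x.1
          rw [sq_abs, ← hL] at e2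
          unfold opn at e3
          push_cast; nlinarith
        · push_cast; congr 1; field_simp; ring
    _ ≤ _ := by
        have : Module.finrank ℝ (EuclideanSpace ℂ (Fin d)) = 2 * d := by
          rw [← Module.finrank_mul_finrank ℝ ℂ]; simp
        rw [this, pow_mul] at n2
        have n4 : (N.card : ℝ) ≤ 25 ^ d := by exact_mod_cast n2
        rw [Finset.sum_const, Finset.card_product, Finset.card_product, Finset.card_univ,
          nsmul_eq_mul, mul_pow, ← Real.exp_nat_mul, mul_comm (d : ℝ), ← mul_assoc _ (_ ^ d),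
          show (625 : ℝ) = 25 * 25 by norm_num, mul_pow]
        push_cast; gcongr

end Crest.Agent.R89
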