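import Crest.Agent.R89.Loop
import Crest.Agent.R89.Norm

/-! Row 89, task W: the microstates entropy is finite. -/

set_option autoImplicit false
set_option linter.unusedSectionVars false

open scoped InnerProductSpace ComplexOrder NNReal
open Crest.OpAlg Crest.Agent.R124 Crest.Agent.R95 Crest.Agent.R134 MeasureTheory ProbabilityTheory

namespace Crest.Agent.R89

namespace W

lemma exists_good {Γ : Type} [CommGroup Γ] [DecidableEq Γ] [Fintype Γ] (h2 : ∀ g : Γ, g * g = 1)
    {k d : ℕ} (hk : d ≠ 0) (hd : d = Fintype.card Γ * k) :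
    ∃ ρ : Γ →* Matrix (Fin d) (Fin d) ℂ, Good ρ ∧ ∀ g, opn (ρ g) ≤ 1 := by
  let e : Γ × Fin k ≃ Fin d := Fintype.equivFinOfCardEq (by simp [hd])
  let φ : Γ →* Equiv.Perm (Fin d) := MonoidHom.mk'
    (fun g => e.permCongr ((Equiv.mulLeft g).prodCongr (Equiv.refl _))) fun a b => by
      ext x; simp [Prod.map]
  have hi : ∀ g, (φ g)⁻¹ = φ g := fun g => by rw [← map_inv, inv_eq_of_mul_eq_one_right (h2 g)]
  refine ⟨Matrix.permMatrixHom.comp φ, ⟨fun g => ?_, fun g => ?_⟩, fun g =>
    Matrix.permMatrix_l2_opNorm_le _⟩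
  · simp [Matrix.star_eq_conjTranspose, hi]
  · split_ifs with h
    · simp [h, ntr, hk]
    · have : Function.fixedPoints (φ g) = ∅ := Set.eq_empty_of_forall_notMem fun x hx => h (by
        have := congrArg (fun y => (e.symm y).1) (hx : φ g x = x)
        simpa [φ] using this)
      simp [ntr, hi, Matrix.trace_permutation, this]

lemma opn_add {d : ℕ} (x y : Matrix (Fin d) (Fin d) ℂ) : opn (x + y) ≤ opn x + opn y := by
  unfold opn; rw [map_add]; exact norm_add_le _ _

lemma opn_smul {d : ℕ} (c : ℂ) (x : Matrix (Fin d) (Fin d) ℂ) : opn (c • x) = ‖c‖ * opn x := by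
  unfold opn; rw [map_smul, norm_smul]

lemma opn_lift {X : Type} (R : ℝ) (q : FreeAlgebra ℂ X) : ∃ C, ∀ (d : ℕ)
    (f : X → Matrix (Fin d) (Fin d) ℂ), (∀ a, opn (f a) ≤ R) → opn (FreeAlgebra.lift ℂ f q) ≤ C := by
  induction q with
  | grade0 r =>
    refine ⟨‖r‖, fun d f _ => ?_⟩
    rw [AlgHom.commutes, Algebra.algebraMap_eq_smul_one, opn_smul, opn, map_one]
    exact mul_le_of_le_one_right (norm_nonneg _) ContinuousLinearMap.norm_id_le
  | grade1 x => exact ⟨R, fun d f h => by simpa using h x⟩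
  | mul a b ha hb =>
    obtain ⟨C, ha⟩ := ha
    obtain ⟨C', hb⟩ := hb
    refine ⟨C * C', fun d f h => ?_⟩
    rw [map_mul, opn, map_mul]
    exact (norm_mul_le _ _).trans (mul_le_mul (ha d f h) (hb d f h) (norm_nonneg _)
      ((norm_nonneg _).trans (ha d f h)))
  | add a b ha hb =>
    obtain ⟨C, ha⟩ := ha
    obtain ⟨C', hb⟩ := hb
    exact ⟨C + C', fun d f h => by
      rw [map_add]; exact (opn_add _ _).trans (add_le_add (ha d f h) (hb d f h))⟩

lemma cont_lift {X Z : Type} [TopologicalSpace Z] {d : ℕ} (f : Z → X → Matrix (Fin d) (Fin d) ℂ)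
    (hf : ∀ a, Continuous fun z => f z a) (q : FreeAlgebra ℂ X) :
    Continuous fun z => FreeAlgebra.lift ℂ (f z) q := by
  induction q with
  | grade0 r => simpa using continuous_const
  | grade1 x => simpa using hf x
  | mul a b ha hb => simp only [map_mul]; exact ha.mul hb
  | add a b ha hb => simp only [map_add]; exact ha.add hb

/-- coordinates of a Hermitian matrix -/
noncomputable def co {d : ℕ} (M : Matrix (Fin d) (Fin d) ℂ) (p : Fin d × Fin d) : ℝ :=
  if p.1 = p.2 then (M p.1 p.1).re else if p.1 < p.2 then √2 * (M p.1 p.2).re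
    else √2 * (M p.2 p.1).im

lemma herm_co {d : ℕ} {M : Matrix (Fin d) (Fin d) ℂ} (hM : star M = M) :
    hermitianOfCoords (WithLp.toLp 2 (co M)) = M := by
  ext i j
  have h := congrFun (congrFun hM i) j
  rw [Matrix.star_apply, Complex.ext_iff] at h
  have h2 : ((√2 : ℝ) : ℂ) ≠ 0 := by simp
  simp only [hermitianOfCoords, co]
  rcases lt_trichotomy i j with h1 | rfl | h1
  · simp only [h1, h1.ne, h1.ne', h1.not_gt, if_true, if_false]
    rw [div_eq_iff h2, Complex.ext_iff]; simp [mul_comm]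
  · simp only [if_true, Complex.ext_iff]
    simp at h ⊢; linarith
  · simp only [h1, h1.ne, h1.ne', h1.not_gt, if_true, if_false]
    rw [div_eq_iff h2, Complex.ext_iff]; simp [mul_comm, ← h.1, ← h.2]

lemma Gm_co {ι : Type} {d : ℕ} (M : ι → Matrix (Fin d) (Fin d) ℂ) (i : ι) (h : star (M i) = M i) :
    Gm (fun j => co (M j.1) j.2) i = M i := herm_co h

lemma star_Gm {ι : Type} {d : ℕ} (a : ι × (Fin d × Fin d) → ℝ) (l : ι) : star (Gm a l) = Gm a l := by
  ext i j
  simp only [Matrix.star_apply, Gm, hermitianOfCoords]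
  rcases lt_trichotomy i j with h1 | rfl | h1
  · simp [h1, h1.ne, h1.ne', h1.not_gt]
  · simp
  · simp [h1, h1.ne, h1.ne', h1.not_gt, sub_eq_add_neg]

lemma Gm_aff {ι : Type} {d : ℕ} (c y : ι × (Fin d × Fin d) → ℝ) (σ : ι → ℝ) (i : ι) :
    Gm (fun j => c j + σ j.1 * y j) i = Gm c i + (σ i : ℂ) • Gm y i := by
  ext a b; simp only [Gm, hermitianOfCoords, Matrix.add_apply, Matrix.smul_apply, smul_eq_mul]
  split_ifs <;> push_cast <;> ring

lemma gauss_le {J : Type} [Fintype J] {v : ℝ≥0} (hv : v ≠ 0) (c s : J → ℝ) (hs : ∀ j, 0 < s j)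
    (S : Set (J → ℝ)) : ENNReal.ofReal (∏ j, s j * √v) *
      (Measure.pi fun _ : J => gaussianReal 0 v) {y | (fun j => c j + s j * y j) ∈ S} ≤ volume S := by
  have hv' : 0 < √v := Real.sqrt_pos.2 (by positivity)
  have h1 : ∀ t, gaussianReal 0 v t ≤ ENNReal.ofReal (√v)⁻¹ * volume t := fun t => by
    rw [gaussianReal_apply _ hv, ← setLIntegral_const]
    refine lintegral_mono fun x => ENNReal.ofReal_le_ofReal ?_
    refine (mul_le_of_le_one_right (by positivity) (Real.exp_le_one_iff.2 ?_)).trans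
      (inv_anti₀ hv' (Real.sqrt_le_sqrt ?_))
    · exact div_nonpos_of_nonpos_of_nonneg (neg_nonpos.2 (sq_nonneg _)) (by positivity)
    · nlinarith [Real.pi_gt_three, v.2]
  have h := (OuterMeasure.le_pi (m := fun _ : J => (volume : Measure ℝ).toOuterMeasure)
    (n := ENNReal.ofReal (∏ j, s j * √v) • OuterMeasure.map (fun y j => c j + s j * y j)
      (Measure.pi fun _ : J => gaussianReal 0 v).toOuterMeasure)).2 fun t _ => by
    have e : (fun (y : J → ℝ) j => c j + s j * y j) ⁻¹' Set.univ.pi t =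
        Set.univ.pi fun j => (s j * ·) ⁻¹' ((c j + ·) ⁻¹' t j) := by ext; simp
    simp only [smul_apply, OuterMeasure.map_apply, e, Measure.coe_toOuterMeasure,
      Measure.pi_pi, smul_eq_mul]
    rw [ENNReal.ofReal_prod_of_nonneg fun j _ => (mul_pos (hs j) hv').le, ← Finset.prod_mul_distrib]
    refine Finset.prod_le_prod' fun j _ => (mul_le_mul_right (h1 _) _).trans (le_of_eq ?_)
    have := hs j
    rw [Real.volume_preimage_mul_left this.ne', measure_preimage_add, ← mul_assoc, ← mul_assoc,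
      ← ENNReal.ofReal_mul (by positivity), ← ENNReal.ofReal_mul (by positivity),
      abs_of_pos (by positivity), show s j * √v * (√v)⁻¹ * (s j)⁻¹ = 1 by field_simp]
    simp
  refine (h S).trans ?_
  rw [volume_pi, Measure.pi_def]
  exact le_toMeasure_apply _ _ _

/-- gluing the coordinates -/
def glue {n : ℕ} {D : Type} (z : (D → ℝ) × (Fin n × D → ℝ)) (j : Option (Fin n) × D) : ℝ :=
  j.1.elim (z.1 j.2) fun i => z.2 (i, j.2)

lemma glue_mp {n : ℕ} {D : Type} [Fintype D] (μ : Measure ℝ) [IsProbabilityMeasure μ] :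
    MeasurePreserving (glue (n := n) (D := D))
      ((Measure.pi fun _ => μ).prod (Measure.pi fun _ => μ)) (Measure.pi fun _ => μ) := by
  have m : Measurable (glue (n := n) (D := D)) := measurable_pi_lambda _ fun ⟨o, p⟩ => by
    cases o <;> simp only [glue, Option.elim] <;> fun_prop
  refine ⟨m, (Measure.pi_eq fun s hs => ?_).symm⟩
  have e : glue ⁻¹' Set.univ.pi s = (Set.univ.pi fun p => s (none, p)) ×ˢ
      Set.univ.pi fun j : Fin n × D => s (some j.1, j.2) := by
    ext z; simp [glue, Option.forall]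
  rw [Measure.map_apply m (MeasurableSet.univ_pi hs), e, Measure.prod_prod, Measure.pi_pi,
    Measure.pi_pi, Fintype.prod_prod_type, Fintype.prod_prod_type, Fintype.prod_option]

/-- the formal tuple -/
noncomputable def Xh {n : ℕ} {Γ : Type} (q : Fin n → FreeAlgebra ℂ (Option Γ)) (σ : Fin n → ℝ)
    (i : Fin n) : FreeAlgebra ℂ (Option (Fin n) ⊕ Γ) := FreeAlgebra.lift ℂ
  (fun a : Option Γ => a.elim (FreeAlgebra.ι ℂ (Sum.inl none)) fun g => FreeAlgebra.ι ℂ (Sum.inr g))
    (q i) + (σ i : ℂ) • FreeAlgebra.ι ℂ (Sum.inl (some i))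

lemma lift_word {n : ℕ} {Γ : Type} (q : Fin n → FreeAlgebra ℂ (Option Γ)) (σ : Fin n → ℝ)
    {B : Type*} [Ring B] [Algebra ℂ B] (Y : Option (Fin n) → B) (E : Γ → B) (w : FreeMonoid (Fin n)) :
    FreeAlgebra.lift ℂ (Sum.elim Y E) (wordEval (Xh q σ) w) = wordEval (fun i => FreeAlgebra.lift ℂ
      (fun a : Option Γ => a.elim (Y none) E) (q i) + (σ i : ℂ) • Y (some i)) w := by
  rw [wordEval_eq_prod, wordEval_eq_prod, map_list_prod, List.map_map]
  congr 2
  funext i
  simp only [Function.comp, Xh, map_add, map_smul, FreeAlgebra.lift_ι_apply, Sum.elim_inl]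
  congr 1
  rw [← AlgHom.comp_apply]
  congr 1
  ext a
  cases a <;> simp

end W

open W in
/-- GUE perturbations are microstates with probability at least one half, and their law has a
bounded density. -/
theorem chi_gt_bot {A : Type*} [CStarAlgebra A] (T : TS A) (P : StarSubalgebra ℂ A) {n : ℕ}
    {Γ : Type} [CommGroup Γ] [DecidableEq Γ] [Fintype Γ] (h2 : ∀ g : Γ, g * g = 1) (E : Γ →* A)
    (hE : ∀ g, E g ∈ P) (hEs : ∀ g, star (E g) = E g)
    (hτ : ∀ g, T.τ (E g) = if g = 1 then 1 else 0) (Y : Option (Fin n) → A) (hY : SD T P Y)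
    (q : Fin n → FreeAlgebra ℂ (Option Γ))
    (hq : ∀ (i : Fin n) (d : ℕ) (f : Option Γ → Matrix (Fin d) (Fin d) ℂ), (∀ a, star (f a) = f a) →
      star (FreeAlgebra.lift ℂ f (q i)) = FreeAlgebra.lift ℂ f (q i))
    (σ : Fin n → ℝ) (hσ : ∀ i, 0 < σ i) :
    ⊥ < chi T.τ fun i => FreeAlgebra.lift ℂ (fun a : Option Γ => a.elim (Y none) E) (q i) +
      (σ i : ℂ) • Y (some i) := by
  obtain ⟨R, hR, hN⟩ := opn_tail
  choose C hC using fun i => opn_lift (max R 1) (q i)
  set X := fun i => FreeAlgebra.lift ℂ (fun a : Option Γ => a.elim (Y none) E) (q i) +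
      (σ i : ℂ) • Y (some i) with hX
  refine (EReal.bot_lt_coe (∑ i, Real.log (σ i) - 1)).trans_le (le_iSup₂_of_le
    (∑ i, |C i + σ i * R| + 1) (by positivity) (le_iInf fun m => le_iInf₂ fun ε hε => ?_))
  have hW := List.finite_length_le (Fin n) m
  set δ := min ε (1 / (2 * (hW.toFinset.card + 1))) with hδ
  have δ0 : 0 < δ := by positivity
  have ev := ((Filter.eventually_all_finset hW.toFinset).2 fun w _ => Filter.eventually_atTop.2
    (loop T P E hE hEs hτ Y hY (wordEval (Xh q σ) (FreeMonoid.toList.symm w)) δ0)).and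
    ((Filter.eventually_atTop.2 (hN (Option (Fin n)) δ δ0)).and (Filter.eventually_ne_atTop 0))
  refine Filter.le_limsup_of_frequently_le' ((Filter.Frequently.and_eventually
    (Nat.frequently_modEq Fintype.card_ne_zero (n := Fintype.card Γ) 0) ev).mono ?_)
  rintro d ⟨h1, h3, h4, h5⟩
  obtain ⟨k, hk⟩ := Nat.modEq_zero_iff_dvd.1 h1
  obtain ⟨ρ, ρ1, ρ2⟩ := exists_good h2 h5 hk
  have d0 : (0 : ℝ) < d := by positivity
  set v : ℝ≥0 := (d : ℝ≥0)⁻¹ with hv
  let M : (Fin d × Fin d → ℝ) → Fin n → Matrix (Fin d) (Fin d) ℂ := fun x i =>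
    FreeAlgebra.lift ℂ (fun a : Option Γ => a.elim (Gm (fun j : Unit × _ => x j.2) ()) ρ) (q i)
  let Φ : (Fin d × Fin d → ℝ) × (Fin n × Fin d × Fin d → ℝ) → Fin n × Fin d × Fin d → ℝ :=
    fun z j => co (M z.1 j.1) j.2 + σ j.1 * z.2 j
  have mΦ : Measurable Φ := Continuous.measurable (continuous_pi fun j => by
    have : Continuous fun x => M x j.1 := cont_lift _ (fun a => by
      cases a with
      | none =>
        refine continuous_matrix fun a b => ?_
        simp only [Option.elim, Gm, hermitianOfCoords]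
        split_ifs <;> fun_prop
      | some g => exact continuous_const) _
    simp only [Φ, co]
    split_ifs <;> fun_prop)
  set S := microstates T.τ X (∑ i, |C i + σ i * R| + 1) m d ε with hS
  set S' := toMeasurable volume (WithLp.toLp 2 ⁻¹' S) with hS'
  let B : Set (Option (Fin n) × Fin d × Fin d → ℝ) := {a | ∃ l, R < opn (Gm a l)} ∪
    ⋃ w ∈ hW.toFinset, {a | δ ≤ ‖ntr (FreeAlgebra.lift ℂ (Sum.elim (Gm a) ρ)
      (wordEval (Xh q σ) (FreeMonoid.toList.symm w))) - T.τ (FreeAlgebra.lift ℂ (Sum.elim Y E)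
        (wordEval (Xh q σ) (FreeMonoid.toList.symm w)))‖}
  have hB : gm _ d B ≤ 2⁻¹ := by
    refine (measure_union_le _ _).trans ((add_le_add h4 ((measure_biUnion_finset_le _ _).trans
      (Finset.sum_le_sum fun w hw => h3 w hw ρ ρ1))).trans ?_)
    rw [← ENNReal.ofReal_sum_of_nonneg fun _ _ => δ0.le, ← ENNReal.ofReal_add δ0.le (by positivity),
      ← ENNReal.ofReal_ofNat, ← ENNReal.ofReal_inv_of_pos two_pos, Finset.sum_const, nsmul_eq_mul]
    refine ENNReal.ofReal_le_ofReal ?_
    have := (le_div_iff₀ (by positivity)).1 (hδ ▸ min_le_right _ _ : δ ≤ _)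
    linarith
  have hc : ∀ z, glue z ∉ B → Φ z ∈ S' := fun z hz => subset_toMeasurable _ _ (by
    simp only [B, Set.mem_union, Set.mem_iUnion, Set.mem_ofPred_eq, not_or, not_exists, not_lt,
      not_le, lift_word, Set.Finite.mem_toFinset] at hz
    have e : matrixTuple (WithLp.toLp 2 (Φ z)) = fun i => FreeAlgebra.lift ℂ
        (fun a : Option Γ => a.elim (Gm (glue z) none) ρ) (q i) + (σ i : ℂ) • Gm (glue z) (some i) :=
      funext fun i => (Gm_aff (fun j => co (M z.1 j.1) j.2) z.2 σ i).trans (by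
        have e0 : star (M z.1 i) = M z.1 i := hq i d
          (fun a : Option Γ => a.elim (Gm (fun j : Unit × _ => z.1 j.2) ()) ρ) fun a => by
            cases a; exacts [star_Gm (fun j : Unit × _ => z.1 j.2) (), ρ1.1 _]
        have e1 := Gm_co (M z.1) i e0
        have e2 : Gm z.2 i = Gm (glue z) (some i) := rfl
        have e3 : Gm (glue z) none = Gm (fun j : Unit × _ => z.1 j.2) () := rfl
        rw [e1, e2, e3])
    refine ⟨fun i => ?_, fun w hw => ?_⟩
    · rw [e]
      have e1 := hC i d (fun a : Option Γ => a.elim (Gm (glue z) none) ρ) fun a => by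
        cases a; exacts [(hz.1 _).trans (le_max_left _ _), (ρ2 _).trans (le_max_right _ _)]
      have e2 := Finset.single_le_sum (f := fun i => |C i + σ i * R|) (fun _ _ => abs_nonneg _)
        (Finset.mem_univ i)
      refine (opn_add _ _).trans ?_
      rw [opn_smul, Complex.norm_real, Real.norm_of_nonneg (hσ i).le]
      linarith [mul_le_mul_of_nonneg_left (hz.1 (some i)) (hσ i).le, le_abs_self (C i + σ i * R)]
    · have := (hz.2 _ hw).trans_le (min_le_left _ _)
      rw [Equiv.symm_apply_apply] at this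
      rw [e]
      exact this)
  have h6 : (2⁻¹ : ENNReal) ≤ ((Measure.pi fun _ => gaussianReal 0 v).prod
      (Measure.pi fun _ => gaussianReal 0 v)) (Φ ⁻¹' S') := by
    have := (measure_mono (s := Set.univ) (t := glue ⁻¹' B ∪ Φ ⁻¹' S') fun z _ =>
      (or_iff_not_imp_left.2 (hc z))).trans ((measure_union_le _ _).trans (add_le_add_left
        (((glue_mp (gaussianReal 0 v)).measure_preimage_le B).trans hB) _))
    rwa [measure_univ, ← ENNReal.inv_two_add_inv_two, ENNReal.add_le_add_iff_left (by simp)] at this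
  have K0 : 0 < ∏ j : Fin n × Fin d × Fin d, σ j.1 * √v :=
    Finset.prod_pos fun j _ => mul_pos (hσ _) (Real.sqrt_pos.2 (by simp [hv, d0]))
  have h7 : ENNReal.ofReal ((∏ j : Fin n × Fin d × Fin d, σ j.1 * √v) * 2⁻¹) ≤ volume S := by
    rw [ENNReal.ofReal_mul K0.le, ENNReal.ofReal_inv_of_pos two_pos, ENNReal.ofReal_ofNat]
    refine (mul_le_mul_right h6 _).trans ?_
    rw [Measure.prod_apply (mΦ (measurableSet_toMeasurable _ _)),
      ← lintegral_const_mul' _ _ ENNReal.ofReal_ne_top]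
    refine (lintegral_mono fun x => gauss_le (v := v) (by simp [hv, h5]) (fun j => co (M x j.1) j.2)
      (fun j => σ j.1) (fun j => hσ _) S').trans ?_
    rw [lintegral_const, measure_univ, mul_one, measure_toMeasurable]
    exact (PiLp.volume_preserving_toLp _).measure_preimage_le _
  refine le_trans ?_ (add_le_add_left (mul_le_mul_of_nonneg_left (ENNReal.log_monotone h7)
    (EReal.coe_nonneg.2 (by positivity))) _)
  rw [ENNReal.log_ofReal_of_pos (by positivity), ← EReal.coe_mul, ← EReal.coe_add,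
    EReal.coe_le_coe_iff, Real.log_mul K0.ne' (by positivity), Real.log_prod fun j _ =>
      (mul_pos (hσ _) (Real.sqrt_pos.2 (by simp [hv, d0]))).ne', Fintype.sum_prod_type]
  have e : ∀ i, Real.log (σ i * √v) = Real.log (σ i) - Real.log d / 2 := fun i => by
    rw [Real.log_mul (hσ i).ne' (Real.sqrt_pos.2 (by simp [hv, d0])).ne', Real.log_sqrt v.coe_nonneg]
    simp [hv]; ring
  have d1 : (1 : ℝ) ≤ (d : ℝ) ^ 2 := one_le_pow₀ (by exact_mod_cast Nat.pos_of_ne_zero h5)
  have l2 := Real.log_le_sub_one_of_pos two_pos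
  simp only [e, Finset.sum_const, Finset.card_univ, Fintype.card_prod, Fintype.card_fin,
    nsmul_eq_mul, ← Finset.mul_sum, Finset.sum_sub_distrib, Real.log_inv]
  rw [← sub_nonneg, show ((d : ℝ) ^ 2)⁻¹ * (((d * d : ℕ) : ℝ) * (∑ i, Real.log (σ i) -
    n * (Real.log d / 2)) + -Real.log 2) + n / 2 * Real.log d - (∑ i, Real.log (σ i) - 1) =
      (d ^ 2 - Real.log 2) / d ^ 2 by push_cast; field_simp; ring]
  exact div_nonneg (by linarith) (by positivity)

end Crest.Agent.R89
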